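import Crest.Agent.N346.Sp.Defs

/-!
# Row 346, spinor layer: the weighted Kato inequality (pure Clifford algebra).
-/

set_option autoImplicit false
open scoped InnerProductSpace

noncomputable section

namespace Crest.Agent.N346.Sp

variable {n : ℕ} {S : Type} [NormedAddCommGroup S] [InnerProductSpace ℝ S]
  {c : Fin n → S →L[ℝ] S}

theorem Cl.inner_cc (hc : Cl c) (a b : Fin n) (u : S) :
    ⟪c a u, c b u⟫_ℝ = if a = b then ‖u‖ ^ 2 else 0 := by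
  have h1 := hc.skew a u (c b u)
  have h2 := hc.skew b u (c a u)
  have h3 : ⟪u, c a (c b u) + c b (c a u)⟫_ℝ = ⟪u, (if a = b then (-2 : ℝ) else 0) • u⟫_ℝ := by
    rw [hc.anti]
  rw [inner_add_right, inner_smul_right, real_inner_self_eq_norm_sq] at h3
  have h4 : ⟪c b u, c a u⟫_ℝ = ⟪c a u, c b u⟫_ℝ := real_inner_comm _ _
  split_ifs at h3 ⊢ <;> linarith

theorem Cl.norm_c (hc : Cl c) (a : Fin n) (u : S) : ‖c a u‖ = ‖u‖ := by
  have h := hc.inner_cc a a u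
  rw [if_pos rfl, real_inner_self_eq_norm_sq] at h
  exact (pow_left_inj₀ (norm_nonneg _) (norm_nonneg _) two_ne_zero).1 h

theorem cv_add (c : Fin n → S →L[ℝ] S) (β γ : E n) (u : S) :
    cv c (β + γ) u = cv c β u + cv c γ u := by
  simp [cv, add_smul, Finset.sum_add_distrib]

theorem cv_smul (c : Fin n → S →L[ℝ] S) (t : ℝ) (β : E n) (u : S) :
    cv c (t • β) u = t • cv c β u := by
  simp [cv, Finset.smul_sum, smul_smul]

theorem cv_zero (c : Fin n → S →L[ℝ] S) (u : S) : cv c 0 u = 0 := by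
  simp [cv]

theorem cv_add_right (c : Fin n → S →L[ℝ] S) (β : E n) (u v : S) :
    cv c β (u + v) = cv c β u + cv c β v := by
  simp [cv, Finset.sum_add_distrib]

theorem cv_smul_right (c : Fin n → S →L[ℝ] S) (β : E n) (t : ℝ) (u : S) :
    cv c β (t • u) = t • cv c β u := by
  simp [cv, Finset.smul_sum, smul_smul, mul_comm]

theorem Cl.cv_skew (hc : Cl c) (β : E n) (u v : S) :
    ⟪cv c β u, v⟫_ℝ = -⟪u, cv c β v⟫_ℝ := by
  simp only [cv, sum_inner, inner_sum, inner_smul_left, inner_smul_right, hc.skew,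
    ← Finset.sum_neg_distrib]
  exact Finset.sum_congr rfl fun a _ => by simp

theorem Cl.inner_cv_c (hc : Cl c) (β : E n) (a : Fin n) (u : S) :
    ⟪cv c β u, c a u⟫_ℝ = β a * ‖u‖ ^ 2 := by
  simp only [cv, sum_inner, inner_smul_left, hc.inner_cc]
  simp

theorem Cl.inner_cv_cv (hc : Cl c) (β γ : E n) (u : S) :
    ⟪cv c β u, cv c γ u⟫_ℝ = ⟪β, γ⟫_ℝ * ‖u‖ ^ 2 := by
  have : ⟪cv c β u, cv c γ u⟫_ℝ = ∑ a, γ a * ⟪cv c β u, c a u⟫_ℝ := by
    conv_lhs => rw [show cv c γ u = ∑ a, γ a • c a u from rfl]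
    simp only [inner_sum, inner_smul_right]
  rw [this]
  simp only [hc.inner_cv_c, PiLp.inner_apply, Finset.sum_mul]
  exact Finset.sum_congr rfl fun a _ => by simp; ring

theorem Cl.norm_cv_sq (hc : Cl c) (β : E n) (u : S) : ‖cv c β u‖ ^ 2 = ‖β‖ ^ 2 * ‖u‖ ^ 2 := by
  rw [← real_inner_self_eq_norm_sq, hc.inner_cv_cv, real_inner_self_eq_norm_sq]

theorem Cl.norm_cv (hc : Cl c) (β : E n) (u : S) : ‖cv c β u‖ = ‖β‖ * ‖u‖ := by
  have h := hc.norm_cv_sq β u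
  rw [← mul_pow] at h
  exact (pow_left_inj₀ (norm_nonneg _) (by positivity) two_ne_zero).1 h

/-- The Kato inequality with the rescaled vector `b`. -/
theorem Cl.kato_aux (hc : Cl c) (T : Fin n → S) (ψ : S) (b G : E n)
    (hG : ∀ a, G a = ⟪ψ, T a⟫_ℝ / ‖ψ‖) :
    ‖G‖ ^ 2 + 2 * ‖ψ‖ * ⟪b, G⟫_ℝ - ((n : ℝ) - 2) * (‖b‖ ^ 2 * ‖ψ‖ ^ 2) ≤
      (∑ a, ‖T a‖ ^ 2) - ‖∑ a, c a (T a)‖ ^ 2 + ‖(∑ a, c a (T a)) + cv c b ψ‖ ^ 2 := by
  set w := cv c b ψ with hw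
  set Y := ‖ψ‖ with hY
  have hY0 : 0 ≤ Y := norm_nonneg _
  have hw2 : ‖w‖ ^ 2 = ‖b‖ ^ 2 * Y ^ 2 := hc.norm_cv_sq b ψ
  have hTG : ∀ a, ⟪ψ, T a⟫_ℝ = Y * G a := by
    intro a
    rw [hG a]
    rcases eq_or_lt_of_le hY0 with h | h
    · have : ψ = 0 := norm_eq_zero.1 h.symm
      simp [this, ← h]
    · field_simp
  have hcw : ∀ a, ⟪ψ, c a w⟫_ℝ = -(b a * Y ^ 2) := by
    intro a
    have h1 := hc.skew a ψ w
    have h2 := hc.inner_cv_c b a ψ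
    rw [real_inner_comm] at h2
    rw [← hw] at h2
    linarith
  -- pointwise lower bound
  have hlow : ∀ a, (G a - ((n : ℝ) - 2) * b a * Y) ^ 2 ≤
      ‖T a - c a w - (((n : ℝ) - 1) * b a) • ψ‖ ^ 2 := by
    intro a
    have h1 : ⟪ψ, T a - c a w - (((n : ℝ) - 1) * b a) • ψ⟫_ℝ =
        Y * (G a - ((n : ℝ) - 2) * b a * Y) := by
      rw [inner_sub_right, inner_sub_right, inner_smul_right, real_inner_self_eq_norm_sq, hTG,
        hcw, ← hY]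
      ring
    rcases eq_or_lt_of_le hY0 with h | h
    · have h0 : G a = 0 := by rw [hG a, ← h]; simp
      rw [h0, ← h]; simp
    · have h2 := abs_real_inner_le_norm ψ (T a - c a w - (((n : ℝ) - 1) * b a) • ψ)
      rw [h1, abs_mul, abs_of_pos h, ← hY] at h2
      have h3 := le_of_mul_le_mul_left h2 h
      exact sq_le_sq' (by linarith [neg_abs_le (G a - ((n : ℝ) - 2) * b a * Y)])
        (le_trans (le_abs_self _) h3)
  -- expansion
  have hexp : ∀ a, ‖T a - c a w - (((n : ℝ) - 1) * b a) • ψ‖ ^ 2 =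
      ‖T a‖ ^ 2 + 2 * ⟪c a (T a), w⟫_ℝ + ‖b‖ ^ 2 * Y ^ 2
        - 2 * ((n : ℝ) - 1) * Y * (b a * G a)
        + (((n : ℝ) - 1) ^ 2 - 2 * ((n : ℝ) - 1)) * Y ^ 2 * b a ^ 2 := by
    intro a
    have e1 : ⟪T a, c a w⟫_ℝ = -⟪c a (T a), w⟫_ℝ := by rw [hc.skew]; ring
    have e2 : ⟪T a, ψ⟫_ℝ = Y * G a := by rw [real_inner_comm]; exact hTG a
    have e3 : ⟪c a w, ψ⟫_ℝ = -(b a * Y ^ 2) := by rw [real_inner_comm]; exact hcw a
    rw [norm_sub_sq_real, norm_sub_sq_real, inner_smul_right, inner_sub_left, e1, e2, e3,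
      hc.norm_c, hw2, norm_smul, mul_pow, Real.norm_eq_abs, sq_abs, ← hY]
    ring
  have hb2 : ‖b‖ ^ 2 = ∑ a, b a ^ 2 := by
    rw [EuclideanSpace.norm_sq_eq]; simp
  have hG2 : ‖G‖ ^ 2 = ∑ a, G a ^ 2 := by
    rw [EuclideanSpace.norm_sq_eq]; simp
  have hbG : ⟪b, G⟫_ℝ = ∑ a, b a * G a := by
    simp only [PiLp.inner_apply]
    exact Finset.sum_congr rfl fun a _ => by simp; ring
  have hsum := Finset.sum_le_sum (s := Finset.univ) fun a _ => (hlow a).trans_eq (hexp a)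
  have hL : ∑ a, (G a - ((n : ℝ) - 2) * b a * Y) ^ 2 =
      ‖G‖ ^ 2 - 2 * ((n : ℝ) - 2) * Y * ⟪b, G⟫_ℝ + ((n : ℝ) - 2) ^ 2 * Y ^ 2 * ‖b‖ ^ 2 := by
    rw [hb2, hG2, hbG, Finset.mul_sum, Finset.mul_sum, ← Finset.sum_sub_distrib,
      ← Finset.sum_add_distrib]
    exact Finset.sum_congr rfl fun a _ => by ring
  have hR : ∑ a, (‖T a‖ ^ 2 + 2 * ⟪c a (T a), w⟫_ℝ + ‖b‖ ^ 2 * Y ^ 2
        - 2 * ((n : ℝ) - 1) * Y * (b a * G a)
        + (((n : ℝ) - 1) ^ 2 - 2 * ((n : ℝ) - 1)) * Y ^ 2 * b a ^ 2) =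
      (∑ a, ‖T a‖ ^ 2) + 2 * ⟪∑ a, c a (T a), w⟫_ℝ + n * (‖b‖ ^ 2 * Y ^ 2)
        - 2 * ((n : ℝ) - 1) * Y * ⟪b, G⟫_ℝ
        + (((n : ℝ) - 1) ^ 2 - 2 * ((n : ℝ) - 1)) * Y ^ 2 * ‖b‖ ^ 2 := by
    rw [Finset.sum_add_distrib, Finset.sum_sub_distrib, Finset.sum_add_distrib,
      Finset.sum_add_distrib, ← Finset.mul_sum, Finset.sum_const, ← Finset.mul_sum,
      ← Finset.mul_sum, ← hbG, ← hb2, sum_inner]
    simp
  rw [hL, hR] at hsum
  rw [norm_add_sq_real, hw2]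
  nlinarith [hsum]

theorem kato : KatoStmt := by
  intro n hn S _ _ c hc T ψ β G hG
  have h := hc.kato_aux T ψ ((1 / ((n : ℝ) - 2)) • β) G hG
  have hn' : (3 : ℝ) ≤ n := by exact_mod_cast hn
  have h2 : (n : ℝ) - 2 ≠ 0 := by linarith
  rw [cv_smul, inner_smul_left, norm_smul, mul_pow, Real.norm_eq_abs, sq_abs] at h
  refine le_trans (le_of_eq ?_) h
  simp only [conj_trivial]
  field_simp
  ring

end Crest.Agent.N346.Sp
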