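import Crest.Agent.N346.Sp.Defs2
import Crest.Agent.N346.Sp.Kato
import Crest.Agent.N346.P2.ConcB
import Crest.Agent.N346.P2.Basic

/-!
# Row 346, spinor layer: the energy inequality for the Callias operator (L7a).
-/

set_option autoImplicit false
open MeasureTheory Filter Topology
open scoped ContDiff InnerProductSpace ENNReal
open Crest.GeometryTopology.CoordMetric
open Crest.MathPhysics.ExteriorData

noncomputable section

namespace Crest.Agent.N346.Sp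
open Crest.Agent.N346.Bs Crest.Agent.N346.P2

namespace En

variable {n : ℕ} {S : Type} [NormedAddCommGroup S] [InnerProductSpace ℝ S]
  {g : MetricField n} {c : Fin n → S →L[ℝ] S} {A : Fin n → E n → S →L[ℝ] S} {ψ : E n → S}

theorem contDiff_ev (hg : IsRiemannianOn g Set.univ) (a : Fin n) :
    ContDiff ℝ ∞ fun x => ev g x a :=
  contDiff_euclidean.2 fun i => contDiff_frame (contDiff_g hg) (riem_posDef hg) i a

theorem contDiff_nab (hg : IsRiemannianOn g Set.univ) (hs : SpinData g c A)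
    (hψ : ContDiff ℝ ∞ ψ) (a : Fin n) : ContDiff ℝ ∞ (nab g A a ψ) :=
  ((hψ.fderiv_right (m := ∞) (by simp)).clm_apply (contDiff_ev hg a)).add
    ((hs.A_smooth a).clm_apply hψ)

theorem contDiff_dir (hg : IsRiemannianOn g Set.univ) (hs : SpinData g c A)
    (hψ : ContDiff ℝ ∞ ψ) : ContDiff ℝ ∞ (dir g c A ψ) :=
  ContDiff.sum fun a _ => (c a).contDiff.comp (contDiff_nab hg hs hψ a)

theorem nab_of_notMem {x : E n} (hx : x ∉ tsupport ψ) (a : Fin n) : nab g A a ψ x = 0 := by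
  have h := notMem_tsupport_iff_eventuallyEq.1 hx
  rw [nab, h.fderiv_eq, h.eq_of_nhds]
  simp

theorem fr_of_end {U : E n → ℝ} {μ : ℝ} (h : EndD n g U μ) : Fr g (fr g) :=
  ⟨h.riem, h.bd, contDiff_frame (contDiff_g h.riem) (riem_posDef h.riem),
    fun x => frame_orth (riem_posDef h.riem x)⟩

theorem integral_dvf (hg : IsRiemannianOn g Set.univ) {V : E n → Fin n → ℝ}
    (hV : ∀ a, ContDiff ℝ ∞ fun x => V x a) {K : Set (E n)} (hK : IsCompact K)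
    (h0 : ∀ x, x ∉ K → ∀ a, V x a = 0) : ∫ x, dvf g V x = 0 :=
  integral_divE (V := fun y i => volDensity g y * ∑ a, frame (g y) i a * V y a)
    (fun i => smooth_one ((contDiff_volDensity hg).mul (ContDiff.sum fun a _ =>
      (contDiff_frame (contDiff_g hg) (riem_posDef hg) i a).mul (hV a))))
    fun i => .intro hK fun x hx => by simp [h0 x hx]

/-- the Lichnerowicz integrand -/
def hh (g : MetricField n) (c : Fin n → S →L[ℝ] S) (A : Fin n → E n → S →L[ℝ] S) (ψ : E n → S)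
    (x : E n) : ℝ :=
  (∑ a, ‖nab g A a ψ x‖ ^ 2) + scalarCurv g x / 4 * ‖ψ x‖ ^ 2 - ‖dir g c A ψ x‖ ^ 2

/-- what is used about one component -/
structure One (g : MetricField n) (c : Fin n → S →L[ℝ] S) (A : Fin n → E n → S →L[ℝ] S)
    (ψ : E n → S) (r : ℝ) : Prop where
  smooth : ContDiff ℝ ∞ ψ
  bd : Bd fun x => ‖ψ x‖
  nab2 : ∀ a, MemLp (nab g A a ψ) 2 (nu g)
  le : ∫ x, hh g c A ψ x ∂nu g ≤ r

theorem bd_norm {ξ : E n → S} (hξ : Tst ξ) (ψ₀ : S) : Bd fun x => ‖ψ₀ + ξ x‖ := by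
  obtain ⟨M, hM⟩ := hξ.1.continuous.bounded_above_of_compact_support hξ.2
  refine ⟨(continuous_const.add hξ.1.continuous).norm.measurable, ‖ψ₀‖ + M, fun x => ?_⟩
  rw [abs_norm]
  exact (norm_add_le _ _).trans (add_le_add_right (hM x) _)

theorem one_tst {F : MetricField n} (hF : Fr g F) (hs : SpinData g c A) {ξ : E n → S}
    (hξ : Tst ξ) : One g c A ξ 0 := by
  have hg := hF.riem
  refine ⟨hξ.1, by simpa using bd_norm hξ 0, fun a => hF.memLp_of_cs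
    (contDiff_nab hg hs hξ.1 a).continuous (.intro hξ.2 fun x hx => nab_of_notMem hx a) 2, ?_⟩
  rw [← nu_eq, integral_nu hg]
  refine le_of_eq ?_
  rw [← integral_dvf hg (V := fun y a => ⟪ξ y, nab g A a ξ y⟫_ℝ + ⟪ξ y, c a (dir g c A ξ y)⟫_ℝ)
    (fun a => (hξ.1.inner ℝ (contDiff_nab hg hs hξ.1 a)).add
      (hξ.1.inner ℝ ((c a).contDiff.comp (contDiff_dir hg hs hξ.1)))) hξ.2
    fun x hx a => by simp [image_eq_zero_of_notMem_tsupport hx]]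
  refine integral_congr_ae (.of_forall fun x => ?_)
  beta_reduce
  rw [hs.wit ξ hξ.1 x, mul_comm]; rfl

theorem One.dir2 {r : ℝ} (h : One g c A ψ r) : MemLp (dir g c A ψ) 2 (nu g) :=
  memLp_finsetSum _ fun a _ => (c a).comp_memLp' (h.nab2 a)

theorem One.int_R {r : ℝ} (h : One g c A ψ r) (hR : Integrable (scalarCurv g) (nu g)) :
    Integrable (fun x => scalarCurv g x / 4 * ‖ψ x‖ ^ 2) (nu g) :=
  (h.bd.sq.int (hR.div_const 4)).congr (.of_forall fun _ => mul_comm _ _)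

theorem One.int_hh {r : ℝ} (h : One g c A ψ r) (hR : Integrable (scalarCurv g) (nu g)) :
    Integrable (hh g c A ψ) (nu g) :=
  ((integrable_finsetSum _ fun a _ => int_normsq (h.nab2 a)).add (h.int_R hR)).sub
    (int_normsq h.dir2)

theorem One.cv2 {r : ℝ} (h : One g c A ψ r) (hc : Cl c) {β : E n → E n}
    (hβ : MemLp β 2 (nu g)) : MemLp (fun x => cv c (β x) (ψ x)) 2 (nu g) := by
  obtain ⟨-, M, hM⟩ := h.bd
  refine hβ.of_le_mul (c := M) ?_ (.of_forall fun x => ?_)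
  · refine Finset.aestronglyMeasurable_fun_sum _ fun a _ => AEStronglyMeasurable.smul ?_
      ((c a).continuous.comp h.smooth.continuous).aestronglyMeasurable
    exact (EuclideanSpace.proj (𝕜 := ℝ) a).continuous.comp_aestronglyMeasurable hβ.1
  · rw [hc.norm_cv, mul_comm]
    exact mul_le_mul_of_nonneg_right ((le_abs_self _).trans (hM x)) (norm_nonneg _)

theorem One.smul2 {r : ℝ} (h : One g c A ψ r) {F : E n → ℝ} (hF : MemLp F 2 (nu g)) :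
    MemLp (fun x => F x • ψ x) 2 (nu g) := by
  obtain ⟨-, M, hM⟩ := h.bd
  refine hF.of_le_mul (c := M) (hF.1.smul h.smooth.continuous.aestronglyMeasurable)
    (.of_forall fun x => ?_)
  rw [norm_smul, mul_comm]
  exact mul_le_mul_of_nonneg_right ((le_abs_self _).trans (hM x)) (norm_nonneg _)

/-- the pointwise inequality -/
theorem pt (hc : Cl c) {a τ F ρ d N₁ N₂ : ℝ} {f₁ f₂ D₁ D₂ : S} {β₁ β₂ G₁ G₂ : E n}
    (hβ : F • (β₁ + β₂) = 0)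
    (k₁ : ‖G₁‖ ^ 2 + a * (2 * ‖f₁‖ * ⟪τ • β₁, G₁⟫_ℝ - ‖τ • β₁‖ ^ 2 * ‖f₁‖ ^ 2) ≤
      N₁ - ‖D₁‖ ^ 2 + ‖D₁ + a • cv c (τ • β₁) f₁‖ ^ 2)
    (k₂ : ‖G₂‖ ^ 2 + a * (2 * ‖f₂‖ * ⟪τ • β₂, G₂⟫_ℝ - ‖τ • β₂‖ ^ 2 * ‖f₂‖ ^ 2) ≤
      N₂ - ‖D₂‖ ^ 2 + ‖D₂ + a • cv c (τ • β₂) f₂‖ ^ 2) :
    ‖G₁‖ ^ 2 + ‖G₂‖ ^ 2 + (ρ + F ^ 2) * (‖f₁‖ ^ 2 + ‖f₂‖ ^ 2)
      + a * (τ * (2 * ‖f₁‖ * ⟪β₁, G₁⟫_ℝ + 2 * ‖f₂‖ * ⟪β₂, G₂⟫_ℝ)
        - τ ^ 2 * (‖β₁‖ ^ 2 * ‖f₁‖ ^ 2 + ‖β₂‖ ^ 2 * ‖f₂‖ ^ 2)) - 2 * d * ‖f₁‖ * ‖f₂‖ ≤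
    ‖D₁ + (τ * a) • cv c β₁ f₁ + F • f₂‖ ^ 2 + ‖-(D₂ + (τ * a) • cv c β₂ f₂) + F • f₁‖ ^ 2
      + (N₁ + ρ * ‖f₁‖ ^ 2 - ‖D₁‖ ^ 2) + (N₂ + ρ * ‖f₂‖ ^ 2 - ‖D₂‖ ^ 2)
      - 2 * (F * (⟪f₂, D₁⟫_ℝ - ⟪D₂, f₁⟫_ℝ) + d * (‖f₁‖ * ‖f₂‖)) := by
  rw [cv_smul, smul_smul, mul_comm a τ, real_inner_smul_left, norm_smul, mul_pow,
    Real.norm_eq_abs, sq_abs] at k₁ k₂
  have h0 : F * (⟪cv c β₁ f₁, f₂⟫_ℝ - ⟪cv c β₂ f₂, f₁⟫_ℝ) = 0 := by
    have : ⟪cv c (F • (β₁ + β₂)) f₁, f₂⟫_ℝ = 0 := by rw [hβ, cv_zero, inner_zero_left]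
    rw [cv_smul, cv_add, real_inner_smul_left, inner_add_left] at this
    rw [hc.cv_skew β₂, real_inner_comm (cv c β₂ f₁), ← this]; ring
  rw [norm_add_sq_real _ (F • f₂), norm_add_sq_real _ (F • f₁), norm_neg, inner_neg_left,
    real_inner_smul_right, real_inner_smul_right, inner_add_left, inner_add_left,
    real_inner_smul_left, real_inner_smul_left, norm_smul, norm_smul, mul_pow, mul_pow,
    Real.norm_eq_abs, sq_abs, real_inner_comm D₁ f₂]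
  linear_combination k₁ + k₂ - 2 * τ * a * h0

end En
open En

theorem energy (hK : KatoStmt) (hN : NormStmt) (hI : IbpStmt) (hW : WitStmt) : EnergyStmt := by
  intro n hn g U μ hE S _ _ _ _ c A hs F dF β₁ β₂ hF hFi h₁ h₂ hβ τ ψ₀ h0 ξ₁ ξ₂ t₁ t₂
  have hfr := fr_of_end hE
  have hg := hE.riem
  have hR : Integrable (scalarCurv g) (nu g) := by
    obtain ⟨u, hu⟩ := exists_norm_eq S zero_le_one
    exact (hW n hn g U μ hE S c A hs u hu).1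
  have o₂ := one_tst hfr hs t₂
  have o₁ : One g c A (fun x => ψ₀ + ξ₁ x) (‖ψ₀‖ ^ 2 * ((1 + aa n) * μ)) := by
    rcases h0 with rfl | h0
    · simpa using one_tst hfr hs t₁
    · obtain ⟨w1, w2⟩ := (hW n hn g U μ hE S c A hs ψ₀ h0).2 ξ₁ t₁
      exact ⟨contDiff_const.add t₁.1, bd_norm t₁ ψ₀, w1, by rw [h0, one_pow, one_mul]; exact w2⟩
  set f₁ : E n → S := fun x => ψ₀ + ξ₁ x with hf₁
  have bF : Bd F := ⟨hF.meas, hF.bdd⟩
  have F2 : MemLp F 2 (nu g) := bF.memLp_two hFi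
  have c₁ : MemLp (cal₁ g c A (τ * aa n) F β₁ f₁ ξ₂) 2 (nu g) :=
    (o₁.dir2.add ((o₁.cv2 hs.cl h₁).const_smul (τ * aa n))).add (o₂.smul2 F2)
  have c₂ : MemLp (cal₂ g c A (τ * aa n) F β₂ f₁ ξ₂) 2 (nu g) :=
    (o₂.dir2.add ((o₂.cv2 hs.cl h₂).const_smul (τ * aa n))).neg.add (o₁.smul2 F2)
  have iR : Integrable (fun x => scalarCurv g x / 4 * (‖f₁ x‖ ^ 2 + ‖ξ₂ x‖ ^ 2)) (nu g) :=
    ((o₁.int_R hR).add (o₂.int_R hR)).congr (.of_forall fun x => (mul_add _ _ _).symm)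
  refine ⟨c₁, c₂, iR, ?_⟩
  have g₁ : MemLp (gnorm g A f₁) 2 (nu g) := (hN n g hg S c A hs ψ₀ ξ₁ t₁).memG
  have g₂ : MemLp (gnorm g A ξ₂) 2 (nu g) := by
    simpa only [zero_add, nu_eq] using (hN n g hg S c A hs 0 ξ₂ t₂).memG
  have ξ2 : MemLp ξ₂ 2 (nu g) := hfr.memLp_of_cs t₂.1.continuous t₂.2 2
  have b₁ := o₁.bd
  have b₂ := o₂.bd
  have iD : Integrable (fun x => ‖dF x‖ * (‖f₁ x‖ * ‖ξ₂ x‖)) (nu g) :=
    (b₁.int (MemLp.integrable_mul hF.memG.norm ξ2.norm)).congr (.of_forall fun x => by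
      simp only [Pi.mul_apply]; ring)
  have iK : Integrable (fun x => ‖gnorm g A f₁ x‖ ^ 2 + ‖gnorm g A ξ₂ x‖ ^ 2
      + (scalarCurv g x / 4 + F x ^ 2) * (‖f₁ x‖ ^ 2 + ‖ξ₂ x‖ ^ 2)
      + aa n * (τ * (2 * ‖f₁ x‖ * ⟪β₁ x, gnorm g A f₁ x⟫_ℝ + 2 * ‖ξ₂ x‖ * ⟪β₂ x, gnorm g A ξ₂ x⟫_ℝ)
        - τ ^ 2 * (‖β₁ x‖ ^ 2 * ‖f₁ x‖ ^ 2 + ‖β₂ x‖ ^ 2 * ‖ξ₂ x‖ ^ 2))
      - 2 * ‖dF x‖ * ‖f₁ x‖ * ‖ξ₂ x‖) (nu g) := by
    refine ((((((int_normsq g₁).add (int_normsq g₂)).add iR).add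
      ((bF.mul (b₁.sq.add b₂.sq)).int hFi)).add
      ((((((b₁.cmul 2).int (int_inner h₁ g₁)).add ((b₂.cmul 2).int (int_inner h₂ g₂))).const_mul
        τ).sub (((b₁.sq.int (int_normsq h₁)).add (b₂.sq.int (int_normsq h₂))).const_mul
        (τ ^ 2))).const_mul (aa n))).sub (iD.const_mul 2)).congr (ae_of_all _ fun x => ?_)
    simp only [Pi.add_apply, Pi.sub_apply]
    ring
  have iX : Integrable (fun x => F x * (⟪ξ₂ x, dir g c A f₁ x⟫_ℝ - ⟪dir g c A ξ₂ x, f₁ x⟫_ℝ))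
      (nu g) :=
    ((bF.int (int_inner ξ2 o₁.dir2)).sub (int_inner o₂.dir2 (o₁.smul2 F2))).congr
      (.of_forall fun x => by simp only [Pi.sub_apply, real_inner_smul_right]; ring)
  -- the cross term
  have hX : 0 ≤ ∫ x, (F x * (⟪ξ₂ x, dir g c A f₁ x⟫_ℝ - ⟪dir g c A ξ₂ x, f₁ x⟫_ℝ)
      + ‖dF x‖ * (‖f₁ x‖ * ‖ξ₂ x‖)) ∂nu g := by
    have e := hI n g hg F dF hF (fun y a => ⟪ξ₂ y, c a (f₁ y)⟫_ℝ)
      (fun a => t₂.1.inner ℝ ((c a).contDiff.comp o₁.smooth))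
      (.intro t₂.2 fun x hx => by funext a; simp [image_eq_zero_of_notMem_tsupport hx])
    have e2 : ∀ x, ∑ a, dF x a * ⟪ξ₂ x, c a (f₁ x)⟫_ℝ = ⟪ξ₂ x, cv c (dF x) (f₁ x)⟫_ℝ := fun x => by
      simp only [cv, inner_sum, real_inner_smul_right]
    have e3 : ∫ x, F x * (⟪ξ₂ x, dir g c A f₁ x⟫_ℝ - ⟪dir g c A ξ₂ x, f₁ x⟫_ℝ) ∂nu g =
        -∫ x, ⟪ξ₂ x, cv c (dF x) (f₁ x)⟫_ℝ ∂nu g := by
      simp only [← e2]
      rw [← e, ← nu_eq, integral_nu hg]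
      refine integral_congr_ae (.of_forall fun x => ?_)
      beta_reduce
      rw [hs.sa ξ₂ f₁ t₂.1 o₁.smooth x]; ring
    rw [integral_add iX iD, e3, neg_add_eq_sub, sub_nonneg]
    refine integral_mono (int_inner ξ2 (o₁.cv2 hs.cl hF.memG)) iD fun x => ?_
    refine (real_inner_le_norm _ _).trans (le_of_eq ?_)
    rw [hs.cl.norm_cv]; ring
  have key := (HI.of iK).mono ((((HI.of (int_normsq c₁)).add (HI.of (int_normsq c₂))).add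
    (HI.of (o₁.int_hh hR))).add (HI.of (o₂.int_hh hR)) |>.sub ((HI.of (iX.add iD)).cmul 2))
    fun x => pt hs.cl (hβ x)
      (hK n hn S c hs.cl (fun a => nab g A a f₁ x) (f₁ x) (τ • β₁ x) _ fun a => rfl)
      (hK n hn S c hs.cl (fun a => nab g A a ξ₂ x) (ξ₂ x) (τ • β₂ x) _ fun a => rfl)
  have l₁ := o₁.le
  have l₂ := o₂.le
  simp only [Pi.add_apply] at key
  unfold Kf
  linarith

end Crest.Agent.N346.Sp

end
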