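import Crest.Agent.N346.Sp.Avg
import Crest.Agent.N346.Sp.Kato

/-!
# Row 346, spinor layer: the Friedrichs lemma (uniform commutator bound + duality).
-/

set_option autoImplicit false
set_option linter.unusedSectionVars false
open MeasureTheory Filter Topology Metric
open scoped ContDiff InnerProductSpace ENNReal
open Crest.GeometryTopology.CoordMetric
open Crest.MathPhysics.ExteriorData
open Crest.Agent.N346.Bs

noncomputable section

namespace Crest.Agent.N346.Sp

variable {n : ℕ} {g : MetricField n}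

namespace Fr

theorem meas_dens (hg : IsRiemannianOn g Set.univ) :
    Measurable fun x => ENNReal.ofReal (volDensity g x) :=
  (contDiff_volDensity hg).continuous.measurable.ennreal_ofReal

theorem integral_nu (hg : IsRiemannianOn g Set.univ) (f : E n → ℝ) :
    ∫ x, f x ∂nu g = ∫ x, volDensity g x * f x := by
  rw [nu, integral_withDensity_eq_integral_toReal_smul (meas_dens hg) (by simp)]
  simp_rw [ENNReal.toReal_ofReal (volDensity_pos hg _).le, smul_eq_mul]

theorem integrable_nu (hg : IsRiemannianOn g Set.univ) (f : E n → ℝ) :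
    Integrable f (nu g) ↔ Integrable fun x => volDensity g x * f x := by
  rw [nu, integrable_withDensity_iff_integrable_smul' (meas_dens hg) (by simp)]
  simp_rw [ENNReal.toReal_ofReal (volDensity_pos hg _).le, smul_eq_mul]

theorem ac_nu (hg : IsRiemannianOn g Set.univ) : volume ≪ nu g :=
  withDensity_absolutelyContinuous' (meas_dens hg).aemeasurable
    (ae_of_all _ fun x => by simpa using volDensity_pos hg x)

theorem locFin (hg : IsRiemannianOn g Set.univ) : IsLocallyFiniteMeasure (nu g) :=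
  IsLocallyFiniteMeasure.withDensity_ofReal (contDiff_volDensity hg).continuous

theorem contDiff_ev (hg : IsRiemannianOn g Set.univ) (a : Fin n) :
    ContDiff ℝ ∞ fun x => ev g x a :=
  contDiff_euclidean.2 fun i => contDiff_frame (contDiff_g hg) (riem_posDef hg) i a

variable {S : Type} [NormedAddCommGroup S] [InnerProductSpace ℝ S] [FiniteDimensional ℝ S]
  {c : Fin n → S →L[ℝ] S} {A : Fin n → E n → S →L[ℝ] S}

theorem memLp_vol (hg : IsRiemannianOn g Set.univ) {u : E n → S} (hu : MemLp u 2 (nu g)) {R : ℝ}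
    (h0 : ∀ y, R < ‖y‖ → u y = 0) : MemLp u 2 volume ∧ Integrable u := by
  have hm : AEStronglyMeasurable u volume := hu.1.mono_ac (ac_nu hg)
  have h1 := (integrable_nu hg _).1 ((memLp_two_iff_integrable_sq_norm hu.1).1 hu)
  obtain ⟨B, hB⟩ := (isCompact_closedBall (0 : E n) R).exists_bound_of_continuousOn
    (((contDiff_volDensity hg).continuous.inv₀ fun x => (volDensity_pos hg x).ne').continuousOn)
  have h2 : MemLp u 2 volume := by
    refine (memLp_two_iff_integrable_sq_norm hm).2 ((h1.const_mul B).mono' (hm.norm.pow 2)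
      (ae_of_all _ fun y => ?_))
    rw [Real.norm_of_nonneg (sq_nonneg _)]
    by_cases hy : R < ‖y‖
    · simp [h0 y hy]
    · have h3 := (le_abs_self _).trans (hB y (by simpa using hy))
      have h4 := volDensity_pos hg y
      calc ‖u y‖ ^ 2 = (volDensity g y)⁻¹ * (volDensity g y * ‖u y‖ ^ 2) := by field_simp
        _ ≤ _ := mul_le_mul_of_nonneg_right h3 (by positivity)
  refine ⟨h2, ?_⟩
  have : IsFiniteMeasure ((volume : Measure (E n)).restrict (closedBall 0 R)) :=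
    isFiniteMeasure_restrict.2 (isCompact_closedBall 0 R).measure_lt_top.ne
  exact IntegrableOn.integrable_of_forall_notMem_eq_zero
    ((h2.restrict (closedBall 0 R)).integrable one_le_two) fun y hy => h0 y (by simpa using hy)

theorem contDiff_dir (hg : IsRiemannianOn g Set.univ) (hd : SpinData g c A) {ξ : E n → S}
    (h : ContDiff ℝ ∞ ξ) : ContDiff ℝ ∞ (dir g c A ξ) :=
  ContDiff.sum fun a _ => (c a).contDiff.comp
    (((h.fderiv_right (m := ∞) (by simp)).clm_apply (contDiff_ev hg a)).add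
      ((hd.A_smooth a).clm_apply h))

theorem dir_of_notMem {ξ : E n → S} {x : E n} (hx : x ∉ tsupport ξ) : dir g c A ξ x = 0 := by
  have h1 : fderiv ℝ ξ x = 0 := by
    by_contra h
    exact hx (support_fderiv_subset ℝ h)
  simp [dir, nab, h1, image_eq_zero_of_notMem_tsupport hx]

theorem tst_dir (hg : IsRiemannianOn g Set.univ) (hd : SpinData g c A) {ξ : E n → S} (h : Tst ξ) :
    Tst (dir g c A ξ) := ⟨contDiff_dir hg hd h.1, .intro h.2.isCompact fun _ => dir_of_notMem⟩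

theorem dir_add {ξ ζ : E n → S} (h : ContDiff ℝ ∞ ξ) (h' : ContDiff ℝ ∞ ζ) :
    dir g c A (ξ + ζ) = dir g c A ξ + dir g c A ζ := by
  funext x
  simp only [dir, nab, fderiv_add (h.differentiable (by simp) x) (h'.differentiable (by simp) x),
    Pi.add_apply, add_apply, map_add, Finset.sum_add_distrib]
  abel

theorem dir_mul {f : E n → ℝ} {ξ : E n → S} {x : E n} (hf : DifferentiableAt ℝ f x)
    (h : DifferentiableAt ℝ ξ x) : dir g c A (fun y => f y • ξ y) x =
      f x • dir g c A ξ x + ∑ a, fderiv ℝ f x (ev g x a) • c a (ξ x) := by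
  simp only [dir, nab, fderiv_fun_smul hf h, add_apply,
    smul_apply, ContinuousLinearMap.smulRight_apply, map_add, map_smul,
    Finset.sum_add_distrib, Finset.smul_sum, smul_add]
  abel

theorem dir_smul (t : ℝ) {ξ : E n → S} (h : ContDiff ℝ ∞ ξ) :
    dir g c A (t • ξ) = t • dir g c A ξ := by
  funext x
  have := dir_mul (g := g) (c := c) (A := A) (differentiableAt_const t)
    (h.differentiable (by simp) x)
  simp only [fderiv_fun_const, Pi.zero_apply, zero_apply, zero_smul, Finset.sum_const_zero,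
    add_zero] at this
  exact this

theorem int_inner {μ : Measure (E n)} {G H : E n → S} (hG : MemLp G 2 μ) (hH : MemLp H 2 μ) :
    Integrable (fun x => ⟪G x, H x⟫_ℝ) μ :=
  (MemLp.integrable_mul hG.norm hH.norm).mono' (hG.1.inner hH.1)
    (ae_of_all _ fun x => norm_inner_le_norm (G x) (H x))

/-- formal self-adjointness, integrated -/
theorem sa_int (hg : IsRiemannianOn g Set.univ) (hd : SpinData g c A) {φ ψ : E n → S}
    (hφ : Tst φ) (hψ : Tst ψ) :
    ∫ x, ⟪φ x, dir g c A ψ x⟫_ℝ ∂nu g = ∫ x, ⟪dir g c A φ x, ψ x⟫_ℝ ∂nu g := by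
  have := locFin hg
  have h1 : ∫ x, dvf g (fun y a => ⟪φ y, c a (ψ y)⟫_ℝ) x = 0 := by
    refine integral_divE (fun i => smooth_one ((contDiff_volDensity hg).mul (ContDiff.sum
      fun a _ => (contDiff_frame (contDiff_g hg) (riem_posDef hg) i a).mul
        (hφ.1.inner ℝ ((c a).contDiff.comp hψ.1))))) fun i => .intro hφ.2.isCompact fun y hy => ?_
    simp [image_eq_zero_of_notMem_tsupport hy]
  simp_rw [hd.sa φ ψ hφ.1 hψ.1] at h1
  rw [← integral_nu hg fun x => ⟪φ x, dir g c A ψ x⟫_ℝ - ⟪dir g c A φ x, ψ x⟫_ℝ, integral_sub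
    (int_inner hφ.memLp (tst_dir hg hd hψ).memLp)
    (int_inner (tst_dir hg hd hφ).memLp hψ.memLp)] at h1
  exact sub_eq_zero.1 h1

theorem inner_c_le (hc : Cl c) (a : Fin n) (v w : S) : |⟪v, c a w⟫_ℝ| ≤ ‖v‖ * ‖w‖ :=
  (abs_real_inner_le_norm _ _).trans_eq (by rw [hc.norm_c])

/-- pointwise commutator bound -/
theorem dir_mol_le (hg : IsRiemannianOn g Set.univ) (hd : SpinData g c A) {u k : E n → S}
    (hu : MemLp u 2 (nu g)) (hk : MemLp k 2 (nu g)) {R : ℝ} (hu0 : ∀ y, R < ‖y‖ → u y = 0)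
    (hk0 : ∀ y, R < ‖y‖ → k y = 0)
    (hw : ∀ ξ, Tst ξ → ∫ x, ⟪u x, dir g c A ξ x⟫_ℝ ∂nu g = ∫ x, ⟪k x, ξ x⟫_ℝ ∂nu g)
    {L B : ℝ} (hL0 : 0 ≤ L) (hB : 1 ≤ B)
    (hL : ∀ x y : E n, ‖x‖ ≤ R + 1 → ‖y‖ ≤ R + 1 → ∀ a, ‖ev g x a - ev g y a‖ ≤ L * ‖x - y‖)
    (hA : ∀ y : E n, ‖y‖ ≤ R + 1 → ∀ a, ‖A a y‖ ≤ B)
    (hs : ∀ y : E n, ‖y‖ ≤ R + 1 → ∀ a,
      |volDensity g y * fderiv ℝ (fun z => (volDensity g z)⁻¹) y (ev g y a)| ≤ B)
    {ρ : E n → ℝ} {r C : ℝ} (h : Moll ρ r C) {x : E n} (hx : ‖x‖ ≤ R + 1) :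
    ‖dir g c A (mol ρ u) x‖ ≤ ∫ y, (n * L * (‖fderiv ℝ ρ (x - y)‖ * ‖x - y‖)
      + (3 * n + 1) * B * ρ (x - y)) * (‖u y‖ + ‖k y‖) := by
  have := locFin hg
  have hui := (memLp_vol hg hu hu0).2
  have hki := (memLp_vol hg hk hk0).2
  set v := dir g c A (mol ρ u) x with hv
  have hsi : ContDiff ℝ ∞ fun z => (volDensity g z)⁻¹ :=
    (contDiff_volDensity hg).inv fun z => (volDensity_pos hg z).ne'
  have hρx : ContDiff ℝ ∞ fun y => ρ (x - y) := h.smooth.comp (contDiff_const.sub contDiff_id)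
  have hτ : Tst fun y => (ρ (x - y) * (volDensity g y)⁻¹) • v :=
    ⟨(hρx.mul hsi).smul contDiff_const, .intro (isCompact_closedBall x r) fun y hy => by
      have : ρ (x - y) = 0 := by
        by_contra h0
        exact hy (mem_closedBall'.2 (by rw [dist_eq_norm]; exact (h.supp _ h0).le))
      simp [this]⟩
  have i2 := (integrable_nu hg _).1 (int_inner hu (tst_dir hg hd hτ).memLp)
  have i3 := (integrable_nu hg _).1 (int_inner hk hτ.memLp)
  have e2 := hw _ hτ
  rw [integral_nu hg, integral_nu hg] at e2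
  have hdc : Continuous (fderiv ℝ ρ) := h.smooth.continuous_fderiv (by simp)
  have j1 : ∀ w, Integrable fun y => fderiv ℝ ρ (x - y) w • u y := fun w =>
    integrable_ker (κ := fun z => fderiv ℝ ρ z w) (hdc.clm_apply continuous_const)
      (h.cpt.fderiv_apply ℝ w) hui x
  have j2 : Integrable fun y => ρ (x - y) • u y := integrable_ker h.smooth.continuous h.cpt hui x
  have j3 : ∀ a, Integrable fun y => fderiv ℝ ρ (x - y) (ev g x a) • u y
      + A a x (ρ (x - y) • u y) := fun a => (j1 _).add ((A a x).integrable_comp j2)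
  have j4 : Integrable fun y => ∑ a, c a (fderiv ℝ ρ (x - y) (ev g x a) • u y
      + A a x (ρ (x - y) • u y)) := integrable_finsetSum _ fun a _ => (c a).integrable_comp (j3 a)
  have e1 : ∫ y, ∑ a, c a (fderiv ℝ ρ (x - y) (ev g x a) • u y + A a x (ρ (x - y) • u y)) = v := by
    rw [integral_finsetSum _ fun a _ => (c a).integrable_comp (j3 a)]
    refine Finset.sum_congr rfl fun a _ => ?_
    rw [(c a).integral_comp_comm (j3 a), integral_add (j1 _) ((A a x).integrable_comp j2),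
      (A a x).integral_comp_comm j2, nab, h.fderiv_mol hui]
    rfl
  have hκc : Continuous fun z : E n =>
      n * L * (‖fderiv ℝ ρ z‖ * ‖z‖) + (3 * n + 1) * B * ρ z := by
    have := h.smooth.continuous
    fun_prop
  have hκs : HasCompactSupport fun z : E n =>
      n * L * (‖fderiv ℝ ρ z‖ * ‖z‖) + (3 * n + 1) * B * ρ z :=
    ((h.cpt.fderiv ℝ).norm.mul_right.mul_left).add h.cpt.mul_left
  have j5 := integrable_ker hκc hκs (hui.norm.add hki.norm) x
  simp only [smul_eq_mul, Pi.add_apply] at j5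
  have hB0 : 0 ≤ B := zero_le_one.trans hB
  have hκ0 : ∀ y, 0 ≤ (n * L * (‖fderiv ℝ ρ (x - y)‖ * ‖x - y‖)
      + (3 * n + 1) * B * ρ (x - y)) * (‖u y‖ + ‖k y‖) := fun y => by
    have := h.nonneg (x - y)
    positivity
  have main : ‖v‖ * ‖v‖ ≤ ‖v‖ * ∫ y, (n * L * (‖fderiv ℝ ρ (x - y)‖ * ‖x - y‖)
      + (3 * n + 1) * B * ρ (x - y)) * (‖u y‖ + ‖k y‖) := by
    have j6 := j4.const_inner (𝕜 := ℝ) v
    have e3 := integral_inner (𝕜 := ℝ) j4 v
    rw [e1, real_inner_self_eq_norm_mul_norm] at e3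
    refine (fun hm => ?_ : _ → _) (integral_mono (j6.add i3) (i2.add (j5.const_mul ‖v‖)) fun y => ?_)
    · rw [integral_add' j6 i3, integral_add' i2 (j5.const_mul _), e3, integral_const_mul, e2] at hm
      linarith
    by_cases hy : R < ‖y‖
    · simp [hu0 y hy, hk0 y hy]
    have hy1 : ‖y‖ ≤ R + 1 := by linarith [not_lt.1 hy]
    have hsp := volDensity_pos hg y
    have hfd : ∀ w, fderiv ℝ (fun y => ρ (x - y) * (volDensity g y)⁻¹) y w =
        ρ (x - y) * fderiv ℝ (fun z => (volDensity g z)⁻¹) y w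
          - (volDensity g y)⁻¹ * fderiv ℝ ρ (x - y) w := fun w => by
      have h1 : HasFDerivAt (fun y => ρ (x - y)) (-fderiv ℝ ρ (x - y)) y :=
        ((h.smooth.differentiable (by simp) (x - y)).hasFDerivAt.comp y
          ((hasFDerivAt_id y).const_sub x)).congr_fderiv (by ext w; simp)
      rw [(h1.fun_mul (hsi.differentiable (by simp) y).hasFDerivAt).fderiv]
      simp
      ring
    have key : ⟪v, ∑ a, c a (fderiv ℝ ρ (x - y) (ev g x a) • u y + A a x (ρ (x - y) • u y))⟫_ℝ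
        - volDensity g y * ⟪u y, dir g c A (fun y => (ρ (x - y) * (volDensity g y)⁻¹) • v) y⟫_ℝ
        = ∑ a, (fderiv ℝ ρ (x - y) (ev g x a - ev g y a) * ⟪v, c a (u y)⟫_ℝ + ρ (x - y) *
          (⟪v, c a (A a x (u y))⟫_ℝ - ⟪u y, c a (A a y v)⟫_ℝ - volDensity g y *
            fderiv ℝ (fun z => (volDensity g z)⁻¹) y (ev g y a) * ⟪u y, c a v⟫_ℝ)) := by
      rw [dir_mul ((hρx.mul hsi).differentiable (by simp) y) (differentiableAt_const v)]
      simp only [dir, nab, fderiv_fun_const, Pi.zero_apply, zero_apply, zero_add, hfd, inner_sum,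
        inner_add_right, map_add, map_smul, map_sub, real_inner_smul_right, Finset.mul_sum, mul_add,
        ← Finset.sum_add_distrib, ← Finset.sum_sub_distrib]
      refine Finset.sum_congr rfl fun a _ => ?_
      have h1 : ⟪v, c a (u y)⟫_ℝ = -⟪u y, c a v⟫_ℝ := by rw [real_inner_comm, hd.cl.skew]
      rw [h1]
      field_simp
      ring
    have hρ0 := h.nonneg (x - y)
    have bd : ∀ a, fderiv ℝ ρ (x - y) (ev g x a - ev g y a) * ⟪v, c a (u y)⟫_ℝ + ρ (x - y) *
          (⟪v, c a (A a x (u y))⟫_ℝ - ⟪u y, c a (A a y v)⟫_ℝ - volDensity g y *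
            fderiv ℝ (fun z => (volDensity g z)⁻¹) y (ev g y a) * ⟪u y, c a v⟫_ℝ) ≤
        (L * (‖fderiv ℝ ρ (x - y)‖ * ‖x - y‖) + 3 * B * ρ (x - y)) * (‖v‖ * ‖u y‖) := fun a => by
      have b1 : fderiv ℝ ρ (x - y) (ev g x a - ev g y a) * ⟪v, c a (u y)⟫_ℝ ≤
          ‖fderiv ℝ ρ (x - y)‖ * (L * ‖x - y‖) * (‖v‖ * ‖u y‖) :=
        (le_abs_self _).trans ((abs_mul _ _).trans_le (mul_le_mul
          (((fderiv ℝ ρ (x - y)).le_opNorm _).trans
            (mul_le_mul_of_nonneg_left (hL x y hx hy1 a) (norm_nonneg _)))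
          (inner_c_le hd.cl a _ _) (abs_nonneg _) (by positivity)))
      have b2 : |⟪v, c a (A a x (u y))⟫_ℝ| ≤ ‖v‖ * (B * ‖u y‖) := (inner_c_le hd.cl a _ _).trans
        (mul_le_mul_of_nonneg_left ((A a x).le_of_opNorm_le (hA x hx a) _) (norm_nonneg _))
      have b3 : |⟪u y, c a (A a y v)⟫_ℝ| ≤ ‖u y‖ * (B * ‖v‖) := (inner_c_le hd.cl a _ _).trans
        (mul_le_mul_of_nonneg_left ((A a y).le_of_opNorm_le (hA y hy1 a) _) (norm_nonneg _))
      have b4 : |volDensity g y * fderiv ℝ (fun z => (volDensity g z)⁻¹) y (ev g y a)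
          * ⟪u y, c a v⟫_ℝ| ≤ B * (‖u y‖ * ‖v‖) := (abs_mul _ _).trans_le
        (mul_le_mul (hs y hy1 a) (inner_c_le hd.cl a _ _) (abs_nonneg _) hB0)
      have b5 := mul_le_mul_of_nonneg_left (show ⟪v, c a (A a x (u y))⟫_ℝ - ⟪u y, c a (A a y v)⟫_ℝ
        - volDensity g y * fderiv ℝ (fun z => (volDensity g z)⁻¹) y (ev g y a) * ⟪u y, c a v⟫_ℝ
          ≤ 3 * B * (‖v‖ * ‖u y‖) by
        linarith [(abs_le.1 b2).2, (abs_le.1 b3).1, (abs_le.1 b4).1]) hρ0
      linarith
    have b6 := Finset.sum_le_sum fun a (_ : a ∈ Finset.univ) => bd a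
    rw [← key, Finset.sum_const, Finset.card_univ, Fintype.card_fin, nsmul_eq_mul] at b6
    have b7 : volDensity g y * ⟪k y, (ρ (x - y) * (volDensity g y)⁻¹) • v⟫_ℝ ≤
        B * ρ (x - y) * (‖v‖ * ‖k y‖) := by
      have b8 : ⟪k y, v⟫_ℝ ≤ B * (‖v‖ * ‖k y‖) := (real_inner_le_norm _ _).trans
        ((mul_comm _ _).trans_le (le_mul_of_one_le_left (by positivity) hB))
      calc _ = ρ (x - y) * ⟪k y, v⟫_ℝ := by rw [real_inner_smul_right]; field_simp
        _ ≤ ρ (x - y) * (B * (‖v‖ * ‖k y‖)) := mul_le_mul_of_nonneg_left b8 hρ0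
        _ = _ := by ring
    have p1 : 0 ≤ B * ρ (x - y) * (‖v‖ * ‖u y‖) := by positivity
    have p2 : 0 ≤ n * (L * (‖fderiv ℝ ρ (x - y)‖ * ‖x - y‖) + 3 * B * ρ (x - y))
      * (‖v‖ * ‖k y‖) := by positivity
    simp only [Pi.add_apply]
    nlinarith
  rcases (norm_nonneg v).eq_or_lt with h0 | h0
  · rw [← h0]; exact integral_nonneg hκ0
  · exact le_of_mul_le_mul_left main h0

theorem core (hg : IsRiemannianOn g Set.univ) (hd : SpinData g c A) {u k : E n → S}
    (hu : MemLp u 2 (nu g)) (hk : MemLp k 2 (nu g)) {R : ℝ} (hu0 : ∀ y, R < ‖y‖ → u y = 0)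
    (hk0 : ∀ y, R < ‖y‖ → k y = 0)
    (hw : ∀ ξ, Tst ξ → ∫ x, ⟪u x, dir g c A ξ x⟫_ℝ ∂nu g = ∫ x, ⟪k x, ξ x⟫_ℝ ∂nu g)
    {δ : ℝ} (hδ : 0 < δ) : ∃ ζ, Tst ζ ∧ ∫ x, ‖ζ x - u x‖ ^ 2 ∂nu g ≤ δ ∧
      ∫ x, ‖dir g c A ζ x - k x‖ ^ 2 ∂nu g ≤ δ := by
  have := locFin hg
  obtain ⟨hu2, hui⟩ := memLp_vol hg hu hu0
  obtain ⟨hk2, hki⟩ := memLp_vol hg hk hk0
  obtain ⟨C, hC, hρ⟩ := exists_moll n
  choose ρ hρ using fun j : ℕ => hρ (1 / ((j : ℝ) + 1)) (by positivity)
  have hK := isCompact_closedBall (0 : E n) (R + 1)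
  have hsc := contDiff_volDensity hg
  have hsi : ContDiff ℝ ∞ fun z => (volDensity g z)⁻¹ := hsc.inv fun z => (volDensity_pos hg z).ne'
  obtain ⟨L, hL⟩ := (contDiff_pi.2 (contDiff_ev hg)).contDiffOn.exists_lipschitzOnWith (by simp)
    (convex_closedBall (0 : E n) (R + 1)) hK
  obtain ⟨B₁, hB₁⟩ := hK.exists_bound_of_continuousOn
    (continuous_pi fun a => (hd.A_smooth a).continuous).continuousOn
  obtain ⟨B₂, hB₂⟩ := hK.exists_bound_of_continuousOn (continuous_pi fun a => hsc.continuous.mul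
    ((hsi.continuous_fderiv (by simp)).clm_apply (contDiff_ev hg a).continuous)).continuousOn
  obtain ⟨B₃, hB₃⟩ := hK.exists_bound_of_continuousOn hsc.continuous.continuousOn
  have hz : ∀ j x, R + 1 < ‖x‖ → mol (ρ j) u x = 0 := fun j x hx =>
    (hρ j).mol_zero hu0 x (lt_of_le_of_lt (by
      have : 1 / ((j : ℝ) + 1) ≤ 1 := by
        rw [div_le_one (by positivity)]; linarith [Nat.cast_nonneg (α := ℝ) j]
      linarith) hx)
  have hξ : ∀ j, Tst (mol (ρ j) u) := fun j => ⟨(hρ j).contDiff_mol hui,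
    .intro hK fun x hx => hz j x (by simpa using hx)⟩
  have hts : ∀ j, tsupport (mol (ρ j) u) ⊆ closedBall 0 (R + 1) := fun j =>
    closure_minimal (fun x hx => by
      by_contra h
      exact hx (hz j x (by simpa using h))) isClosed_closedBall
  have sch : ∀ (F : E n → S) (κ f : E n → ℝ) (C : ℝ), Continuous κ → HasCompactSupport κ →
      (∀ z, 0 ≤ κ z) → 0 < C → ∫ z, κ z ≤ C → Integrable f → MemLp f 2 volume →
      (∀ x, R + 1 < ‖x‖ → F x = 0) → (∀ x, ‖x‖ ≤ R + 1 → ‖F x‖ ≤ ∫ y, κ (x - y) * f y) →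
      ∫ x, ‖F x‖ ^ 2 ∂nu g ≤ |B₃| * C ^ 2 * ∫ y, f y ^ 2 := by
    intro F κ f C h1 h2 h3 h4 h5 h6 h7 h8 h9
    rw [integral_nu hg]
    refine schur h1 h2 h3 h4 h5 h6 h7.integrable_sq (abs_nonneg _)
      (fun x => mul_nonneg (volDensity_pos hg x).le (sq_nonneg _)) fun x => ?_
    rcases lt_or_ge (R + 1) ‖x‖ with hx | hx
    · rw [h8 x hx, norm_zero, zero_pow two_ne_zero, mul_zero]
      positivity
    · exact mul_le_mul ((le_abs_self _).trans ((hB₃ x (by simpa using hx)).trans (le_abs_self _)))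
        (pow_le_pow_left₀ (norm_nonneg _) (h9 x hx) 2) (sq_nonneg _) (abs_nonneg _)
  have tp : ∀ ψ : E n → S, Tst ψ → Tendsto (fun j => ∫ x, ⟪ψ x, mol (ρ j) u x⟫_ℝ ∂nu g) atTop
      (𝓝 (∫ x, ⟪ψ x, u x⟫_ℝ ∂nu g)) := fun ψ hψ => by
    have := tendsto_pair hρ hui (hψ.smul hsc).1.continuous (hψ.smul hsc).2
    simpa only [integral_nu hg, real_inner_smul_left, conj_trivial] using this
  set B := max 1 (max B₁ B₂) with hB
  have hB1 : 1 ≤ B := le_max_left _ _
  refine graph_approx (dir g c A) (fun ξ h => (tst_dir hg hd h).memLp)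
    (fun ξ ζ h h' => dir_add h.1 h'.1) (fun t ξ h => dir_smul t h.1) hu hk hξ
    (C₁ := |B₃| * 1 ^ 2 * ∫ y, ‖u y‖ ^ 2)
    (C₂ := |B₃| * (n * L * C + (3 * n + 1) * B) ^ 2 * ∫ y, (‖u y‖ + ‖k y‖) ^ 2)
    (fun j => ?_) (fun j => ?_) tp (fun ψ hψ => ?_) hδ
  · exact sch _ (ρ j) _ 1 (hρ j).smooth.continuous (hρ j).cpt (hρ j).nonneg one_pos (hρ j).one.le
      hui.norm hu2.norm (hz j) fun x _ => (hρ j).norm_mol x
  · have h := hρ j
    have hdc : Continuous (fderiv ℝ (ρ j)) := h.smooth.continuous_fderiv (by simp)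
    have hρc := h.smooth.continuous
    have c1 : HasCompactSupport fun z : E n => ‖fderiv ℝ (ρ j) z‖ * ‖z‖ :=
      (h.cpt.fderiv ℝ).norm.mul_right
    refine sch _ (fun z => n * L * (‖fderiv ℝ (ρ j) z‖ * ‖z‖) + (3 * n + 1) * B * ρ j z) _ _
      (by fun_prop) (c1.mul_left.add h.cpt.mul_left) (fun z => ?_) (by positivity) ?_
      (hui.norm.add hki.norm) (hu2.norm.add hk2.norm)
      (fun x hx => dir_of_notMem fun h => by simpa [hx.not_ge] using hts j h) fun x hx =>
      dir_mol_le hg hd hu hk hu0 hk0 hw L.2 hB1 (fun x y hx hy a => ?_) (fun y hy a => ?_)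
        (fun y hy a => ?_) h hx
    · have := h.nonneg z
      positivity
    · rw [integral_add (((hdc.norm.fun_mul continuous_norm).integrable_of_hasCompactSupport
        c1).const_mul _) ((hρc.integrable_of_hasCompactSupport h.cpt).const_mul _),
        integral_const_mul, integral_const_mul, h.one, mul_one]
      have := mul_le_mul_of_nonneg_left h.comm (show (0 : ℝ) ≤ n * L by positivity)
      linarith
    · have := hL.norm_sub_le (mem_closedBall_zero_iff.2 hx) (mem_closedBall_zero_iff.2 hy)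
      exact (norm_le_pi_norm ((fun a => ev g x a) - fun a => ev g y a) a).trans this
    · exact (norm_le_pi_norm (fun a => A a y) a).trans ((hB₁ y (mem_closedBall_zero_iff.2 hy)).trans
        ((le_max_left _ _).trans (le_max_right _ _)))
    · exact (norm_le_pi_norm (fun a => volDensity g y *
        fderiv ℝ (fun z => (volDensity g z)⁻¹) y (ev g y a)) a).trans
        ((hB₂ y (mem_closedBall_zero_iff.2 hy)).trans ((le_max_right _ _).trans (le_max_right _ _)))
  · simp_rw [sa_int hg hd hψ (hξ _), real_inner_comm (k _), ← hw ψ hψ, real_inner_comm _ (u _)]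
    exact tp _ (tst_dir hg hd hψ)

theorem memLp_smul {μ : Measure (E n)} {f : E n → ℝ} (hf : Continuous f) (hc : HasCompactSupport f)
    {Θ : E n → S} (h : MemLp Θ 2 μ) : MemLp (fun x => f x • Θ x) 2 μ := by
  obtain ⟨B, hB⟩ := hf.bounded_above_of_compact_support hc
  refine (h.norm.const_mul B).mono' (hf.aestronglyMeasurable.smul h.1) (ae_of_all _ fun x => ?_)
  rw [norm_smul]
  exact mul_le_mul_of_nonneg_right (hB x) (norm_nonneg _)

end Fr

open Fr in
theorem fried : FriedStmt := by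
  intro n g hg S _ _ _ c A hd Θ h hΘ hh hw η hη hηc δ hδ
  have := locFin hg
  obtain ⟨R, hR⟩ := hηc.isCompact.isBounded.subset_closedBall 0
  have hR' : ∀ y : E n, R < ‖y‖ → y ∉ tsupport η := fun y hy h => by simpa [hy.not_ge] using hR h
  have m1 := memLp_smul hη.continuous hηc hΘ
  have m2 := memLp_smul hη.continuous hηc hh
  have m3 : MemLp (fun x => ∑ a, fderiv ℝ η x (ev g x a) • c a (Θ x)) 2 (nu g) :=
    memLp_finsetSum _ fun a _ => memLp_smul ((hη.continuous_fderiv (by simp)).clm_apply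
      (contDiff_ev hg a).continuous) (.intro (hηc.fderiv ℝ).isCompact fun x hx => by
        simp [image_eq_zero_of_notMem_tsupport hx]) ((c a).comp_memLp' hΘ)
  refine core hg hd m1 (m2.add m3) (R := R) (fun y hy => ?_) (fun y hy => ?_) (fun ξ hξ => ?_) hδ
  · simp [image_eq_zero_of_notMem_tsupport (hR' y hy)]
  · have : fderiv ℝ η y = 0 := by
      by_contra h
      exact hR' y hy (support_fderiv_subset ℝ h)
    simp [image_eq_zero_of_notMem_tsupport (hR' y hy), this]
  · have e := hw _ (hξ.smul hη)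
    have e1 : ∀ x, ⟪Θ x, dir g c A (fun x => η x • ξ x) x⟫_ℝ = ⟪η x • Θ x, dir g c A ξ x⟫_ℝ
        - ⟪∑ a, fderiv ℝ η x (ev g x a) • c a (Θ x), ξ x⟫_ℝ := fun x => by
      rw [dir_mul (hη.differentiable (by simp) x) (hξ.1.differentiable (by simp) x)]
      simp only [inner_add_right, inner_sum, sum_inner, real_inner_smul_left, real_inner_smul_right,
        hd.cl.skew, mul_neg, Finset.sum_neg_distrib, sub_neg_eq_add]
    simp_rw [e1, real_inner_smul_right, ← real_inner_smul_left] at e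
    rw [integral_sub (int_inner m1 (tst_dir hg hd hξ).memLp) (int_inner m3 hξ.memLp)] at e
    simp_rw [Pi.add_apply, inner_add_left]
    rw [integral_add (int_inner m2 hξ.memLp) (int_inner m3 hξ.memLp)]
    linarith

end Crest.Agent.N346.Sp
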