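import Crest.Agent.N346.Sp.Defs2
import Crest.Agent.N346.Sp.Kato
import Crest.Agent.N346.P2.ConcB

/-! # Row 346, spinor layer, L6: the Witten boundary term at infinity (helper20). -/

set_option autoImplicit false
open MeasureTheory Filter Topology Metric
open scoped ContDiff InnerProductSpace ENNReal
open Crest.GeometryTopology.CoordMetric
open Crest.MathPhysics.ExteriorData

noncomputable section

namespace Crest.Agent.N346.Sp
open Crest.Agent.N346.Bs

variable {n : ℕ}

theorem integrable_of_far {φ b : E n → ℝ} (hφ : Continuous φ) (hb : Integrable b) {R : ℝ}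
    (h : ∀ x, R < ‖x‖ → |φ x| ≤ b x) : Integrable φ := by
  rw [← integrableOn_univ, ← Set.union_compl_self (closedBall (0 : E n) R)]
  refine (hφ.continuousOn.integrableOn_compact (isCompact_closedBall _ _)).union ?_
  refine hb.integrableOn.mono' hφ.aestronglyMeasurable ?_
  filter_upwards [ae_restrict_mem measurableSet_closedBall.compl] with x hx
  exact h x (by simpa using hx)

theorem integrable_of_eta {φ : E n → ℝ} (hφ : Continuous φ) {R₁ C : ℝ}
    (h0 : ∀ x, R₁ ≤ ‖x‖ → 0 ≤ φ x) (hC : ∀ᶠ R in atTop, ∫ x, eta R x * φ x ≤ C) :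
    Integrable φ := by
  have hm : Continuous fun x => max (-φ x) 0 := by fun_prop
  have hi : Integrable fun x => max (-φ x) 0 :=
    hm.integrable_of_hasCompactSupport (hasCompactSupport_of_far (R := R₁) fun y hy =>
      max_eq_right (neg_nonpos.2 (h0 y hy.le)))
  have hp : Continuous fun x => φ x + max (-φ x) 0 := by fun_prop
  have hp0 : ∀ x, 0 ≤ φ x + max (-φ x) 0 := fun x => by linarith [le_max_left (-φ x) 0]
  have he : ∀ {R : ℝ}, 0 < R → ∀ {u : E n → ℝ}, Continuous u → Integrable fun x => eta R x * u x :=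
    fun hR _ hu => ((contDiff_eta _).continuous.mul hu).integrable_of_hasCompactSupport
      (hasCompactSupport_eta hR).mul_right
  have := (aecover_closedBall (μ := volume) (x := (0 : E n)) tendsto_id).integrable_of_integral_norm_bounded
    (C + ∫ x, max (-φ x) 0)
    (fun R => hp.continuousOn.integrableOn_compact (isCompact_closedBall _ _)) (by
      filter_upwards [hC, eventually_gt_atTop 0] with R h1 hR
      calc _ = ∫ x in closedBall (0 : E n) R, eta R x * (φ x + max (-φ x) 0) :=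
            setIntegral_congr_fun measurableSet_closedBall fun x hx => by
              simp only [eta_eq_one hR (by simpa using hx), one_mul, Real.norm_of_nonneg (hp0 x)]
        _ ≤ ∫ x, eta R x * (φ x + max (-φ x) 0) := setIntegral_le_integral (he hR hp)
            (.of_forall fun x => mul_nonneg (eta_nonneg _ _) (hp0 x))
        _ = (∫ x, eta R x * φ x) + ∫ x, eta R x * max (-φ x) 0 := by
            simp only [mul_add]; exact integral_add (he hR hφ) (he hR hm)
        _ ≤ _ := add_le_add h1 (integral_mono (he hR hm) hi fun x =>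
            mul_le_of_le_one_left (le_max_right _ _) (eta_le_one _ _)))
  exact (this.sub hi).congr (.of_forall fun x => by simp)

section
variable {S : Type} [NormedAddCommGroup S] [InnerProductSpace ℝ S] {c : Fin n → S →L[ℝ] S}
  {g : MetricField n} {A : Fin n → E n → S →L[ℝ] S}

theorem Cl.cv_c (hc : Cl c) (v : E n) (a : Fin n) (u : S) :
    cv c v (c a u) = -c a (cv c v u) - (2 * v a) • u := by
  have h : ∀ b, v b • c b (c a u) = -(v b • c a (c b u)) - if b = a then (2 * v a) • u else 0 :=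
    fun b => by
      rw [eq_sub_of_add_eq (hc.anti b a u)]
      split_ifs with e
      · subst e; module
      · module
  simp only [cv, h, Finset.sum_sub_distrib, Finset.sum_neg_distrib, map_sum, map_smul,
    Finset.sum_ite_eq', Finset.mem_univ, if_true]

theorem Cl.far_alg (hc : Cl c) (v : E n) {u : S} (hu : ‖u‖ = 1) (k : ℝ) {T : Fin n → S}
    (hT : ∀ a, T a = k • (c a (cv c v u) - cv c v (c a u))) :
    (∀ a, ‖T a‖ ^ 2 ≤ 4 * k ^ 2 * ‖v‖ ^ 2 * 4) ∧
    ‖∑ a, c a (T a)‖ ^ 2 = 4 * k ^ 2 * ‖v‖ ^ 2 * ((n : ℝ) - 1) ^ 2 ∧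
    ∀ a, ⟪u, c a (∑ b, c b (T b))⟫_ℝ = 2 * ((n : ℝ) - 1) * k * v a := by
  have hcc : ∀ a z, c a (c a z) = -z := fun a z => by
    have := hc.anti a a z
    rw [if_pos rfl, ← two_smul ℝ, neg_smul, ← smul_neg] at this
    exact smul_right_injective S two_ne_zero this
  have hs : ∑ a, c a (T a) = (-(2 * ((n : ℝ) - 1) * k)) • cv c v u := by
    have : ∀ a, c a (T a) = (2 * k) • (v a • c a u) - (2 * k) • cv c v u := fun a => by
      rw [hT, hc.cv_c, map_smul, map_sub, map_sub, map_neg, map_smul, hcc]; module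
    simp only [this, Finset.sum_sub_distrib, ← Finset.smul_sum, Finset.sum_const, Finset.card_univ,
      Fintype.card_fin, ← Nat.cast_smul_eq_nsmul ℝ]
    rw [← cv]; module
  refine ⟨fun a => ?_, ?_, fun a => ?_⟩
  · have h1 : ‖c a (cv c v u) - cv c v (c a u)‖ ≤ 2 * ‖v‖ := by
      refine (norm_sub_le _ _).trans_eq ?_
      rw [hc.norm_c, hc.norm_cv, hc.norm_cv, hc.norm_c, hu]; ring
    rw [hT, norm_smul, mul_pow, Real.norm_eq_abs, sq_abs]
    nlinarith [mul_le_mul_of_nonneg_left (pow_le_pow_left₀ (norm_nonneg _) h1 2) (sq_nonneg k),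
      mul_nonneg (sq_nonneg k) (sq_nonneg ‖v‖)]
  · rw [hs, norm_smul, mul_pow, hc.norm_cv_sq, hu, Real.norm_eq_abs, sq_abs]; ring
  · have := hc.skew a u (cv c v u)
    rw [real_inner_comm, hc.inner_cv_c, hu] at this
    rw [hs, map_smul, inner_smul_right, ← neg_eq_iff_eq_neg.2 this]; ring

theorem contDiff_ev_wit (hg : IsRiemannianOn g Set.univ) (a : Fin n) :
    ContDiff ℝ ∞ fun x => ev g x a :=
  contDiff_euclidean.2 fun i => contDiff_frame (contDiff_g hg) (riem_posDef hg) i a

theorem SpinData.contDiff_nab' (h : SpinData g c A) (hg : IsRiemannianOn g Set.univ) {f : E n → S}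
    (hf : ContDiff ℝ ∞ f) (a : Fin n) : ContDiff ℝ ∞ (nab g A a f) :=
  ((hf.fderiv_right (m := ∞) le_rfl).clm_apply (contDiff_ev_wit hg a)).add
    ((h.A_smooth a).clm_apply hf)

theorem SpinData.contDiff_dir' (h : SpinData g c A) (hg : IsRiemannianOn g Set.univ) {f : E n → S}
    (hf : ContDiff ℝ ∞ f) : ContDiff ℝ ∞ (dir g c A f) :=
  ContDiff.sum fun a _ => (c a).contDiff.comp (h.contDiff_nab' hg hf a)

/-- the vector density of the Witten identity -/
def wv (g : MetricField n) (c : Fin n → S →L[ℝ] S) (A : Fin n → E n → S →L[ℝ] S) (f : E n → S) :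
    VectorField n := fun y i => volDensity g y * ∑ a, frame (g y) i a *
  (⟪f y, nab g A a f y⟫_ℝ + ⟪f y, c a (dir g c A f y)⟫_ℝ)

theorem SpinData.contDiff_wv (h : SpinData g c A) (hg : IsRiemannianOn g Set.univ) {f : E n → S}
    (hf : ContDiff ℝ ∞ f) (i : Fin n) : ContDiff ℝ ∞ fun x => wv g c A f x i :=
  (contDiff_volDensity hg).mul (ContDiff.sum fun a _ =>
    (contDiff_frame (contDiff_g hg) (riem_posDef hg) i a).mul
      ((hf.inner ℝ (h.contDiff_nab' hg hf a)).add
        (hf.inner ℝ ((c a).contDiff.comp (h.contDiff_dir' hg hf)))))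

/-- the formulas near infinity -/
theorem SpinData.far (h : SpinData g c A) (hn : 3 ≤ n) {U : E n → ℝ} {μ : ℝ} (hE : P2.EndD n g U μ)
    {ψ₀ : S} (hψ : ‖ψ₀‖ = 1) {f : E n → S} {R₁ : ℝ} (hf : ∀ x, R₁ < ‖x‖ → f x = ψ₀) :
    ∃ R C : ℝ, ∀ x, R < ‖x‖ →
      (∀ a, ‖nab g A a f x‖ ^ 2 * volDensity g x ≤ C * ∑ i, pderiv i U x ^ 2) ∧
      ‖dir g c A f x‖ ^ 2 * volDensity g x ≤ C * ∑ i, pderiv i U x ^ 2 ∧
      ∀ i, wv g c A f x i = -(1 + P2.aa n) * (U x * pderiv i U x) := by
  obtain ⟨R₀, hR₀⟩ := hE.g_inf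
  have hn' : (3 : ℝ) ≤ n := by exact_mod_cast hn
  have hn2 : (n : ℝ) - 2 ≠ 0 := by linarith
  set a := P2.aa n with ha
  have ha' : a * ((n : ℝ) - 2) = 1 := by rw [ha, P2.aa]; field_simp
  set w : E n → ℝ := fun y => 2 * a * Real.log (U y) with hw
  have hws : ContDiff ℝ ∞ w := contDiff_const.mul (hE.U_smooth.log fun x => (hE.U_pos x).ne')
  have hgw : ∀ y, R₀ ≤ ‖y‖ → g y = Real.exp (2 * w y) • (1 : Matrix (Fin n) (Fin n) ℝ) :=
    fun y hy => by
      rw [hR₀ y hy, Real.rpow_def_of_pos (hE.U_pos y), hw, ha, P2.aa]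
      congr 2; ring
  refine ⟨max R₀ R₁, a ^ 2 * (4 + ((n : ℝ) - 1) ^ 2), fun x hx => ?_⟩
  have hev : ∀ᶠ y in 𝓝 x, max R₀ R₁ < ‖y‖ := continuous_norm.continuousAt.eventually (lt_mem_nhds hx)
  have hfx : f x = ψ₀ := hf x ((le_max_right _ _).trans_lt hx)
  have hd : fderiv ℝ f x = 0 := by
    rw [Filter.EventuallyEq.fderiv_eq (f := fun _ => ψ₀)
      (hev.mono fun y hy => hf y ((le_max_right _ _).trans_lt hy))]
    simp
  have hnab : ∀ b, nab g A b f x = A b x ψ₀ := fun b => by simp [nab, hd, hfx]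
  obtain ⟨h1, h2, h3⟩ := h.cl.far_alg (euclidGrad w x) hψ (-Real.exp (-w x) / 4)
    (T := fun b => nab g A b f x) fun b => by
      rw [hnab, h.flat w x hws.contDiffAt
        (hev.mono fun y hy => hgw y ((le_max_left _ _).trans hy.le))]
  have hU := hE.U_pos x
  have hgx := hgw x ((le_max_left _ _).trans hx.le)
  have hvol : volDensity g x = Real.exp (n * w x) := by
    rw [volDensity, hgx, Matrix.det_smul, Matrix.det_one, mul_one, Fintype.card_fin,
      ← Real.exp_nat_mul, Real.sqrt_eq_iff_mul_self_eq (Real.exp_pos _).le (Real.exp_pos _).le,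
      ← Real.exp_add]
    congr 1; ring
  have hfr : frame (g x) = Real.exp (-w x) • (1 : Matrix (Fin n) (Fin n) ℝ) := by
    rw [hgx, frame_scalar, Real.exp_neg, two_mul, Real.exp_add,
      Real.sqrt_mul_self (Real.exp_pos _).le]
  have hUU : Real.exp (-w x) ^ 2 * Real.exp (n * w x) = U x ^ 2 := by
    rw [← Real.exp_nat_mul, ← Real.exp_add, ← Real.exp_log hU, ← Real.exp_nat_mul]
    congr 1
    simp only [hw]
    push_cast
    linear_combination 2 * Real.log (U x) * ha'
  have hpd : ∀ i, pderiv i w x = 2 * a * (U x)⁻¹ * pderiv i U x := fun i =>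
    pd_comp ((Real.hasDerivAt_log hU.ne').const_mul (2 * a)) (smooth_diff hE.U_smooth x) i
  have hgr : 4 * (-Real.exp (-w x) / 4) ^ 2 * ‖euclidGrad w x‖ ^ 2 * volDensity g x =
      a ^ 2 * ∑ i, pderiv i U x ^ 2 := by
    have e : ‖euclidGrad w x‖ ^ 2 = (2 * a * (U x)⁻¹) ^ 2 * ∑ i, pderiv i U x ^ 2 := by
      rw [norm_sq_eq, Finset.mul_sum]
      exact Finset.sum_congr rfl fun i _ => by simp only [euclidGrad, hpd]; ring
    rw [e, hvol]
    calc _ = (Real.exp (-w x) ^ 2 * Real.exp (n * w x)) * (U x)⁻¹ ^ 2 *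
          (a ^ 2 * ∑ i, pderiv i U x ^ 2) := by ring
      _ = _ := by rw [hUU]; field_simp
  have hS : 0 ≤ a ^ 2 * ∑ i, pderiv i U x ^ 2 := by positivity
  have hv := (volDensity_pos hE.riem x).le
  refine ⟨fun b => ?_, ?_, fun i => ?_⟩
  · refine (mul_le_mul_of_nonneg_right (h1 b) hv).trans ?_
    nlinarith [mul_nonneg hS (sq_nonneg ((n : ℝ) - 1))]
  · rw [dir, h2]
    nlinarith
  · have h0 : ∀ b, ⟪ψ₀, nab g A b f x⟫_ℝ = 0 := fun b => by
      have := h.A_skew b x ψ₀ ψ₀
      rw [real_inner_comm] at this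
      rw [hnab]; linarith
    simp only [wv, hfx, h0, dir, h3, hfr, hvol, zero_add, Matrix.smul_apply, Matrix.one_apply,
      smul_eq_mul, mul_ite, mul_one, mul_zero, ite_mul, zero_mul, Finset.sum_ite_eq,
      Finset.mem_univ, if_true, euclidGrad, hpd]
    calc _ = (Real.exp (-w x) ^ 2 * Real.exp (n * w x)) * (U x)⁻¹ *
          (-(a * ((n : ℝ) - 2) + a) * pderiv i U x) := by ring
      _ = _ := by rw [hUU, ha']; field_simp

theorem SpinData.far_int (h : SpinData g c A) (hn : 3 ≤ n) {U : E n → ℝ} {μ : ℝ}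
    (hE : P2.EndD n g U μ) {ψ₀ : S} (hψ : ‖ψ₀‖ = 1) {f : E n → S} (hs : ContDiff ℝ ∞ f) {R₁ : ℝ}
    (hf : ∀ x, R₁ < ‖x‖ → f x = ψ₀) :
    (∀ a, Integrable fun x => ‖nab g A a f x‖ ^ 2 * volDensity g x) ∧
    (Integrable fun x => ‖dir g c A f x‖ ^ 2 * volDensity g x) ∧
    ∀ ε > 0, ∀ᶠ R in atTop, ∫ x, eta R x * divE (wv g c A f) x ≤ (1 + P2.aa n) * μ + ε := by
  obtain ⟨R₀, C, hR₀⟩ := h.far hn hE hψ hf
  have hv := (contDiff_volDensity hE.riem).continuous
  have hv0 := fun x => (volDensity_pos hE.riem x).le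
  refine ⟨fun a => integrable_of_far
      (((h.contDiff_nab' hE.riem hs a).continuous.norm.pow 2).mul hv) (hE.U_grad.const_mul C)
      fun x hx => (abs_of_nonneg (mul_nonneg (sq_nonneg _) (hv0 x))).trans_le ((hR₀ x hx).1 a),
    integrable_of_far (((h.contDiff_dir' hE.riem hs).continuous.norm.pow 2).mul hv)
      (hE.U_grad.const_mul C)
      fun x hx => (abs_of_nonneg (mul_nonneg (sq_nonneg _) (hv0 x))).trans_le (hR₀ x hx).2.1,
    fun ε hε => ?_⟩
  have ha : 0 < 1 + P2.aa n := by
    have hn' : (3 : ℝ) ≤ n := by exact_mod_cast hn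
    have : 0 < (n : ℝ) - 2 := by linarith
    rw [P2.aa]; positivity
  have hUc := hE.U_smooth.continuous
  have hpc := continuous_pd (smooth_one hE.U_smooth)
  have ht : Tendsto (fun R => ∑ i, ∫ x, pderiv i (eta R) x * ((U x - 1) * pderiv i U x)) atTop
      (𝓝 0) := by
    have := tendsto_finsetSum Finset.univ fun i _ => tendsto_integral_pd_eta
      (f := fun x => (U x - 1) * pderiv i U x) ((hUc.sub continuous_const).mul (hpc i)).aestronglyMeasurable
      ((hE.U_hardy.add hE.U_grad).mono' (((hUc.sub continuous_const).mul (hpc i)).div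
        (by fun_prop) fun x => by positivity).aestronglyMeasurable (.of_forall fun x => by
          have a1 : pderiv i U x ^ 2 ≤ ∑ i, pderiv i U x ^ 2 :=
            Finset.single_le_sum (f := fun i => pderiv i U x ^ 2) (fun _ _ => sq_nonneg _)
              (Finset.mem_univ i)
          have a2 : ((U x - 1) / (1 + ‖x‖)) ^ 2 ≤ (U x - 1) ^ 2 / (1 + ‖x‖ ^ 2) := by
            rw [div_pow]; gcongr; nlinarith [norm_nonneg x]
          rw [Real.norm_eq_abs, mul_div_right_comm, abs_le, Pi.add_apply]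
          constructor <;> nlinarith [sq_nonneg ((U x - 1) / (1 + ‖x‖) - pderiv i U x),
            sq_nonneg ((U x - 1) / (1 + ‖x‖) + pderiv i U x)])) i
    simpa using this
  have hε' : 0 < ε / (2 * (1 + P2.aa n)) := by positivity
  obtain ⟨R₂, hR₂⟩ := hE.mass _ hε'
  filter_upwards [ht.eventually (gt_mem_nhds hε'), eventually_ge_atTop R₂, eventually_gt_atTop 0,
    eventually_ge_atTop R₀] with R g1 g2 g3 g4
  have hi : ∀ i, ∀ {u : E n → ℝ}, Continuous u → Integrable fun x => pderiv i (eta R) x * u x :=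
    fun i _ hu => ((continuous_pd (smooth_one (contDiff_eta R)) i).mul hu).integrable_of_hasCompactSupport
      (hasCompactSupport_pd (hasCompactSupport_eta g3) i).mul_right
  have e : ∀ x, ∑ i, pderiv i (eta R) x * wv g c A f x i = -(1 + P2.aa n) *
      (∑ i, pderiv i U x * pderiv i (eta R) x +
        ∑ i, pderiv i (eta R) x * ((U x - 1) * pderiv i U x)) := fun x => by
    rw [← Finset.sum_add_distrib, Finset.mul_sum]
    refine Finset.sum_congr rfl fun i _ => ?_
    rcases le_or_gt ‖x‖ R with hx | hx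
    · simp [pd_eta_of_le g3 hx]
    · rw [(hR₀ x (g4.trans_lt hx)).2.2]; ring
  rw [integral_eta_divE g3 fun i => smooth_one (h.contDiff_wv hE.riem hs i)]
  simp only [e]
  have j1 : ∀ i, Integrable fun x => pderiv i U x * pderiv i (eta R) x := fun i => by
    simpa only [mul_comm] using hi i (hpc i)
  have j2 : ∀ i, Integrable fun x => pderiv i (eta R) x * ((U x - 1) * pderiv i U x) := fun i =>
    hi i ((hUc.sub continuous_const).mul (hpc i))
  rw [integral_const_mul, integral_add (integrable_finsetSum _ fun i _ => j1 i)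
    (integrable_finsetSum _ fun i _ => j2 i), integral_finsetSum _ fun i _ => j2 i, ← flux]
  have e2 : (1 + P2.aa n) * (ε / (2 * (1 + P2.aa n))) = ε / 2 := by field_simp
  nlinarith [mul_le_mul_of_nonneg_left (hR₂ R g2) ha.le, mul_le_mul_of_nonneg_left g1.le ha.le]

end

theorem wit : WitStmt := by
  intro n hn g U μ hE S _ _ _ c A h ψ₀ hψ
  have hg := hE.riem
  have hv := (contDiff_volDensity hg).continuous
  have hR : (Continuous fun x => scalarCurv g x / 4 * volDensity g x) ∧
      Integrable fun x => scalarCurv g x / 4 * volDensity g x := by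
    obtain ⟨h1, h2, h3⟩ := h.far_int hn hE hψ (f := fun _ => ψ₀) contDiff_const (R₁ := 0)
      fun _ _ => rfl
    have e : (fun x => scalarCurv g x / 4 * volDensity g x) = fun x =>
        divE (wv g c A fun _ => ψ₀) x + (‖dir g c A (fun _ => ψ₀) x‖ ^ 2 * volDensity g x -
          ∑ a, ‖nab g A a (fun _ => ψ₀) x‖ ^ 2 * volDensity g x) := by
      ext x
      have : divE (wv g c A fun _ => ψ₀) x = _ := h.wit _ contDiff_const x
      rw [this, hψ, ← Finset.sum_mul]; ring
    have c1 := (contDiff_divE (h.contDiff_wv hg (f := fun _ => ψ₀) contDiff_const)).continuous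
    have c2 : Continuous fun x => ‖dir g c A (fun _ => ψ₀) x‖ ^ 2 * volDensity g x -
        ∑ a, ‖nab g A a (fun _ => ψ₀) x‖ ^ 2 * volDensity g x :=
      (((h.contDiff_dir' hg contDiff_const).continuous.norm.pow 2).mul hv).sub
        (continuous_finsetSum _ fun a _ =>
          ((h.contDiff_nab' hg contDiff_const a).continuous.norm.pow 2).mul hv)
    have i2 := h2.sub (integrable_finsetSum Finset.univ fun a _ => h1 a)
    have hc : Continuous fun x => scalarCurv g x / 4 * volDensity g x := e ▸ c1.add c2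
    obtain ⟨R₁, hR₁⟩ := hE.R_far
    refine ⟨hc, integrable_of_eta hc (R₁ := R₁) (fun x hx =>
      mul_nonneg (by linarith [hR₁ x hx]) (volDensity_pos hg x).le)
      (C := (1 + P2.aa n) * μ + 1 + ((∫ x, (‖dir g c A (fun _ => ψ₀) x‖ ^ 2 * volDensity g x -
        ∑ a, ‖nab g A a (fun _ => ψ₀) x‖ ^ 2 * volDensity g x)) + 1)) ?_⟩
    filter_upwards [h3 1 one_pos, (tendsto_integral_eta i2).eventually
      (gt_mem_nhds (lt_add_one _)), eventually_gt_atTop 0] with R g1 g2 g3
    have he : ∀ {u : E n → ℝ}, Continuous u → Integrable fun x => eta R x * u x :=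
      fun hu => ((contDiff_eta _).continuous.mul hu).integrable_of_hasCompactSupport
        (hasCompactSupport_eta g3).mul_right
    simp only [congrFun e, mul_add]
    rw [integral_add (he c1) (he c2)]
    exact add_le_add g1 g2.le
  refine ⟨(P2.integrable_nu_iff' hg _).2 ((hR.2.const_mul 4).congr (.of_forall fun x => by ring)),
    fun ξ hξ => ?_⟩
  obtain ⟨R₁, hR₁⟩ := hξ.2.isCompact.isBounded.subset_closedBall 0
  have hf : ∀ x, R₁ < ‖x‖ → ψ₀ + ξ x = ψ₀ := fun x hx => by
    rw [image_eq_zero_of_notMem_tsupport fun h => absurd (hR₁ h) (by simpa using hx), add_zero]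
  have hs : ContDiff ℝ ∞ fun x => ψ₀ + ξ x := contDiff_const.add hξ.1
  obtain ⟨h1, h2, h3⟩ := h.far_int hn hE hψ hs hf
  refine ⟨fun a => (memLp_two_iff_integrable_sq_norm
    (h.contDiff_nab' hg hs a).continuous.aestronglyMeasurable).2
      ((P2.integrable_nu_iff' hg _).2 (h1 a)), ?_⟩
  have i3 : Integrable fun x => scalarCurv g x / 4 * volDensity g x * ‖ψ₀ + ξ x‖ ^ 2 :=
    integrable_of_far (hR.1.mul (hs.continuous.norm.pow 2)) hR.2.abs (R := R₁) fun x hx => by
      simp only [hf x hx, hψ, one_pow, mul_one, le_rfl]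
  have e : ∀ x, divE (wv g c A fun x => ψ₀ + ξ x) x = _ := h.wit _ hs
  have i4 : Integrable (divE (wv g c A fun x => ψ₀ + ξ x)) :=
    (((integrable_finsetSum Finset.univ fun a _ => h1 a).add i3).sub h2).congr
      (.of_forall fun x => by
        simp only [e, Pi.sub_apply, Pi.add_apply, ← Finset.sum_mul]; ring)
  rw [← nu_eq, P2.integral_nu hg]
  simp only [mul_comm _ (volDensity g _), ← e]
  exact le_of_forall_pos_le_add fun ε hε => le_of_tendsto (tendsto_integral_eta i4) (h3 ε hε)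

end Crest.Agent.N346.Sp
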