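import Crest.Agent.N346.Sp.Final
import Crest.Agent.N346.Sp.Fried
import Crest.Agent.N346.Sp.Wit
import Crest.Agent.N346.Sp.Energy
import Crest.Agent.N346.P2.Iso

/-!
# Row 346, spinor layer (helper85): `SPStmt`.
-/

namespace Crest.Agent.N346.Sp

theorem sp : P2.SPStmt := sp_of fried (energy kato normD ibpD wit) wit P2.sob

end Crest.Agent.N346.Sp
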