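import Crest.Agent.N346.Sp.Cliff

/-!
# Row 346, spinor layer (helper85): Levi-Civita connection in an orthonormal frame, over a
commutative algebra with commuting derivations.
-/

set_option autoImplicit false
open Matrix

noncomputable section

namespace Crest.Agent.N346.Sp

variable {R : Type*} [CommRing R] [Algebra ℝ R]

section dM

variable {l m k : Type*} (D : Derivation ℝ R R)

/-- entrywise derivative of a matrix -/
def dM (M : Matrix l m R) : Matrix l m R := M.map D

@[simp] theorem dM_apply (M : Matrix l m R) (a : l) (b : m) : dM D M a b = D (M a b) := rfl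

theorem dM_add (M N : Matrix l m R) : dM D (M + N) = dM D M + dM D N := by
  ext a b; simp

theorem dM_sub (M N : Matrix l m R) : dM D (M - N) = dM D M - dM D N := by
  ext a b; simp

theorem dM_neg (M : Matrix l m R) : dM D (- M) = - dM D M := by
  ext a b; simp

theorem dM_zero : dM D (0 : Matrix l m R) = 0 := by
  ext a b; simp

theorem dM_smul (r : R) (M : Matrix l m R) : dM D (r • M) = D r • M + r • dM D M := by
  ext a b; simp; ring

theorem dM_rsmul (r : ℝ) (M : Matrix l m R) : dM D (r • M) = r • dM D M := by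
  ext a b; simp

theorem dM_sum {α : Type*} (s : Finset α) (M : α → Matrix l m R) :
    dM D (∑ i ∈ s, M i) = ∑ i ∈ s, dM D (M i) := by
  ext a b; simp [Matrix.sum_apply]

theorem dM_transpose (M : Matrix l m R) : dM D Mᵀ = (dM D M)ᵀ := rfl

theorem dM_mul [Fintype m] (M : Matrix l m R) (N : Matrix m k R) :
    dM D (M * N) = dM D M * N + M * dM D N := by
  ext a b
  simp only [dM_apply, mul_apply, map_sum, Derivation.leibniz, smul_eq_mul, Matrix.add_apply,
    ← Finset.sum_add_distrib]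
  exact Finset.sum_congr rfl fun j _ => by ring

theorem dM_one [DecidableEq l] : dM D (1 : Matrix l l R) = 0 := by
  ext a b
  by_cases h : a = b <;> simp [h, one_apply]

end dM

/-- A metric with inverse and orthonormal frame over a differential algebra. -/
structure Geo {n : Type*} [Fintype n] [DecidableEq n] (D : n → Derivation ℝ R R) where
  G : Matrix n n R
  Gi : Matrix n n R
  E : Matrix n n R
  comm : ∀ i j a, D i (D j a) = D j (D i a)
  symm : Gᵀ = G
  inv : Gi * G = 1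
  orth : Eᵀ * G * E = 1

namespace Geo

variable {n : Type*} [Fintype n] [DecidableEq n] {D : n → Derivation ℝ R R} (X : Geo D)

include X in
theorem dM_comm {l m : Type*} (i j : n) (M : Matrix l m R) :
    dM (D i) (dM (D j) M) = dM (D j) (dM (D i) M) := by
  ext a b; exact X.comm i j _

theorem G_symm (i j : n) : X.G i j = X.G j i := (congrFun (congrFun X.symm j) i)

theorem inv' : X.G * X.Gi = 1 := mul_eq_one_comm.1 X.inv

/-- the coframe -/
def θ : Matrix n n R := X.Eᵀ * X.G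

theorem θE : X.θ * X.E = 1 := X.orth

theorem Eθ : X.E * X.θ = 1 := mul_eq_one_comm.1 X.θE

theorem EEt : X.E * X.Eᵀ = X.Gi := by
  have h : X.E * X.Eᵀ * X.G = 1 := by rw [Matrix.mul_assoc]; exact X.Eθ
  rw [← Matrix.mul_one (X.E * X.Eᵀ), ← X.inv', ← Matrix.mul_assoc, h, Matrix.one_mul]

theorem Gi_symm (i j : n) : X.Gi i j = X.Gi j i := by
  simp only [← X.EEt, mul_apply, transpose_apply]
  exact Finset.sum_congr rfl fun a _ => mul_comm _ _

theorem Gi_tr : X.Giᵀ = X.Gi := by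
  ext i j; exact X.Gi_symm j i

/-- Christoffel symbols, `Γ i k j = Γᵏᵢⱼ`. -/
def Γ (i : n) : Matrix n n R := fun k j =>
  (1 / 2 : ℝ) • ∑ l, X.Gi k l * (D i (X.G j l) + D j (X.G i l) - D l (X.G i j))

theorem Γ_symm (i k j : n) : X.Γ i k j = X.Γ j k i := by
  simp only [Γ]
  congr 1
  exact Finset.sum_congr rfl fun l _ => by rw [X.G_symm i j]; ring

theorem G_Γ (i : n) : X.G * X.Γ i =
    of fun l j => (1 / 2 : ℝ) • (D i (X.G j l) + D j (X.G i l) - D l (X.G i j)) := by
  have h : X.Γ i = X.Gi * (of fun l j =>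
      (1 / 2 : ℝ) • (D i (X.G j l) + D j (X.G i l) - D l (X.G i j))) := by
    ext k j
    simp only [Γ, mul_apply, of_apply, Finset.smul_sum, mul_smul_comm]
  rw [h, ← Matrix.mul_assoc, X.inv', Matrix.one_mul]

theorem dG (i : n) : dM (D i) X.G = (X.Γ i)ᵀ * X.G + X.G * X.Γ i := by
  have h : (X.Γ i)ᵀ * X.G = (X.G * X.Γ i)ᵀ := by rw [transpose_mul, X.symm]
  rw [h, G_Γ]
  ext l j
  simp only [dM_apply, Matrix.add_apply, transpose_apply, of_apply]
  rw [X.G_symm j l, ← smul_add]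
  have : D i (X.G l j) + D l (X.G i j) - D j (X.G i l) +
      (D i (X.G l j) + D j (X.G i l) - D l (X.G i j)) = (2 : ℝ) • D i (X.G l j) := by
    rw [two_smul]; ring
  rw [this, smul_smul]
  norm_num

theorem dGi (i : n) : dM (D i) X.Gi = - (X.Γ i * X.Gi) - X.Gi * (X.Γ i)ᵀ := by
  have h := congrArg (dM (D i)) X.inv
  rw [dM_mul, dM_one, dG] at h
  have h2 : dM (D i) X.Gi = (dM (D i) X.Gi * X.G) * X.Gi := by
    rw [Matrix.mul_assoc, X.inv', Matrix.mul_one]
  rw [h2, eq_neg_of_add_eq_zero_left h]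
  have h3 : X.Gi * ((X.Γ i)ᵀ * X.G + X.G * X.Γ i) * X.Gi =
      X.Gi * (X.Γ i)ᵀ * (X.G * X.Gi) + (X.Gi * X.G) * X.Γ i * X.Gi := by noncomm_ring
  rw [Matrix.neg_mul, h3, X.inv, X.inv']
  noncomm_ring

/-- connection matrices in the frame -/
def ω (i : n) : Matrix n n R := X.θ * (dM (D i) X.E + X.Γ i * X.E)

theorem Eω (i : n) : X.E * X.ω i = dM (D i) X.E + X.Γ i * X.E := by
  rw [ω, ← Matrix.mul_assoc, X.Eθ, Matrix.one_mul]

theorem ω_skew (i : n) : (X.ω i)ᵀ = - X.ω i := by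
  have h := congrArg (dM (D i)) X.orth
  rw [dM_mul, dM_mul, dM_one, dG, dM_transpose] at h
  rw [eq_neg_iff_add_eq_zero, ← h]
  simp only [ω, θ, transpose_mul, transpose_add, transpose_transpose, X.symm]
  noncomm_ring

theorem dθ (i : n) : dM (D i) X.θ = - (X.θ * dM (D i) X.E * X.θ) := by
  have h := congrArg (dM (D i)) X.θE
  rw [dM_mul, dM_one] at h
  have h2 : dM (D i) X.θ = (dM (D i) X.θ * X.E) * X.θ := by
    rw [Matrix.mul_assoc, X.Eθ, Matrix.mul_one]
  rw [h2, eq_neg_of_add_eq_zero_left h, Matrix.neg_mul]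

/-- curvature matrices, `Rm i j k l = Rᵏ_{l i j}` -/
def Rm (i j : n) : Matrix n n R :=
  dM (D i) (X.Γ j) - dM (D j) (X.Γ i) + X.Γ i * X.Γ j - X.Γ j * X.Γ i

/-- curvature of the frame connection -/
def Ω (i j : n) : Matrix n n R :=
  dM (D i) (X.ω j) - dM (D j) (X.ω i) + (X.ω i * X.ω j - X.ω j * X.ω i)

theorem Ω_eq (i j : n) : X.Ω i j = X.θ * X.Rm i j * X.E := by
  have h : ∀ i j, dM (D i) (X.ω j) + X.ω i * X.ω j = X.θ * (dM (D i) (dM (D j) X.E) +
      dM (D i) (X.Γ j) * X.E + X.Γ j * dM (D i) X.E + X.Γ i * dM (D j) X.E +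
      X.Γ i * X.Γ j * X.E) := fun i j => by
    have e1 : X.ω i * X.ω j = X.θ * dM (D i) X.E * X.θ * (dM (D j) X.E + X.Γ j * X.E) +
        X.θ * X.Γ i * (X.E * X.ω j) := by
      simp only [ω]; noncomm_ring
    rw [e1, X.Eω]
    simp only [ω, dM_mul, dM_add, dθ]
    noncomm_ring
  have e : X.Ω i j = (dM (D i) (X.ω j) + X.ω i * X.ω j) - (dM (D j) (X.ω i) + X.ω j * X.ω i) := by
    simp only [Ω]; abel
  rw [e, h, h, X.dM_comm i j, Rm]
  noncomm_ring

theorem Ω_skew (i j : n) : (X.Ω i j)ᵀ = - X.Ω i j := by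
  simp only [Ω, transpose_add, transpose_sub, transpose_mul, ← dM_transpose, ω_skew, dM_neg]
  noncomm_ring

theorem Ω_anti (i j : n) : X.Ω i j = - X.Ω j i := by
  simp only [Ω]; abel

theorem bianchi (i j k l : n) : X.Rm i j k l + X.Rm j l k i + X.Rm l i k j = 0 := by
  have h : ∀ a b c, (X.Γ a * X.Γ b) k c = (X.Γ a * X.Γ c) k b := fun a b c => by
    simp only [mul_apply]
    exact Finset.sum_congr rfl fun m _ => by rw [X.Γ_symm b m c]
  simp only [Rm, Matrix.add_apply, Matrix.sub_apply, dM_apply]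
  rw [h i j l, h j l i, h l i j, X.Γ_symm j k l, X.Γ_symm l k i, X.Γ_symm i k j,
    X.Γ_symm l k j, X.Γ_symm i k l]
  ring

/-- the Ricci tensor, written as in the Prelude -/
def ric (i j : n) : R :=
  (∑ k, D k (X.Γ i k j)) - D j (∑ k, X.Γ k k i) + (∑ k, ∑ l, X.Γ k k l * X.Γ i l j)
    - (∑ k, ∑ l, X.Γ j k l * X.Γ k l i)

/-- the scalar curvature -/
def scal : R := ∑ i, ∑ j, X.Gi i j * X.ric i j

theorem ric_eq (l j : n) : X.ric l j = ∑ i, X.Rm i j i l := by
  simp only [ric, Rm, Matrix.add_apply, Matrix.sub_apply, dM_apply, mul_apply, map_sum, Finset.sum_add_distrib,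
    Finset.sum_sub_distrib, X.Γ_symm l _ j]

/-- frame components of the curvature -/
def Ωf (a b : n) : Matrix n n R := ∑ i, ∑ j, (X.E i a * X.E j b) • X.Ω i j

theorem Ωf_skew (a b : n) : (X.Ωf a b)ᵀ = - X.Ωf a b := by
  simp only [Ωf, transpose_sum, transpose_smul, Ω_skew, smul_neg, Finset.sum_neg_distrib]

theorem Ωf_anti (a b : n) : X.Ωf a b = - X.Ωf b a := by
  simp only [Ωf]
  rw [Finset.sum_comm, ← Finset.sum_neg_distrib]
  refine Finset.sum_congr rfl fun i _ => ?_
  rw [← Finset.sum_neg_distrib]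
  exact Finset.sum_congr rfl fun j _ => by rw [X.Ω_anti j i, smul_neg, mul_comm]

theorem Ωf_apply (a b p q : n) : X.Ωf a b p q =
    ∑ k, X.θ p k * ∑ i, ∑ j, ∑ l, X.E i a * X.E j b * X.E l q * X.Rm i j k l := by
  simp only [Ωf, Ω_eq, Matrix.sum_apply, Matrix.smul_apply, smul_eq_mul, mul_apply, Finset.mul_sum,
    Finset.sum_mul]
  conv_rhs => rw [Finset.sum_comm]
  refine Finset.sum_congr rfl fun i _ => ?_
  conv_rhs => rw [Finset.sum_comm]
  refine Finset.sum_congr rfl fun j _ => ?_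
  conv_rhs => rw [Finset.sum_comm]
  exact Finset.sum_congr rfl fun l _ => Finset.sum_congr rfl fun k _ => by ring

theorem Ωf_bianchi (p q a b : n) : X.Ωf a b p q + X.Ωf b q p a + X.Ωf q a p b = 0 := by
  simp only [Ωf_apply, ← Finset.sum_add_distrib, ← mul_add]
  refine Finset.sum_eq_zero fun k _ => ?_
  have e2 : ∑ i, ∑ j, ∑ l, X.E i b * X.E j q * X.E l a * X.Rm i j k l =
      ∑ i, ∑ j, ∑ l, X.E i a * X.E j b * X.E l q * X.Rm j l k i := by
    conv_rhs => rw [Finset.sum_comm]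
    refine Finset.sum_congr rfl fun i _ => ?_
    conv_rhs => rw [Finset.sum_comm]
    exact Finset.sum_congr rfl fun j _ => Finset.sum_congr rfl fun l _ => by ring
  have e3 : ∑ i, ∑ j, ∑ l, X.E i q * X.E j a * X.E l b * X.Rm i j k l =
      ∑ i, ∑ j, ∑ l, X.E i a * X.E j b * X.E l q * X.Rm l i k j := by
    rw [Finset.sum_comm]
    refine Finset.sum_congr rfl fun i _ => ?_
    rw [Finset.sum_comm]
    exact Finset.sum_congr rfl fun j _ => Finset.sum_congr rfl fun l _ => by ring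
  simp only [Finset.sum_add_distrib]
  rw [e2, e3]
  simp only [← Finset.sum_add_distrib, ← mul_add, X.bianchi, mul_zero, Finset.sum_const_zero]

theorem Ωf_scal : ∑ a, ∑ b, X.Ωf b a b a = X.scal := by
  have h1 : ∀ i k, ∑ b, X.E i b * X.θ b k = if i = k then 1 else 0 := fun i k => by
    rw [← mul_apply, X.Eθ, one_apply]
  have h2 : ∀ j l, ∑ a, X.E j a * X.E l a = X.Gi l j := fun j l => by
    rw [X.Gi_symm, ← X.EEt, mul_apply]; rfl
  have e : ∑ a, ∑ b, X.Ωf b a b a = ∑ l, ∑ j, ∑ i, ∑ k,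
      (∑ a, X.E j a * X.E l a) * ((∑ b, X.E i b * X.θ b k) * X.Rm i j k l) := by
    simp only [Ωf_apply, Finset.mul_sum, Finset.sum_mul, ← Finset.sum_product']
    refine Finset.sum_bij' (fun x _ => (x.2.2.2.2.2, x.2.2.2.2.1, x.2.2.2.1, x.2.2.1, x.2.1, x.1))
      (fun y _ => (y.2.2.2.2.2, y.2.2.2.2.1, y.2.2.2.1, y.2.2.1, y.2.1, y.1)) (by simp) (by simp)
      (by simp) (by simp) fun x _ => by ring
  rw [e]
  simp only [h1, h2, ite_mul, one_mul, zero_mul, scal, ric_eq, ← Finset.mul_sum,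
    Finset.sum_ite_eq, Finset.mem_univ, if_true]

end Geo

end Crest.Agent.N346.Sp
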