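import Crest.Agent.N346.Sp.Defs

/-!
# Row 346, spinor layer: mollifiers, the Schur test and closure of graphs.
-/

set_option autoImplicit false
open MeasureTheory Filter Topology Metric
open scoped ContDiff InnerProductSpace ENNReal Convolution

noncomputable section

namespace Crest.Agent.N346.Sp

variable {n : ℕ}

/-- A mollifier of radius `r` with commutator constant `C`. -/
structure Moll (ρ : E n → ℝ) (r C : ℝ) : Prop where
  smooth : ContDiff ℝ ∞ ρ
  nonneg : ∀ x, 0 ≤ ρ x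
  one : ∫ x, ρ x = 1
  supp : ∀ z, ρ z ≠ 0 → ‖z‖ < r
  comm : ∫ z, ‖fderiv ℝ ρ z‖ * ‖z‖ ≤ C

theorem Moll.cpt {ρ : E n → ℝ} {r C : ℝ} (h : Moll ρ r C) : HasCompactSupport ρ :=
  .intro (isCompact_closedBall 0 r) fun z hz => by
    by_contra h0
    exact hz (by simpa using (h.supp z h0).le)

theorem Moll.dsupp {ρ : E n → ℝ} {r C : ℝ} (h : Moll ρ r C) (z : E n) (hz : r < ‖z‖) :
    fderiv ℝ ρ z = 0 := by
  have : ρ =ᶠ[𝓝 z] fun _ => 0 :=
    ((isOpen_lt continuous_const continuous_norm).eventually_mem hz).mono fun y hy => by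
      by_contra h0
      exact lt_asymm (h.supp y h0) hy
  rw [this.fderiv_eq]; simp

theorem exists_moll (n : ℕ) : ∃ C : ℝ, 0 < C ∧ ∀ r : ℝ, 0 < r → ∃ ρ : E n → ℝ, Moll ρ r C := by
  let b : ContDiffBump (0 : E n) := ⟨1 / 2, 1, by norm_num, by norm_num⟩
  let ρ : E n → ℝ := b.normed volume
  have hs : ContDiff ℝ ∞ ρ := b.contDiff_normed
  refine ⟨|∫ z, ‖fderiv ℝ ρ z‖ * ‖z‖| + 1, by positivity, fun r hr => ?_⟩
  have hk : 0 < r ^ Module.finrank ℝ (E n) := pow_pos hr _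
  refine ⟨fun z => (r ^ Module.finrank ℝ (E n))⁻¹ * ρ (r⁻¹ • z), ?_, ?_, ?_, ?_, ?_⟩
  · exact contDiff_const.mul (hs.comp (contDiff_id.const_smul _))
  · exact fun x => mul_nonneg (inv_nonneg.2 hk.le) (b.nonneg_normed _)
  · rw [integral_const_mul, Measure.integral_comp_inv_smul_of_nonneg volume ρ hr.le,
      b.integral_normed, smul_eq_mul, mul_one, inv_mul_cancel₀ hk.ne']
  · intro z hz
    have h1 : r⁻¹ • z ∈ Function.support ρ := right_ne_zero_of_mul hz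
    rw [b.support_normed_eq, mem_ball_zero_iff, norm_smul, norm_inv, Real.norm_of_nonneg hr.le,
      inv_mul_lt_iff₀ hr] at h1
    simpa [b] using h1
  · have h1 : ∀ z : E n, ‖fderiv ℝ (fun z => (r ^ Module.finrank ℝ (E n))⁻¹ * ρ (r⁻¹ • z)) z‖ * ‖z‖
        = (r ^ Module.finrank ℝ (E n))⁻¹ * (‖fderiv ℝ ρ (r⁻¹ • z)‖ * ‖r⁻¹ • z‖) := fun z => by
      have h2 : HasFDerivAt (fun z : E n => (r ^ Module.finrank ℝ (E n))⁻¹ * ρ (r⁻¹ • z))
          ((r ^ Module.finrank ℝ (E n))⁻¹ • r⁻¹ • fderiv ℝ ρ (r⁻¹ • z)) z := by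
        have h3 := ((hs.differentiable (by simp) (r⁻¹ • z)).hasFDerivAt.comp z
          ((hasFDerivAt_id z).const_smul r⁻¹)).const_mul (r ^ Module.finrank ℝ (E n))⁻¹
        exact h3.congr_fderiv (by ext w; simp)
      rw [h2.fderiv, norm_smul, norm_smul, norm_smul, Real.norm_of_nonneg (inv_nonneg.2 hk.le)]
      ring
    simp_rw [h1]
    rw [integral_const_mul, Measure.integral_comp_inv_smul_of_nonneg volume
      (fun w => ‖fderiv ℝ ρ w‖ * ‖w‖) hr.le, smul_eq_mul, ← mul_assoc, inv_mul_cancel₀ hk.ne',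
      one_mul]
    linarith [le_abs_self (∫ z, ‖fderiv ℝ ρ z‖ * ‖z‖)]

/-- bounded continuous kernel times integrable function -/
theorem integrable_ker {F : Type*} [NormedAddCommGroup F] [NormedSpace ℝ F] {κ : E n → ℝ}
    (hκ : Continuous κ) (hc : HasCompactSupport κ) {u : E n → F} (hu : Integrable u) (x : E n) :
    Integrable fun y => κ (x - y) • u y := by
  obtain ⟨B, hB⟩ := hκ.bounded_above_of_compact_support hc
  refine (hu.norm.const_mul B).mono' (((hκ.comp (continuous_const.sub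
    continuous_id)).aestronglyMeasurable).smul hu.1) (ae_of_all _ fun y => ?_)
  rw [norm_smul]
  exact mul_le_mul_of_nonneg_right (hB _) (norm_nonneg _)

/-- Schur test. -/
theorem schur {κ : E n → ℝ} (hκ : Continuous κ) (hc : HasCompactSupport κ) (h0 : ∀ z, 0 ≤ κ z)
    {C : ℝ} (hC : 0 < C) (h1 : ∫ z, κ z ≤ C) {f : E n → ℝ} (hf : Integrable f)
    (hf2 : Integrable fun y => f y ^ 2) {G : E n → ℝ} {B : ℝ} (hB : 0 ≤ B) (hG0 : ∀ x, 0 ≤ G x)
    (hG : ∀ x, G x ≤ B * (∫ y, κ (x - y) * f y) ^ 2) : ∫ x, G x ≤ B * C ^ 2 * ∫ y, f y ^ 2 := by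
  have hi : Integrable κ := hκ.integrable_of_hasCompactSupport hc
  have key : ∀ x, (∫ y, κ (x - y) * f y) ^ 2 ≤ C * ∫ y, f y ^ 2 * κ (x - y) := fun x => by
    set I := ∫ y, κ (x - y) * f y with hI
    have i1 : Integrable fun y => κ (x - y) * f y := integrable_ker hκ hc hf x
    have i2 : Integrable fun y => f y ^ 2 * κ (x - y) := by
      simpa [mul_comm] using integrable_ker hκ hc hf2 x
    have i3 : Integrable fun y => κ (x - y) := hi.comp_sub_left x
    have e3 : ∫ y, κ (x - y) = ∫ z, κ z := integral_sub_left_eq_self κ volume x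
    have h2 : ∫ y, 2 * C * I * (κ (x - y) * f y) ≤
        ∫ y, (C ^ 2 * (f y ^ 2 * κ (x - y)) + I ^ 2 * κ (x - y)) :=
      integral_mono (i1.const_mul _) ((i2.const_mul _).add (i3.const_mul _)) fun y => by
        have := mul_nonneg (h0 (x - y)) (sq_nonneg (C * f y - I))
        simp only
        nlinarith
    rw [integral_const_mul, integral_add (i2.const_mul _) (i3.const_mul _), integral_const_mul,
      integral_const_mul, e3, ← hI] at h2
    have h3 := mul_le_mul_of_nonneg_left h1 (sq_nonneg I)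
    refine le_of_mul_le_mul_left ?_ hC
    nlinarith
  have i4 := hf2.integrable_convolution (ContinuousLinearMap.mul ℝ ℝ) hi
  have e4 := integral_convolution (ContinuousLinearMap.mul ℝ ℝ) hf2 hi
  calc ∫ x, G x ≤ ∫ x, B * C * ((fun y => f y ^ 2) ⋆[ContinuousLinearMap.mul ℝ ℝ, volume] κ) x :=
        integral_mono_of_nonneg (ae_of_all _ hG0) (i4.const_mul _) (ae_of_all _ fun x =>
          (hG x).trans ((mul_le_mul_of_nonneg_left (key x) hB).trans_eq (mul_assoc _ _ _).symm))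
    _ = B * C * ((∫ y, f y ^ 2) * ∫ z, κ z) := by rw [integral_const_mul, e4]; rfl
    _ ≤ B * C * ((∫ y, f y ^ 2) * C) := by
        gcongr
    _ = _ := by ring

section
variable {S : Type} [NormedAddCommGroup S] [InnerProductSpace ℝ S] [FiniteDimensional ℝ S]

/-- mollification -/
def mol (ρ : E n → ℝ) (u : E n → S) (x : E n) : S := ∫ y, ρ (x - y) • u y

omit [FiniteDimensional ℝ S] in
theorem mol_eq (ρ : E n → ℝ) (u : E n → S) :
    mol ρ u = u ⋆[(ContinuousLinearMap.lsmul ℝ ℝ).flip, volume] ρ := rfl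

variable {ρ : E n → ℝ} {r C : ℝ} {u : E n → S}

omit [FiniteDimensional ℝ S] in
theorem Moll.contDiff_mol (h : Moll ρ r C) (hu : Integrable u) : ContDiff ℝ ∞ (mol ρ u) := by
  rw [mol_eq]
  exact h.cpt.contDiff_convolution_right _ hu.locallyIntegrable h.smooth

omit [FiniteDimensional ℝ S] in
theorem Moll.fderiv_mol (h : Moll ρ r C) (hu : Integrable u) (x w : E n) :
    fderiv ℝ (mol ρ u) x w = ∫ y, fderiv ℝ ρ (x - y) w • u y := by
  rw [mol_eq, (h.cpt.hasFDerivAt_convolution_right _ hu.locallyIntegrable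
    (h.smooth.of_le (by simp)) x).fderiv, convolution_precompR_apply _ hu.locallyIntegrable
    (h.cpt.fderiv ℝ) (h.smooth.continuous_fderiv (by simp))]
  rfl

omit [FiniteDimensional ℝ S] in
theorem Moll.mol_zero (h : Moll ρ r C) {R : ℝ} (hu : ∀ y, R < ‖y‖ → u y = 0) (x : E n)
    (hx : R + r < ‖x‖) : mol ρ u x = 0 := by
  have : ∀ y, ρ (x - y) • u y = 0 := fun y => by
    by_cases h1 : ρ (x - y) = 0
    · simp [h1]
    · have h2 := h.supp _ h1
      have h3 : ‖x‖ ≤ ‖x - y‖ + ‖y‖ := by simpa using norm_add_le (x - y) y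
      simp [hu y (by linarith)]
  simp [mol, this]

omit [FiniteDimensional ℝ S] in
theorem Moll.norm_mol (h : Moll ρ r C) (x : E n) : ‖mol ρ u x‖ ≤ ∫ y, ρ (x - y) * ‖u y‖ := by
  refine (norm_integral_le_integral_norm _).trans_eq ?_
  simp_rw [norm_smul, Real.norm_of_nonneg (h.nonneg _)]

theorem tendsto_pair {ρ : ℕ → E n → ℝ} (h : ∀ j, Moll (ρ j) (1 / ((j : ℝ) + 1)) C)
    (hu : Integrable u) {F : E n → S} (hF : Continuous F) (hc : HasCompactSupport F) :
    Tendsto (fun j => ∫ x, ⟪F x, mol (ρ j) u x⟫_ℝ) atTop (𝓝 (∫ x, ⟪F x, u x⟫_ℝ)) := by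
  have hFi : Integrable F := hF.integrable_of_hasCompactSupport hc
  obtain ⟨B, hB⟩ := hF.bounded_above_of_compact_support hc
  have iF : ∀ j y, Integrable fun x => ρ j (x - y) • F x := fun j y =>
    (((h j).smooth.continuous.comp (continuous_id.sub continuous_const)).smul
      hF).integrable_of_hasCompactSupport hc.smul_left
  have e1 : ∀ j, ∫ x, ⟪F x, mol (ρ j) u x⟫_ℝ = ∫ y, ⟪∫ x, ρ j (x - y) • F x, u y⟫_ℝ := fun j => by
    obtain ⟨A, hA⟩ := (h j).smooth.continuous.bounded_above_of_compact_support (h j).cpt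
    have i1 : Integrable (Function.uncurry fun x y => ρ j (x - y) * ⟪F x, u y⟫_ℝ)
        (volume.prod volume) := by
      refine ((hFi.norm.mul_prod hu.norm).const_mul A).mono'
        ((((h j).smooth.continuous.comp (continuous_fst.sub continuous_snd)).aestronglyMeasurable).mul
          ((hF.comp continuous_fst).aestronglyMeasurable.inner hu.1.comp_snd))
        (ae_of_all _ fun p => ?_)
      rw [Function.uncurry, norm_mul]
      exact mul_le_mul (hA _) (norm_inner_le_norm _ _) (norm_nonneg _)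
        ((norm_nonneg _).trans (hA 0))
    calc ∫ x, ⟪F x, mol (ρ j) u x⟫_ℝ = ∫ x, ∫ y, ρ j (x - y) * ⟪F x, u y⟫_ℝ := by
          refine integral_congr_ae (ae_of_all _ fun x => ?_)
          simp only [mol]
          rw [← integral_inner (integrable_ker (h j).smooth.continuous (h j).cpt hu x)]
          simp_rw [real_inner_smul_right]
      _ = ∫ y, ∫ x, ρ j (x - y) * ⟪F x, u y⟫_ℝ := integral_integral_swap i1
      _ = _ := by
          refine integral_congr_ae (ae_of_all _ fun y => ?_)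
          simp only
          rw [real_inner_comm, ← integral_inner (iF j y)]
          simp_rw [real_inner_smul_right, real_inner_comm]
  simp_rw [e1]
  refine tendsto_integral_of_dominated_convergence (fun y => B * ‖u y‖) (fun j => ?_)
    (hu.norm.const_mul B) (fun j => ae_of_all _ fun y => ?_) (ae_of_all _ fun y => ?_)
  · refine AEStronglyMeasurable.inner ?_ hu.1
    exact (((h j).smooth.continuous.comp (continuous_snd.sub continuous_fst)).smul
      (hF.comp continuous_snd)).aestronglyMeasurable.integral_prod_right'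
  · refine (norm_inner_le_norm _ _).trans (mul_le_mul_of_nonneg_right ?_ (norm_nonneg _))
    have i2 : Integrable fun x => ρ j (x - y) :=
      ((h j).smooth.continuous.integrable_of_hasCompactSupport (h j).cpt).comp_sub_right y
    refine (norm_integral_le_of_norm_le (i2.mul_const B) (ae_of_all _ fun x => ?_)).trans_eq ?_
    · rw [norm_smul, Real.norm_of_nonneg ((h j).nonneg _)]
      exact mul_le_mul_of_nonneg_left (hB x) ((h j).nonneg _)
    · rw [integral_mul_const, integral_sub_right_eq_self, (h j).one, one_mul]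
  · refine Tendsto.inner ?_ tendsto_const_nhds
    have hg : Continuous fun t => F (y - t) := hF.comp (continuous_const.sub continuous_id)
    have := convolution_tendsto_right (μ := (volume : Measure (E n))) (l := atTop) (φ := ρ)
      (g := fun _ t => F (y - t)) (x₀ := 0) (z₀ := F y) (k := fun _ => 0)
      (.of_forall fun j => (h j).nonneg) (.of_forall fun j => (h j).one) ?_
      (.of_forall fun _ => hg.aestronglyMeasurable) ?_ tendsto_const_nhds
    · refine this.congr fun j => ?_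
      rw [convolution_lsmul, ← integral_sub_right_eq_self _ y]
      simp
    · rw [tendsto_smallSets_iff]
      intro t ht
      obtain ⟨ε, hε, hεt⟩ := Metric.mem_nhds_iff.1 ht
      filter_upwards [(tendsto_one_div_add_atTop_nhds_zero_nat (𝕜 := ℝ)).eventually
        (gt_mem_nhds hε)] with j hj z hz
      exact hεt (mem_ball_zero_iff.2 (((h j).supp z hz).trans hj))
    · have := (hg.tendsto 0).comp (tendsto_snd (f := (atTop : Filter ℕ)))
      rw [sub_zero] at this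
      exact this

end

/-- bounded sequences converging weakly on a dense set converge weakly -/
theorem weak_of_dense {H : Type*} [NormedAddCommGroup H] [InnerProductSpace ℝ H] {s : Set H}
    (hs : Dense s) {x : ℕ → H} {C : ℝ} (hC : ∀ j, ‖x j‖ ≤ C) {z : H}
    (h : ∀ ψ ∈ s, Tendsto (fun j => ⟪ψ, x j⟫_ℝ) atTop (𝓝 ⟪ψ, z⟫_ℝ)) (ψ : H) :
    Tendsto (fun j => ⟪ψ, x j⟫_ℝ) atTop (𝓝 ⟪ψ, z⟫_ℝ) := by
  have hC0 : 0 ≤ C := (norm_nonneg _).trans (hC 0)
  have he : UniformEquicontinuous fun j (ψ : H) => ⟪ψ, x j⟫_ℝ :=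
    LipschitzWith.uniformEquicontinuous _ ⟨C, hC0⟩ fun j => LipschitzWith.of_dist_le_mul fun a b => by
      rw [dist_eq_norm, dist_eq_norm, ← inner_sub_left, mul_comm]
      exact (norm_inner_le_norm _ _).trans (mul_le_mul_of_nonneg_left (hC j) (norm_nonneg _))
  have hcl := he.equicontinuous.isClosed_setOfPred_tendsto (l := atTop) (f := fun ψ => ⟪ψ, z⟫_ℝ)
    (by fun_prop)
  exact closure_minimal (t := {ψ | Tendsto (fun j => ⟪ψ, x j⟫_ℝ) atTop (𝓝 ⟪ψ, z⟫_ℝ)}) h hcl (hs ψ)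

section
variable {S : Type} [NormedAddCommGroup S] [InnerProductSpace ℝ S] [FiniteDimensional ℝ S]
  {μ : Measure (E n)}

omit [FiniteDimensional ℝ S] in
theorem inner_toLp {f g : E n → S} (hf : MemLp f 2 μ) (hg : MemLp g 2 μ) :
    ⟪hf.toLp f, hg.toLp g⟫_ℝ = ∫ x, ⟪f x, g x⟫_ℝ ∂μ := by
  rw [L2.inner_def]
  refine integral_congr_ae ?_
  filter_upwards [hf.coeFn_toLp, hg.coeFn_toLp] with x h1 h2
  rw [h1, h2]

omit [FiniteDimensional ℝ S] in
theorem norm_toLp_sq {f : E n → S} (hf : MemLp f 2 μ) : ‖hf.toLp f‖ ^ 2 = ∫ x, ‖f x‖ ^ 2 ∂μ := by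
  rw [← real_inner_self_eq_norm_sq, inner_toLp]
  simp_rw [real_inner_self_eq_norm_sq]

omit [FiniteDimensional ℝ S] in
theorem Tst.add {ξ ζ : E n → S} (h : Tst ξ) (h' : Tst ζ) : Tst (ξ + ζ) :=
  ⟨h.1.add h'.1, h.2.add h'.2⟩

omit [FiniteDimensional ℝ S] in
theorem Tst.smul {f : E n → ℝ} (hf : ContDiff ℝ ∞ f) {ξ : E n → S} (h : Tst ξ) :
    Tst fun x => f x • ξ x := ⟨hf.smul h.1, h.2.smul_left⟩

omit [FiniteDimensional ℝ S] in
theorem Tst.memLp [IsFiniteMeasureOnCompacts μ] {ξ : E n → S} (h : Tst ξ) : MemLp ξ 2 μ :=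
  h.1.continuous.memLp_of_hasCompactSupport h.2

omit [FiniteDimensional ℝ S] in
theorem weak_L2 [IsFiniteMeasureOnCompacts μ] {f : ℕ → E n → S} (hf : ∀ j, MemLp (f j) 2 μ)
    {u : E n → S} (hu : MemLp u 2 μ) {C : ℝ} (h1 : ∀ j, ∫ x, ‖f j x‖ ^ 2 ∂μ ≤ C)
    (t1 : ∀ ψ, Tst ψ → Tendsto (fun j => ∫ x, ⟪ψ x, f j x⟫_ℝ ∂μ) atTop
      (𝓝 (∫ x, ⟪ψ x, u x⟫_ℝ ∂μ))) (φ : Lp S 2 μ) :
    Tendsto (fun j => ⟪φ, (hf j).toLp (f j)⟫_ℝ) atTop (𝓝 ⟪φ, hu.toLp u⟫_ℝ) := by
  refine weak_of_dense (Lp.dense_hasCompactSupport_contDiff (p := 2) (μ := μ) (F := S) (by simp))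
    (C := Real.sqrt C) (fun j => Real.le_sqrt_of_sq_le (by rw [norm_toLp_sq]; exact h1 j)) ?_ φ
  rintro ψ ⟨ψ', h2, h3, h4⟩
  have ht : Tst ψ' := ⟨h4, h3⟩
  have : ψ = ht.memLp.toLp ψ' := Lp.ext (h2.trans ht.memLp.coeFn_toLp.symm)
  simp_rw [this, inner_toLp]
  exact t1 ψ' ht

/-- a weak limit of a bounded sequence in the graph is a strong limit of points of the graph -/
theorem graph_approx [IsFiniteMeasureOnCompacts μ] (D : (E n → S) → E n → S)
    (hD : ∀ ξ, Tst ξ → MemLp (D ξ) 2 μ)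
    (hadd : ∀ ξ ζ, Tst ξ → Tst ζ → D (ξ + ζ) = D ξ + D ζ)
    (hsmul : ∀ (t : ℝ) ξ, Tst ξ → D (t • ξ) = t • D ξ)
    {u k : E n → S} (hu : MemLp u 2 μ) (hk : MemLp k 2 μ) {ξ : ℕ → E n → S} (hξ : ∀ j, Tst (ξ j))
    {C₁ C₂ : ℝ} (h1 : ∀ j, ∫ x, ‖ξ j x‖ ^ 2 ∂μ ≤ C₁) (h2 : ∀ j, ∫ x, ‖D (ξ j) x‖ ^ 2 ∂μ ≤ C₂)
    (t1 : ∀ ψ, Tst ψ → Tendsto (fun j => ∫ x, ⟪ψ x, ξ j x⟫_ℝ ∂μ) atTop
      (𝓝 (∫ x, ⟪ψ x, u x⟫_ℝ ∂μ)))
    (t2 : ∀ ψ, Tst ψ → Tendsto (fun j => ∫ x, ⟪ψ x, D (ξ j) x⟫_ℝ ∂μ) atTop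
      (𝓝 (∫ x, ⟪ψ x, k x⟫_ℝ ∂μ))) {δ : ℝ} (hδ : 0 < δ) :
    ∃ ζ, Tst ζ ∧ ∫ x, ‖ζ x - u x‖ ^ 2 ∂μ ≤ δ ∧ ∫ x, ‖D ζ x - k x‖ ^ 2 ∂μ ≤ δ := by
  let P : ∀ ζ, Tst ζ → WithLp 2 (Lp S 2 μ × Lp S 2 μ) := fun ζ h =>
    WithLp.toLp 2 (h.memLp.toLp ζ, (hD ζ h).toLp (D ζ))
  have h0 : Tst (0 : E n → S) := ⟨contDiff_const, HasCompactSupport.zero⟩
  let G : Submodule ℝ (WithLp 2 (Lp S 2 μ × Lp S 2 μ)) :=
    { carrier := {p | ∃ ζ h, p = P ζ h}
      add_mem' := by
        rintro _ _ ⟨a, ha, rfl⟩ ⟨b, hb, rfl⟩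
        refine ⟨a + b, ha.add hb, ?_⟩
        simp only [P, ← WithLp.toLp_add, Prod.mk_add_mk, hadd a b ha hb, ← MemLp.toLp_add]
      zero_mem' := by
        refine ⟨0, h0, ?_⟩
        have : D 0 = 0 := by simpa using hsmul 0 0 h0
        simp only [P, this, MemLp.toLp_zero]
        rfl
      smul_mem' := by
        rintro t _ ⟨a, ha, rfl⟩
        refine ⟨t • a, ha.smul contDiff_const, ?_⟩
        simp only [P, ← WithLp.toLp_smul, Prod.smul_mk, hsmul t a ha, ← MemLp.toLp_const_smul] }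
  have hmem : WithLp.toLp 2 (hu.toLp u, hk.toLp k) ∈ G.topologicalClosure := by
    rw [← Submodule.orthogonal_orthogonal_eq_closure, Submodule.mem_orthogonal]
    intro p hp
    have a1 := (weak_L2 (fun j => (hξ j).memLp) hu h1 t1 p.fst).add
      (weak_L2 (fun j => hD _ (hξ j)) hk h2 t2 p.snd)
    have a2 : ∀ j, ⟪p, P _ (hξ j)⟫_ℝ = 0 := fun j =>
      (Submodule.mem_orthogonal' _ _).1 hp _ ⟨_, hξ j, rfl⟩
    simp only [WithLp.prod_inner_apply, P] at a2 ⊢
    exact tendsto_nhds_unique a1 (tendsto_const_nhds.congr fun j => (a2 j).symm)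
  obtain ⟨_, ⟨ζ, hζ, rfl⟩, hd⟩ := Metric.mem_closure_iff.1
    (show WithLp.toLp 2 (hu.toLp u, hk.toLp k) ∈ closure (G : Set (WithLp 2 (Lp S 2 μ × Lp S 2 μ)))
      from hmem) (Real.sqrt δ) (Real.sqrt_pos.2 hδ)
  rw [dist_comm, dist_eq_norm, Real.lt_sqrt (norm_nonneg _), WithLp.prod_norm_sq_eq_of_L2] at hd
  have b1 := norm_toLp_sq (hζ.memLp.sub hu)
  have b2 := norm_toLp_sq ((hD ζ hζ).sub hk)
  rw [MemLp.toLp_sub hζ.memLp hu] at b1
  rw [MemLp.toLp_sub (hD ζ hζ) hk] at b2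
  change ‖hζ.memLp.toLp ζ - hu.toLp u‖ ^ 2 + ‖(hD ζ hζ).toLp (D ζ) - hk.toLp k‖ ^ 2 < δ at hd
  simp only [Pi.sub_apply] at b1 b2
  refine ⟨ζ, hζ, ?_, ?_⟩
  · rw [← b1]; nlinarith [sq_nonneg ‖(hD ζ hζ).toLp (D ζ) - hk.toLp k‖]
  · rw [← b2]; nlinarith [sq_nonneg ‖hζ.memLp.toLp ζ - hu.toLp u‖]

end

end Crest.Agent.N346.Sp
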