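import Mathlib

/-!
# Row 346, spinor layer (helper85): real Clifford matrices and their algebra.
-/

set_option autoImplicit false
open Matrix

namespace Crest.Agent.N346.Sp

/-- Skew matrices `c a` over a commutative ring with `c a * c b + c b * c a = -2 δ`. -/
structure IsCliff {κ ι R : Type*} [DecidableEq κ] [Fintype ι] [DecidableEq ι] [CommRing R]
    (c : κ → Matrix ι ι R) : Prop where
  skew : ∀ a, (c a)ᵀ = - c a
  anti : ∀ a b, c a * c b + c b * c a = if a = b then (-2 : R) • (1 : Matrix ι ι R) else 0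

/-- The index type of the spinor space in dimension `n`. -/
def Idx : ℕ → Type
  | 0 => Unit
  | n + 1 => Idx n ⊕ Idx n

instance Idx.fintype : ∀ n, Fintype (Idx n)
  | 0 => inferInstanceAs (Fintype Unit)
  | n + 1 => letI := Idx.fintype n; inferInstanceAs (Fintype (Idx n ⊕ Idx n))

instance Idx.decEq : ∀ n, DecidableEq (Idx n)
  | 0 => inferInstanceAs (DecidableEq Unit)
  | n + 1 => letI := Idx.decEq n; inferInstanceAs (DecidableEq (Idx n ⊕ Idx n))

instance Idx.inhabited : ∀ n, Inhabited (Idx n)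
  | 0 => inferInstanceAs (Inhabited Unit)
  | n + 1 => ⟨Sum.inl (Idx.inhabited n).default⟩

theorem cliff_step {ι : Type} [Fintype ι] [DecidableEq ι] {n : ℕ} (c : Fin n → Matrix ι ι ℝ)
    (hc : IsCliff c) : ∃ c' : Fin (n + 1) → Matrix (ι ⊕ ι) (ι ⊕ ι) ℝ, IsCliff c' := by
  let J : Matrix (ι ⊕ ι) (ι ⊕ ι) ℝ := fromBlocks 0 (-1) 1 0
  let Z : Fin n → Matrix (ι ⊕ ι) (ι ⊕ ι) ℝ := fun a => fromBlocks (c a) 0 0 (- c a)
  have hJJ : J * J + J * J = (-2 : ℝ) • (1 : Matrix (ι ⊕ ι) (ι ⊕ ι) ℝ) := by
    simp only [J, fromBlocks_multiply, fromBlocks_add, ← fromBlocks_one, fromBlocks_smul]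
    congr 1 <;> simp [two_smul]
  have hJZ : ∀ a, J * Z a + Z a * J = 0 := fun a => by
    simp only [J, Z, fromBlocks_multiply, fromBlocks_add, ← fromBlocks_zero]
    congr 1 <;> simp
  have hZZ : ∀ a b, Z a * Z b + Z b * Z a =
      if a = b then (-2 : ℝ) • (1 : Matrix (ι ⊕ ι) (ι ⊕ ι) ℝ) else 0 := fun a b => by
    have h := hc.anti a b
    simp only [Z, fromBlocks_multiply, fromBlocks_add]
    split_ifs at h ⊢ with hab
    · rw [← fromBlocks_one, fromBlocks_smul]
      congr 1 <;> simp [h]
    · rw [← fromBlocks_zero]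
      congr 1 <;> simp [h]
  refine ⟨Fin.cons J Z, fun a => ?_, fun a b => ?_⟩
  · refine Fin.cases ?_ (fun a => ?_) a
    · simp [J, fromBlocks_transpose, fromBlocks_neg]
    · simp [Z, fromBlocks_transpose, fromBlocks_neg, hc.skew]
  · refine Fin.cases ?_ (fun a => ?_) a <;> refine Fin.cases ?_ (fun b => ?_) b
    · simpa using hJJ
    · simpa [(Fin.succ_ne_zero b).symm] using hJZ b
    · simpa [Fin.succ_ne_zero a, add_comm] using hJZ a
    · simpa using hZZ a b

/-- Real Clifford matrices exist in every dimension. -/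
theorem exists_cliff (n : ℕ) : ∃ c : Fin n → Matrix (Idx n) (Idx n) ℝ, IsCliff c := by
  induction n with
  | zero => exact ⟨Fin.elim0, fun a => a.elim0, fun a => a.elim0⟩
  | succ n ih =>
    obtain ⟨c, hc⟩ := ih
    exact cliff_step c hc

section Algebra

variable {κ ι R : Type*} [Fintype κ] [DecidableEq κ] [Fintype ι] [DecidableEq ι] [CommRing R]
  {c : κ → Matrix ι ι R}

omit [Fintype κ] in
theorem IsCliff.map {S : Type*} [CommRing S] (hc : IsCliff c) (f : R →+* S) :
    IsCliff fun a => (c a).map f := by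
  refine ⟨fun a => ?_, fun a b => ?_⟩
  · rw [← transpose_map, hc.skew]; ext i j; simp
  · rw [← Matrix.map_mul, ← Matrix.map_mul, ← Matrix.map_add _ (map_add f), hc.anti]
    split_ifs
    · ext i j
      by_cases h : i = j <;> simp [h, map_ofNat]
    · ext i j; simp

omit [Fintype κ] in
theorem IsCliff.swap (hc : IsCliff c) (a b : κ) :
    c b * c a = - (c a * c b) + (if a = b then (-2 : R) • (1 : Matrix ι ι R) else 0) := by
  rw [← hc.anti a b]; abel

omit [Fintype κ] in
/-- commutator of a bivector with a vector -/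
theorem IsCliff.comm_pair (hc : IsCliff c) (p q b : κ) :
    c p * c q * c b - c b * (c p * c q) =
      (if q = b then (-2 : R) • c p else 0) + (if p = b then (2 : R) • c q else 0) := by
  have h1 : c p * c q * c b - c b * (c p * c q) =
      c p * (c q * c b + c b * c q) - (c p * c b + c b * c p) * c q := by noncomm_ring
  rw [h1, hc.anti, hc.anti]
  split_ifs <;> simp

/-- Clifford multiplication by a vector with frame components `v`. -/
def cl (c : κ → Matrix ι ι R) (v : κ → R) : Matrix ι ι R := ∑ a, v a • c a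

/-- The quadratic element `∑ ω p q c p c q`. -/
def quad (c : κ → Matrix ι ι R) (ω : Matrix κ κ R) : Matrix ι ι R :=
  ∑ p, ∑ q, ω p q • (c p * c q)

omit [DecidableEq κ] [DecidableEq ι] in
theorem quad_add (ω ω' : Matrix κ κ R) : quad c (ω + ω') = quad c ω + quad c ω' := by
  simp [quad, add_smul, Finset.sum_add_distrib]

omit [DecidableEq κ] [DecidableEq ι] in
theorem quad_sub (ω ω' : Matrix κ κ R) : quad c (ω - ω') = quad c ω - quad c ω' := by
  simp [quad, sub_smul, Finset.sum_sub_distrib]

omit [DecidableEq κ] [DecidableEq ι] in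
theorem quad_smul (r : R) (ω : Matrix κ κ R) : quad c (r • ω) = r • quad c ω := by
  simp [quad, Finset.smul_sum, smul_smul]

omit [DecidableEq κ] [DecidableEq ι] in
theorem quad_sum {α : Type*} (s : Finset α) (ω : α → Matrix κ κ R) :
    quad c (∑ i ∈ s, ω i) = ∑ i ∈ s, quad c (ω i) := by
  classical
  induction s using Finset.induction_on with
  | empty => simp [quad]
  | insert a s ha ih => rw [Finset.sum_insert ha, Finset.sum_insert ha, quad_add, ih]

theorem IsCliff.cl_skew (hc : IsCliff c) (v : κ → R) : (cl c v)ᵀ = - cl c v := by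
  simp [cl, transpose_sum, hc.skew]

theorem IsCliff.cl_anti (hc : IsCliff c) (v w : κ → R) :
    cl c v * cl c w + cl c w * cl c v = ((-2 : R) * ∑ a, v a * w a) • (1 : Matrix ι ι R) := by
  have h1 : cl c v * cl c w + cl c w * cl c v =
      ∑ a, ∑ b, (v a * w b) • (c a * c b + c b * c a) := by
    simp only [cl, Finset.sum_mul, Finset.mul_sum, smul_mul_smul_comm, smul_add,
      Finset.sum_add_distrib]
    congr 1
    rw [Finset.sum_comm]
    exact Finset.sum_congr rfl fun a _ => Finset.sum_congr rfl fun b _ => by rw [mul_comm]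
  rw [h1]
  simp only [hc.anti, smul_ite, smul_zero, Finset.sum_ite_eq, Finset.mem_univ, if_true,
    smul_smul, ← Finset.sum_smul, Finset.mul_sum]
  congr 1
  exact Finset.sum_congr rfl fun a _ => by ring

theorem IsCliff.quad_skew (hc : IsCliff c) {ω : Matrix κ κ R} (hω : ωᵀ = - ω) :
    (quad c ω)ᵀ = - quad c ω := by
  have h : ∀ p q, ω q p = - ω p q := fun p q => by
    have := congrFun (congrFun hω p) q
    simpa using this
  simp only [quad, transpose_sum, transpose_smul, transpose_mul, hc.skew, neg_mul_neg]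
  rw [Finset.sum_comm, ← Finset.sum_neg_distrib]
  refine Finset.sum_congr rfl fun p _ => ?_
  rw [← Finset.sum_neg_distrib]
  refine Finset.sum_congr rfl fun q _ => ?_
  rw [h p q, neg_smul]

theorem IsCliff.quad_comm (hc : IsCliff c) {ω : Matrix κ κ R} (hω : ωᵀ = - ω) (b : κ) :
    quad c ω * c b - c b * quad c ω = (-4 : R) • ∑ a, ω a b • c a := by
  have h : ∀ p q, ω q p = - ω p q := fun p q => by
    have := congrFun (congrFun hω p) q
    simpa using this
  have h1 : quad c ω * c b - c b * quad c ω =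
      ∑ p, ∑ q, ω p q • (c p * c q * c b - c b * (c p * c q)) := by
    simp only [quad, Finset.sum_mul, Finset.mul_sum, smul_mul_assoc, mul_smul_comm, smul_sub,
      Finset.sum_sub_distrib]
  rw [h1]
  simp only [hc.comm_pair, smul_add, Finset.sum_add_distrib, smul_ite, smul_zero]
  rw [Finset.sum_comm (f := fun p q => if p = b then ω p q • (2 : R) • c q else 0)]
  simp only [Finset.sum_ite_eq', Finset.mem_univ, if_true, Finset.smul_sum, smul_smul,
    ← Finset.sum_add_distrib, ← add_smul]
  refine Finset.sum_congr rfl fun p _ => ?_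
  rw [h p b]
  congr 1
  ring

theorem IsCliff.quad_comm_quad (hc : IsCliff c) {ω : Matrix κ κ R} (hω : ωᵀ = - ω)
    (ω' : Matrix κ κ R) :
    quad c ω * quad c ω' - quad c ω' * quad c ω = (-4 : R) • quad c (ω * ω' - ω' * ω) := by
  have h : ∀ p q, ω q p = - ω p q := fun p q => by
    have := congrFun (congrFun hω p) q
    simpa using this
  have h1 : quad c ω * quad c ω' - quad c ω' * quad c ω =
      ∑ p, ∑ q, ω' p q • ((quad c ω * c p - c p * quad c ω) * c q +
        c p * (quad c ω * c q - c q * quad c ω)) := by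
    conv_lhs => rw [show quad c ω' = ∑ p, ∑ q, ω' p q • (c p * c q) from rfl]
    simp only [Finset.sum_mul, Finset.mul_sum, smul_mul_assoc, mul_smul_comm,
      ← Finset.sum_sub_distrib, ← smul_sub]
    refine Finset.sum_congr rfl fun p _ => Finset.sum_congr rfl fun q _ => ?_
    congr 1
    noncomm_ring
  rw [h1, quad_sub]
  simp only [hc.quad_comm hω]
  simp only [smul_mul_assoc, mul_smul_comm, smul_add, Finset.sum_add_distrib,
    smul_sub, Finset.sum_mul, Finset.mul_sum, Finset.smul_sum, smul_smul, quad, mul_apply,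
    Finset.sum_smul]
  rw [sub_eq_add_neg]
  congr 1
  · rw [Finset.sum_comm]
    conv_rhs => rw [Finset.sum_comm]
    refine Finset.sum_congr rfl fun q _ => ?_
    rw [Finset.sum_comm]
    refine Finset.sum_congr rfl fun a _ => Finset.sum_congr rfl fun p _ => ?_
    congr 1; ring
  · rw [← Finset.sum_neg_distrib]
    refine Finset.sum_congr rfl fun p _ => ?_
    rw [Finset.sum_comm, ← Finset.sum_neg_distrib]
    refine Finset.sum_congr rfl fun a _ => ?_
    rw [← Finset.sum_neg_distrib]
    refine Finset.sum_congr rfl fun q _ => ?_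
    rw [← neg_smul, h a q]
    congr 1; ring

theorem cancel_nat {M : Type*} [AddCommGroup M] [Module ℝ M] (k : ℕ) (hk : k ≠ 0) {x y : M}
    (h : k • x = k • y) : x = y := by
  have h1 : (k : ℝ) • x = (k : ℝ) • y := by rwa [Nat.cast_smul_eq_nsmul, Nat.cast_smul_eq_nsmul]
  have h2 := congrArg (fun z => (k : ℝ)⁻¹ • z) h1
  simpa [smul_smul, inv_mul_cancel₀ (Nat.cast_ne_zero.2 hk : (k : ℝ) ≠ 0)] using h2

variable [Algebra ℝ R]

omit [Fintype κ] in
theorem IsCliff.sq (hc : IsCliff c) (a : κ) : c a * c a = -1 := by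
  refine cancel_nat 2 two_ne_zero ?_
  have := hc.anti a a
  rw [if_pos rfl] at this
  rw [two_nsmul, this]
  module

theorem IsCliff.cl_sq (hc : IsCliff c) (v : κ → R) :
    cl c v * cl c v = (- ∑ a, v a * v a) • (1 : Matrix ι ι R) := by
  refine cancel_nat 2 two_ne_zero ?_
  rw [two_nsmul, hc.cl_anti]
  module

/-- `∑ a, c a * c b * c a = (n - 2) c b`. -/
theorem IsCliff.sum_conj (hc : IsCliff c) (b : κ) :
    ∑ a, c a * c b * c a = ((Fintype.card κ : R) - 2) • c b := by
  have h2 : ∀ a, c a * c b * c a = c b + (if a = b then (-2 : R) • c b else 0) := fun a => by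
    have e1 : c a * c b * c a = (c a * c b + c b * c a) * c a - c b * (c a * c a) := by
      noncomm_ring
    rw [e1, hc.anti, hc.sq]
    split_ifs with h
    · subst h
      simp only [smul_mul_assoc, one_mul, mul_neg, mul_one]
      module
    · simp
  simp only [h2, Finset.sum_add_distrib, Finset.sum_ite_eq', Finset.mem_univ, if_true,
    Finset.sum_const, Finset.card_univ]
  rw [← Nat.cast_smul_eq_nsmul R]
  module

/-- cubic contraction for a tensor with vanishing cyclic sum -/
theorem IsCliff.cubic (hc : IsCliff c) (T : κ → κ → κ → R) (hs : ∀ q a b, T q a b = - T q b a)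
    (hB : ∀ q a b, T q a b + T a b q + T b q a = 0) :
    ∑ a, ∑ b, ∑ q, T q a b • (c a * c b * c q) = (-2 : R) • ∑ a, (∑ b, T b a b) • c a := by
  set S := ∑ a, ∑ b, ∑ q, T q a b • (c a * c b * c q) with hS
  set τ := ∑ a, (∑ b, T b a b) • c a with hτ
  have hd : ∀ q a, T q a a = 0 := fun q a => cancel_nat 2 two_ne_zero (by
    rw [two_nsmul, smul_zero]; nth_rewrite 1 [hs]; ring)
  have hτ1 : ∑ a, ∑ b, T b a b • c a = τ := by simp only [hτ, Finset.sum_smul]
  have hτ2 : ∑ a, ∑ b, T a a b • c b = - τ := by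
    rw [← hτ1, Finset.sum_comm, ← Finset.sum_neg_distrib]
    refine Finset.sum_congr rfl fun a _ => ?_
    rw [← Finset.sum_neg_distrib]
    exact Finset.sum_congr rfl fun b _ => by rw [hs b b a, neg_smul]
  have e2 : ∑ a, ∑ b, ∑ q, T a b q • (c a * c b * c q) = S + (4 : R) • τ := by
    have h1 : ∑ a, ∑ b, ∑ q, T a b q • (c a * c b * c q) =
        ∑ a, ∑ b, ∑ q, T q a b • (c q * (c a * c b)) := by
      rw [Finset.sum_comm]
      refine Finset.sum_congr rfl fun a _ => ?_
      rw [Finset.sum_comm]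
      simp only [mul_assoc]
    have h2 : ∀ a b q, c q * (c a * c b) = c a * c b * c q -
        ((if b = q then (-2 : R) • c a else 0) + (if a = q then (2 : R) • c b else 0)) :=
      fun a b q => by rw [← hc.comm_pair]; abel
    rw [h1]
    simp only [h2, smul_sub, smul_add, Finset.sum_sub_distrib, Finset.sum_add_distrib, smul_ite,
      smul_zero, Finset.sum_ite_eq, Finset.mem_univ, if_true, smul_comm _ (2 : R),
      smul_comm _ (-2 : R), ← Finset.smul_sum, hτ1, hτ2, ← hS]
    module
  have e3 : ∑ a, ∑ b, ∑ q, T b q a • (c a * c b * c q) = S + (2 : R) • τ := by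
    have h1 : ∑ a, ∑ b, ∑ q, T b q a • (c a * c b * c q) =
        ∑ a, ∑ b, ∑ q, T q a b • (c b * c q * c a) := by
      conv_rhs => rw [Finset.sum_comm]
      refine Finset.sum_congr rfl fun a _ => ?_
      rw [Finset.sum_comm]
    have h2 : ∀ a b q, c b * c q * c a = c a * c b * c q +
        ((if q = a then (-2 : R) • c b else 0) + (if b = a then (2 : R) • c q else 0)) :=
      fun a b q => by rw [← hc.comm_pair, mul_assoc (c a)]; abel
    have h3 : ∑ a, ∑ b, ∑ q, T q a b • (if b = a then (2 : R) • c q else 0) = 0 := by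
      refine Finset.sum_eq_zero fun a _ => Finset.sum_eq_zero fun b _ =>
        Finset.sum_eq_zero fun q _ => ?_
      split_ifs with h
      · subst h; rw [hd, zero_smul]
      · rw [smul_zero]
    have h6 : ∑ a, ∑ b, ∑ q, T q a b • (c b * c q * c a) =
        ∑ a, ∑ b, ∑ q, T q a b • (c a * c b * c q +
        ((if q = a then (-2 : R) • c b else 0) + (if b = a then (2 : R) • c q else 0))) :=
      Finset.sum_congr rfl fun a _ => Finset.sum_congr rfl fun b _ =>
        Finset.sum_congr rfl fun q _ => by rw [h2 a b q]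
    rw [h1, h6]
    simp only [smul_add, Finset.sum_add_distrib, h3]
    have h4 : ∀ (t : R) (M : Matrix ι ι R), t • (-2 : R) • M = (-2 : R) • t • M :=
      fun t M => smul_comm _ _ _
    simp only [smul_ite, smul_zero, Finset.sum_ite_eq', Finset.mem_univ, if_true]
    have h5 : ∑ a, ∑ b, T a a b • (-2 : R) • c b = (-2 : R) • - τ := by
      rw [← hτ2, Finset.smul_sum]
      refine Finset.sum_congr rfl fun a _ => ?_
      rw [Finset.smul_sum]
      exact Finset.sum_congr rfl fun b _ => h4 _ _
    rw [h5, ← hS]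
    module
  have e0 : S + ∑ a, ∑ b, ∑ q, T a b q • (c a * c b * c q) +
      ∑ a, ∑ b, ∑ q, T b q a • (c a * c b * c q) = 0 := by
    simp only [hS, ← Finset.sum_add_distrib, ← add_smul, hB, zero_smul, Finset.sum_const_zero]
  rw [e2, e3] at e0
  refine cancel_nat 3 three_ne_zero ?_
  rw [← sub_eq_zero, ← e0]
  module

/-- The algebraic heart of the Lichnerowicz formula. -/
theorem IsCliff.lich (hc : IsCliff c) (Ω : κ → κ → Matrix κ κ R)
    (h1 : ∀ a b, (Ω a b)ᵀ = - Ω a b) (h2 : ∀ a b, Ω a b = - Ω b a)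
    (hB : ∀ p q a b, Ω a b p q + Ω b q p a + Ω q a p b = 0) :
    ∑ a, ∑ b, c a * c b * quad c (Ω a b) =
      ((-2 : R) * ∑ a, ∑ b, Ω b a b a) • (1 : Matrix ι ι R) := by
  have hs : ∀ a b p q, Ω a b q p = - Ω a b p q := fun a b p q => by
    have := congrFun (congrFun (h1 a b) p) q
    simpa using this
  have hs2 : ∀ a b p q, Ω a b p q = - Ω b a p q := fun a b p q => by
    rw [h2 a b]; simp
  have hd : ∀ a b p, Ω a b p p = 0 := fun a b p => cancel_nat 2 two_ne_zero (by
    rw [two_nsmul, smul_zero]; nth_rewrite 1 [hs]; ring)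
  have e1 : ∑ a, ∑ b, c a * c b * quad c (Ω a b) =
      - ∑ p, (∑ a, ∑ b, ∑ q, Ω a b p q • (c a * c b * c q)) * c p := by
    simp only [quad, Finset.mul_sum, Finset.sum_mul, mul_smul_comm, smul_mul_assoc]
    rw [Finset.sum_comm (f := fun p a => ∑ b, ∑ q, Ω a b p q • (c a * c b * c q * c p)),
      ← Finset.sum_neg_distrib]
    refine Finset.sum_congr rfl fun a _ => ?_
    rw [Finset.sum_comm (f := fun p b => ∑ q, Ω a b p q • (c a * c b * c q * c p)),
      ← Finset.sum_neg_distrib]
    refine Finset.sum_congr rfl fun b _ => ?_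
    rw [Finset.sum_comm, ← Finset.sum_neg_distrib]
    refine Finset.sum_congr rfl fun p _ => ?_
    rw [← Finset.sum_neg_distrib]
    refine Finset.sum_congr rfl fun q _ => ?_
    rw [hs a b p q, neg_smul, mul_assoc (c a * c b)]
  have e2 : ∀ p, ∑ a, ∑ b, ∑ q, Ω a b p q • (c a * c b * c q) =
      (-2 : R) • ∑ a, (∑ b, Ω a b p b) • c a := fun p =>
    hc.cubic (fun q a b => Ω a b p q) (fun q a b => hs2 a b p q) (fun q a b => hB p q a b)
  set ρ : κ → κ → R := fun p a => ∑ b, Ω a b p b with hρ
  have hρs : ∀ p a, ρ p a = ρ a p := fun p a => by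
    refine Finset.sum_congr rfl fun b _ => ?_
    have h := hB b p a b
    rw [hd, add_zero, hs a b p b, hs2 b p, hs p b a b] at h
    linear_combination -h
  have e3 : ∑ p, ∑ a, ρ p a • (c a * c p) = (- ∑ a, ρ a a) • (1 : Matrix ι ι R) := by
    refine cancel_nat 2 two_ne_zero ?_
    have : ∑ p, ∑ a, ρ p a • (c a * c p) = ∑ p, ∑ a, ρ p a • (c p * c a) := by
      rw [Finset.sum_comm]
      exact Finset.sum_congr rfl fun p _ => Finset.sum_congr rfl fun a _ => by rw [hρs]
    rw [two_nsmul]
    nth_rewrite 2 [this]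
    simp only [← Finset.sum_add_distrib, ← smul_add, hc.anti, smul_ite, smul_zero,
      Finset.sum_ite_eq', Finset.mem_univ, if_true, smul_comm _ (-2 : R), ← Finset.smul_sum,
      ← Finset.sum_smul]
    module
  have e4 : ∑ a, ρ a a = ∑ a, ∑ b, Ω b a b a := by
    refine Finset.sum_congr rfl fun a _ => Finset.sum_congr rfl fun b _ => ?_
    rw [hs2 a b, hs b a b a, neg_neg]
  rw [e1]
  simp only [e2, smul_mul_assoc, Finset.sum_mul, ← Finset.smul_sum]
  change - ((-2 : R) • ∑ p, ∑ a, ρ p a • (c a * c p)) = _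
  rw [e3, e4]
  module

end Algebra

end Crest.Agent.N346.Sp
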