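import Crest.Agent.N346.Sp.Defs

/-!
# Row 346, spinor layer: method of continuity for dense range.
-/

set_option autoImplicit false
open scoped InnerProductSpace

noncomputable section

namespace Crest.Agent.N346.Sp

theorem dense_of_orth {T H : Type} [AddCommGroup T] [Module ℝ T] [NormedAddCommGroup H]
    [InnerProductSpace ℝ H] [CompleteSpace H] (L : T →ₗ[ℝ] H)
    (h : ∀ Θ : H, (∀ ξ, ⟪Θ, L ξ⟫_ℝ = 0) → Θ = 0) : Dense (Set.range L) := by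
  have : (LinearMap.range L).topologicalClosure = ⊤ := by
    rw [Submodule.topologicalClosure_eq_top_iff, Submodule.eq_bot_iff]
    intro Θ hΘ
    refine h Θ fun ξ => ?_
    rw [real_inner_comm]
    exact (Submodule.mem_orthogonal _ _).1 hΘ _ ⟨ξ, rfl⟩
  have h2 := Submodule.dense_iff_topologicalClosure_eq_top.2 this
  rwa [LinearMap.coe_range] at h2

theorem cont : ContStmt := by
  intro T H _ _ _ _ _ L B C hC h0 y δ hδ
  obtain ⟨N, hN⟩ := exists_nat_gt (max C 0)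
  have hN0 : (0 : ℝ) < N := lt_of_le_of_lt (le_max_right _ _) hN
  have hCN : max C 0 / N < 1 := (div_lt_one hN0).2 hN
  have key : ∀ k : ℕ, k ≤ N → ∀ Θ : H,
      (∀ ξ, ⟪Θ, (L + ((k : ℝ) / N) • B) ξ⟫_ℝ = 0) → Θ = 0 := by
    intro k
    induction k with
    | zero => intro _ Θ hΘ; exact h0 Θ fun ξ => by simpa using hΘ ξ
    | succ k ih =>
      intro hk Θ hΘ
      have hk' : (k : ℝ) + 1 ≤ N := by exact_mod_cast hk
      have hd := dense_of_orth (L + ((k : ℝ) / N) • B) (ih (by omega))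
      set τ : ℝ := (k : ℝ) / N with hτ
      have hτ0 : 0 ≤ τ := by positivity
      have hτ1 : 1 / (N : ℝ) ≤ 1 - τ := by
        rw [hτ, le_sub_iff_add_le, ← add_div, div_le_one hN0]; linarith
      have hh : 0 < 1 / (N : ℝ) := by positivity
      have hcl : IsClosed {y : H | ⟪Θ, y⟫_ℝ ^ 2 ≤ max C 0 / N * (‖Θ‖ ^ 2 * ‖y‖ ^ 2)} :=
        isClosed_le (by fun_prop) (by fun_prop)
      have hsub : Set.range (L + τ • B) ⊆
          {y : H | ⟪Θ, y⟫_ℝ ^ 2 ≤ max C 0 / N * (‖Θ‖ ^ 2 * ‖y‖ ^ 2)} := by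
        rintro _ ⟨ξ, rfl⟩
        have h1 := hΘ ξ
        have h2 : (L + (((k + 1 : ℕ) : ℝ) / N) • B) ξ = (L + τ • B) ξ + (1 / (N : ℝ)) • B ξ := by
          simp only [LinearMap.add_apply, LinearMap.smul_apply, hτ, add_assoc, ← add_smul]
          congr 2
          push_cast; ring
        rw [h2, inner_add_right, inner_smul_right] at h1
        have h3 := hC τ ⟨hτ0, by linarith⟩ ξ
        have h4 : (L + τ • B) ξ = L ξ + τ • B ξ := by simp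
        rw [← h4] at h3
        have h5 : 1 / (N : ℝ) * ‖B ξ‖ ^ 2 ≤ max C 0 * ‖(L + τ • B) ξ‖ ^ 2 := by
          calc _ ≤ (1 - τ) * ‖B ξ‖ ^ 2 := by gcongr
            _ ≤ C * ‖(L + τ • B) ξ‖ ^ 2 := h3
            _ ≤ _ := by gcongr; exact le_max_left _ _
        have h6 : ⟪Θ, B ξ⟫_ℝ ^ 2 ≤ ‖Θ‖ ^ 2 * ‖B ξ‖ ^ 2 := by
          rw [← mul_pow]
          exact sq_le_sq' (by linarith [neg_abs_le ⟪Θ, B ξ⟫_ℝ, abs_real_inner_le_norm Θ (B ξ)])
            (real_inner_le_norm _ _)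
        have h7 : ⟪Θ, (L + τ • B) ξ⟫_ℝ = -(1 / (N : ℝ) * ⟪Θ, B ξ⟫_ℝ) := by linarith
        show ⟪Θ, (L + τ • B) ξ⟫_ℝ ^ 2 ≤ _
        rw [h7, neg_sq, mul_pow]
        calc (1 / (N : ℝ)) ^ 2 * ⟪Θ, B ξ⟫_ℝ ^ 2
            ≤ (1 / (N : ℝ)) ^ 2 * (‖Θ‖ ^ 2 * ‖B ξ‖ ^ 2) := by gcongr
          _ = (1 / (N : ℝ)) * ‖Θ‖ ^ 2 * (1 / (N : ℝ) * ‖B ξ‖ ^ 2) := by ring
          _ ≤ (1 / (N : ℝ)) * ‖Θ‖ ^ 2 * (max C 0 * ‖(L + τ • B) ξ‖ ^ 2) := by gcongr
          _ = _ := by ring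
      have hΘΘ : Θ ∈ {y : H | ⟪Θ, y⟫_ℝ ^ 2 ≤ max C 0 / N * (‖Θ‖ ^ 2 * ‖y‖ ^ 2)} :=
        hcl.closure_subset_iff.2 hsub (hd Θ)
      simp only [Set.mem_ofPred_eq, real_inner_self_eq_norm_sq] at hΘΘ
      by_contra hne
      have hp : 0 < ‖Θ‖ ^ 2 * ‖Θ‖ ^ 2 := by have := norm_pos_iff.2 hne; positivity
      nlinarith
  have hd := dense_of_orth (L + ((N : ℝ) / N) • B) (key N le_rfl)
  obtain ⟨_, hz, ξ, rfl⟩ := hd.exists_dist_lt (-y) hδ |>.imp fun z hz => And.intro hz.2 hz.1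
  refine ⟨ξ, ?_⟩
  rw [div_self hN0.ne', one_smul, dist_comm, dist_eq_norm, sub_neg_eq_add, add_comm] at hz
  simpa using hz.le

end Crest.Agent.N346.Sp
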