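import Mathlib

/-!
# Row 346, spinor layer (helper85): Gram-Schmidt frame of a positive definite matrix, smooth in
the matrix and scalar for scalar matrices.
-/

set_option autoImplicit false
open Matrix Finset
open scoped ContDiff

noncomputable section

namespace Crest.Agent.N346.Sp

variable {n : ℕ}

/-- the bilinear form of a matrix -/
def bf (M : Matrix (Fin n) (Fin n) ℝ) (u v : Fin n → ℝ) : ℝ := u ⬝ᵥ M *ᵥ v

/-- Gram-Schmidt orthogonalisation of the standard basis -/
def gs (M : Matrix (Fin n) (Fin n) ℝ) (k : Fin n) : Fin n → ℝ :=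
  Pi.single k 1 - ∑ j : {j // j ∈ Iio k},
    (bf M (gs M j.1) (Pi.single k 1) / bf M (gs M j.1) (gs M j.1)) • gs M j.1
termination_by k
decreasing_by all_goals exact (show j.1 < k from mem_Iio.1 j.2)

theorem gs_def (M : Matrix (Fin n) (Fin n) ℝ) (k : Fin n) : gs M k = Pi.single k 1 -
    ∑ j ∈ Iio k, (bf M (gs M j) (Pi.single k 1) / bf M (gs M j) (gs M j)) • gs M j := by
  rw [gs, ← sum_attach (Iio k), attach_eq_univ]

theorem gs_tri (M : Matrix (Fin n) (Fin n) ℝ) (k : Fin n) :
    ∀ i, k ≤ i → gs M k i = if i = k then 1 else 0 := by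
  induction k using WellFoundedLT.induction with
  | ind k ih =>
    intro i hi
    rw [gs_def, Pi.sub_apply, Finset.sum_apply, Finset.sum_eq_zero, sub_zero, Pi.single_apply]
    intro j hj
    have hj' : j < k := mem_Iio.1 hj
    rw [Pi.smul_apply, ih j hj' i (hj'.le.trans hi), if_neg (hj'.trans_le hi).ne', smul_zero]

theorem gs_ne_zero (M : Matrix (Fin n) (Fin n) ℝ) (k : Fin n) : gs M k ≠ 0 := fun h => by
  have := gs_tri M k k le_rfl
  rw [h] at this
  simp at this

variable {M : Matrix (Fin n) (Fin n) ℝ}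

theorem bf_pos (hM : M.PosDef) {u : Fin n → ℝ} (hu : u ≠ 0) : 0 < bf M u u := by
  simpa [bf] using hM.dotProduct_mulVec_pos hu

theorem bf_symm (hM : M.PosDef) (u v : Fin n → ℝ) : bf M u v = bf M v u := by
  have h : Mᵀ = M := by simpa using hM.isHermitian.eq
  rw [bf, bf, dotProduct_mulVec, ← mulVec_transpose, h, dotProduct_comm]

theorem gs_orth_lt (hM : M.PosDef) (k : Fin n) : ∀ i, i < k → bf M (gs M i) (gs M k) = 0 := by
  induction k using WellFoundedLT.induction with
  | ind k ih =>
    intro i hi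
    have e : bf M (gs M i) (gs M k) = bf M (gs M i) (Pi.single k 1) - ∑ j ∈ Iio k,
        (bf M (gs M j) (Pi.single k 1) / bf M (gs M j) (gs M j)) * bf M (gs M i) (gs M j) := by
      conv_lhs => rw [gs_def M k]
      simp only [bf, mulVec_sub, dotProduct_sub, mulVec_sum, dotProduct_sum, mulVec_smul,
        dotProduct_smul, smul_eq_mul]
    rw [e, Finset.sum_eq_single i]
    · rw [div_mul_cancel₀ _ (bf_pos hM (gs_ne_zero M i)).ne', sub_self]
    · intro j hj hji
      rcases lt_or_gt_of_ne hji with h | h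
      · rw [bf_symm hM (gs M i), ih i hi j h, mul_zero]
      · rw [ih j (mem_Iio.1 hj) i h, mul_zero]
    · intro h; exact absurd (mem_Iio.2 hi) h

theorem gs_orth (hM : M.PosDef) {i k : Fin n} (h : i ≠ k) : bf M (gs M i) (gs M k) = 0 := by
  rcases lt_or_gt_of_ne h with h | h
  · exact gs_orth_lt hM k i h
  · rw [bf_symm hM, gs_orth_lt hM i k h]

theorem gs_scalar (l : ℝ) (k : Fin n) :
    gs (l • (1 : Matrix (Fin n) (Fin n) ℝ)) k = Pi.single k 1 := by
  induction k using WellFoundedLT.induction with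
  | ind k ih =>
    rw [gs_def, Finset.sum_eq_zero, sub_zero]
    intro j hj
    have hj' : j < k := mem_Iio.1 hj
    rw [ih j hj']
    simp [bf, hj'.ne]

/-- The orthonormal frame: column `a` is the `a`-th frame vector. -/
def frame (M : Matrix (Fin n) (Fin n) ℝ) : Matrix (Fin n) (Fin n) ℝ :=
  of fun i a => gs M a i / √(bf M (gs M a) (gs M a))

theorem frame_orth (hM : M.PosDef) : (frame M)ᵀ * M * frame M = 1 := by
  ext a b
  have e : ((frame M)ᵀ * M * frame M) a b = bf M (gs M a) (gs M b) /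
      (√(bf M (gs M a) (gs M a)) * √(bf M (gs M b) (gs M b))) := by
    generalize hα : √(bf M (gs M a) (gs M a)) = α
    generalize hβ : √(bf M (gs M b) (gs M b)) = β
    rw [Matrix.mul_assoc]
    simp only [mul_apply, frame, transpose_apply, of_apply, hα, hβ]
    simp only [bf, dotProduct, mulVec, Finset.mul_sum, Finset.sum_div]
    exact Finset.sum_congr rfl fun i _ => Finset.sum_congr rfl fun j _ => by ring
  rw [e, one_apply]
  split_ifs with h
  · subst h
    have := bf_pos hM (gs_ne_zero M a)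
    rw [Real.mul_self_sqrt this.le, div_self this.ne']
  · rw [gs_orth hM h, zero_div]

theorem frame_scalar (l : ℝ) :
    frame (l • (1 : Matrix (Fin n) (Fin n) ℝ)) = (√l)⁻¹ • (1 : Matrix (Fin n) (Fin n) ℝ) := by
  ext i a
  simp only [frame, of_apply, gs_scalar, Matrix.smul_apply, one_apply, Pi.single_apply]
  simp [bf, div_eq_inv_mul]

section smooth

variable {V : Type*} [NormedAddCommGroup V] [NormedSpace ℝ V]
  {g : V → Matrix (Fin n) (Fin n) ℝ}

theorem contDiff_bf (hg : ∀ i j, ContDiff ℝ ∞ fun x => g x i j) {u v : V → Fin n → ℝ}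
    (hu : ∀ i, ContDiff ℝ ∞ fun x => u x i) (hv : ∀ i, ContDiff ℝ ∞ fun x => v x i) :
    ContDiff ℝ ∞ fun x => bf (g x) (u x) (v x) := by
  simp only [bf, dotProduct, mulVec]
  exact ContDiff.sum fun i _ => (hu i).mul (ContDiff.sum fun j _ => (hg i j).mul (hv j))

theorem contDiff_gs (hg : ∀ i j, ContDiff ℝ ∞ fun x => g x i j) (hp : ∀ x, (g x).PosDef)
    (k : Fin n) : ∀ i, ContDiff ℝ ∞ fun x => gs (g x) k i := by
  induction k using WellFoundedLT.induction with
  | ind k ih =>
    intro i
    have e : (fun x => gs (g x) k i) = fun x => (Pi.single k 1 : Fin n → ℝ) i - ∑ j ∈ Iio k,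
        (bf (g x) (gs (g x) j) (Pi.single k 1) / bf (g x) (gs (g x) j) (gs (g x) j)) *
          gs (g x) j i := by
      funext x
      rw [gs_def, Pi.sub_apply, Finset.sum_apply]
      rfl
    rw [e]
    refine contDiff_const.sub (ContDiff.sum fun j hj => ?_)
    have h := ih j (mem_Iio.1 hj)
    have h1 : ContDiff ℝ ∞ fun x => bf (g x) (gs (g x) j) (Pi.single k 1) :=
      contDiff_bf hg h (v := fun _ => Pi.single k 1) fun _ => contDiff_const
    have h2 : ContDiff ℝ ∞ fun x => bf (g x) (gs (g x) j) (gs (g x) j) := contDiff_bf hg h h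
    exact (h1.div h2 fun x => (bf_pos (hp x) (gs_ne_zero _ j)).ne').mul (h i)

theorem contDiff_frame (hg : ∀ i j, ContDiff ℝ ∞ fun x => g x i j) (hp : ∀ x, (g x).PosDef)
    (i a : Fin n) : ContDiff ℝ ∞ fun x => frame (g x) i a := by
  have h := contDiff_gs hg hp a
  have h2 := fun x => bf_pos (hp x) (gs_ne_zero (g x) a)
  exact (h i).div ((contDiff_bf hg h h).sqrt fun x => (h2 x).ne')
    fun x => (Real.sqrt_pos.2 (h2 x)).ne'

end smooth

end Crest.Agent.N346.Sp
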