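import Crest.Agent.N346.Basic2
import Crest.Agent.N346.Sp.Frame

/-!
# Row 346, spinor layer (helper85): FROZEN definitions and leaf statements.

Spinors are functions `ℝⁿ → S`, `S` a finite dimensional real inner product space; all vector
fields are written in the smooth orthonormal frame `ev g x a` (Gram-Schmidt frame of `g x`).
-/

set_option autoImplicit false
open MeasureTheory Filter Topology
open scoped ContDiff InnerProductSpace ENNReal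
open Crest.GeometryTopology.CoordMetric
open Crest.MathPhysics.ExteriorData

noncomputable section

namespace Crest.Agent.N346.Sp

variable {n : ℕ}

/-- The `a`-th vector of the orthonormal frame at `x`. -/
def ev (g : MetricField n) (x : E n) (a : Fin n) : E n := WithLp.toLp 2 fun i => frame (g x) i a

/-- `√g · div_g V` for the vector field with frame components `V`. -/
def dvf (g : MetricField n) (V : E n → Fin n → ℝ) (x : E n) : ℝ :=
  divE (fun y i => volDensity g y * ∑ a, frame (g y) i a * V y a) x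

/-- The Riemannian measure. -/
def nu (g : MetricField n) : Measure (E n) :=
  volume.withDensity fun x => ENNReal.ofReal (volDensity g x)

section
variable {S : Type} [NormedAddCommGroup S] [InnerProductSpace ℝ S]

/-- Clifford relations for skew operators. -/
structure Cl (c : Fin n → S →L[ℝ] S) : Prop where
  skew : ∀ a u v, ⟪c a u, v⟫_ℝ = -⟪u, c a v⟫_ℝ
  anti : ∀ a b u, c a (c b u) + c b (c a u) = (if a = b then (-2 : ℝ) else 0) • u

/-- Clifford multiplication by the vector with frame components `β`. -/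
def cv (c : Fin n → S →L[ℝ] S) (β : E n) (u : S) : S := ∑ a, β a • c a u

/-- Covariant derivative in the direction of the `a`-th frame vector. -/
def nab (g : MetricField n) (A : Fin n → E n → S →L[ℝ] S) (a : Fin n) (ψ : E n → S) (x : E n) : S :=
  fderiv ℝ ψ x (ev g x a) + A a x (ψ x)

/-- The Dirac operator. -/
def dir (g : MetricField n) (c : Fin n → S →L[ℝ] S) (A : Fin n → E n → S →L[ℝ] S) (ψ : E n → S)
    (x : E n) : S := ∑ a, c a (nab g A a ψ x)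

/-- Spin geometry of `(ℝⁿ, g)` in the global frame. -/
structure SpinData (g : MetricField n) (c : Fin n → S →L[ℝ] S) (A : Fin n → E n → S →L[ℝ] S) :
    Prop where
  cl : Cl c
  A_smooth : ∀ a, ContDiff ℝ ∞ (A a)
  A_skew : ∀ a x u v, ⟪A a x u, v⟫_ℝ = -⟪u, A a x v⟫_ℝ
  /-- formal self-adjointness -/
  sa : ∀ φ ψ : E n → S, ContDiff ℝ ∞ φ → ContDiff ℝ ∞ ψ → ∀ x,
    dvf g (fun y a => ⟪φ y, c a (ψ y)⟫_ℝ) x =
      volDensity g x * (⟪φ x, dir g c A ψ x⟫_ℝ - ⟪dir g c A φ x, ψ x⟫_ℝ)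
  /-- Lichnerowicz-Witten identity -/
  wit : ∀ ψ : E n → S, ContDiff ℝ ∞ ψ → ∀ x,
    dvf g (fun y a => ⟪ψ y, nab g A a ψ y⟫_ℝ + ⟪ψ y, c a (dir g c A ψ y)⟫_ℝ) x =
      volDensity g x * ((∑ a, ‖nab g A a ψ x‖ ^ 2) + scalarCurv g x / 4 * ‖ψ x‖ ^ 2
        - ‖dir g c A ψ x‖ ^ 2)
  /-- the connection where `g = e^{2w} δ` -/
  flat : ∀ (w : E n → ℝ) (x : E n), ContDiffAt ℝ ∞ w x →
    (∀ᶠ y in 𝓝 x, g y = Real.exp (2 * w y) • (1 : Matrix (Fin n) (Fin n) ℝ)) → ∀ a u,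
    A a x u = (-(Real.exp (-w x)) / 4) •
      (c a (cv c (euclidGrad w x) u) - cv c (euclidGrad w x) (c a u))

/-- smooth compactly supported spinors -/
def Tst (ξ : E n → S) : Prop := ContDiff ℝ ∞ ξ ∧ HasCompactSupport ξ

/-- gradient (frame components) of the norm of a spinor; `0` where the spinor vanishes -/
def gnorm (g : MetricField n) (A : Fin n → E n → S →L[ℝ] S) (ψ : E n → S) (x : E n) : E n :=
  WithLp.toLp 2 fun a => ⟪ψ x, nab g A a ψ x⟫_ℝ / ‖ψ x‖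

end

/-! ### Leaves -/

/-- L1: existence of the spin data. -/
def ExistStmt : Prop := ∀ (n : ℕ) (g : MetricField n), IsRiemannianOn g Set.univ →
  ∃ (S : Type) (_ : NormedAddCommGroup S) (_ : InnerProductSpace ℝ S) (_ : FiniteDimensional ℝ S)
    (_ : Nontrivial S) (c : Fin n → S →L[ℝ] S) (A : Fin n → E n → S →L[ℝ] S), SpinData g c A

/-- L2 (S6, pure algebra): weighted Kato inequality, `T a = ∇ₐ ψ`. -/
def KatoStmt : Prop := ∀ (n : ℕ), 3 ≤ n → ∀ (S : Type) [NormedAddCommGroup S]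
  [InnerProductSpace ℝ S] (c : Fin n → S →L[ℝ] S), Cl c → ∀ (T : Fin n → S) (ψ : S) (β G : E n),
  (∀ a, G a = ⟪ψ, T a⟫_ℝ / ‖ψ‖) →
  ‖G‖ ^ 2 + (1 / ((n : ℝ) - 2)) * (2 * ‖ψ‖ * ⟪β, G⟫_ℝ - ‖β‖ ^ 2 * ‖ψ‖ ^ 2) ≤
    (∑ a, ‖T a‖ ^ 2) - ‖∑ a, c a (T a)‖ ^ 2 +
      ‖(∑ a, c a (T a)) + (1 / ((n : ℝ) - 2)) • cv c β ψ‖ ^ 2

/-- L3 (Friedrichs): an `L²` weak solution of `D Θ = h` is, after cutting off, a limit of test
spinors in the graph norm. -/
def FriedStmt : Prop := ∀ (n : ℕ) (g : MetricField n), IsRiemannianOn g Set.univ →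
  ∀ (S : Type) [NormedAddCommGroup S] [InnerProductSpace ℝ S] [FiniteDimensional ℝ S]
  (c : Fin n → S →L[ℝ] S) (A : Fin n → E n → S →L[ℝ] S), SpinData g c A →
  ∀ Θ h : E n → S, MemLp Θ 2 (nu g) → MemLp h 2 (nu g) →
  (∀ ξ, Tst ξ → ∫ x, ⟪Θ x, dir g c A ξ x⟫_ℝ ∂nu g = ∫ x, ⟪h x, ξ x⟫_ℝ ∂nu g) →
  ∀ η : E n → ℝ, ContDiff ℝ ∞ η → HasCompactSupport η → ∀ δ : ℝ, 0 < δ → ∃ ξ, Tst ξ ∧
    ∫ x, ‖ξ x - η x • Θ x‖ ^ 2 ∂nu g ≤ δ ∧
    ∫ x, ‖dir g c A ξ x - (η x • h x + ∑ a, fderiv ℝ η x (ev g x a) • c a (Θ x))‖ ^ 2 ∂nu g ≤ δ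

/-- L4 (method of continuity for dense range). -/
def ContStmt : Prop := ∀ (T H : Type) [AddCommGroup T] [Module ℝ T] [NormedAddCommGroup H]
  [InnerProductSpace ℝ H] [CompleteSpace H] (L B : T →ₗ[ℝ] H) (C : ℝ),
  (∀ τ ∈ Set.Icc (0 : ℝ) 1, ∀ ξ, (1 - τ) * ‖B ξ‖ ^ 2 ≤ C * ‖L ξ + τ • B ξ‖ ^ 2) →
  (∀ Θ : H, (∀ ξ, ⟪Θ, L ξ⟫_ℝ = 0) → Θ = 0) →
  ∀ (y : H) (δ : ℝ), 0 < δ → ∃ ξ, ‖y + (L ξ + B ξ)‖ ≤ δ

end Crest.Agent.N346.Sp
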