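import Crest.Agent.N346.Sp.Defs
import Crest.Agent.N346.P2.Conc

/-!
# Row 346, spinor layer (helper85): FROZEN leaf statements, analytic part.
-/

set_option autoImplicit false
open MeasureTheory Filter Topology
open scoped ContDiff InnerProductSpace ENNReal
open Crest.GeometryTopology.CoordMetric
open Crest.MathPhysics.ExteriorData

noncomputable section

namespace Crest.Agent.N346.Sp

variable {n : ℕ}

/-- The Gram-Schmidt frame field. -/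
def fr (g : MetricField n) : MetricField n := fun x => frame (g x)

/-- L5a: the norm of a spinor which is constant near infinity lies in the Dirichlet class. -/
def NormStmt : Prop := ∀ (n : ℕ) (g : MetricField n), IsRiemannianOn g Set.univ →
  ∀ (S : Type) [NormedAddCommGroup S] [InnerProductSpace ℝ S] [FiniteDimensional ℝ S]
  (c : Fin n → S →L[ℝ] S) (A : Fin n → E n → S →L[ℝ] S), SpinData g c A →
  ∀ (ψ₀ : S) (ξ : E n → S), Tst ξ →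
  P2.DD g (fr g) (fun x => ‖ψ₀ + ξ x‖) ‖ψ₀‖ (gnorm g A fun x => ψ₀ + ξ x)

/-- L5b: integration by parts against a function of the Dirichlet class. -/
def IbpStmt : Prop := ∀ (n : ℕ) (g : MetricField n), IsRiemannianOn g Set.univ →
  ∀ (F : E n → ℝ) (dF : E n → E n), P2.DD g (fr g) F 0 dF → ∀ V : E n → Fin n → ℝ,
  (∀ a, ContDiff ℝ ∞ fun x => V x a) → HasCompactSupport V →
  ∫ x, F x * dvf g V x = -∫ x, ∑ a, dF x a * V x a ∂nu g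

/-- L6: the Witten boundary term at infinity. -/
def WitStmt : Prop := ∀ (n : ℕ), 3 ≤ n → ∀ (g : MetricField n) (U : E n → ℝ) (μ : ℝ),
  P2.EndD n g U μ →
  ∀ (S : Type) [NormedAddCommGroup S] [InnerProductSpace ℝ S] [FiniteDimensional ℝ S]
  (c : Fin n → S →L[ℝ] S) (A : Fin n → E n → S →L[ℝ] S), SpinData g c A →
  ∀ ψ₀ : S, ‖ψ₀‖ = 1 → Integrable (scalarCurv g) (nu g) ∧ ∀ ξ : E n → S, Tst ξ →
    (∀ a, MemLp (nab g A a fun x => ψ₀ + ξ x) 2 (nu g)) ∧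
    ∫ x, ((∑ a, ‖nab g A a (fun y => ψ₀ + ξ y) x‖ ^ 2) + scalarCurv g x / 4 * ‖ψ₀ + ξ x‖ ^ 2
      - ‖dir g c A (fun y => ψ₀ + ξ y) x‖ ^ 2) ∂nu g ≤ (1 + P2.aa n) * μ

section
variable {S : Type} [NormedAddCommGroup S] [InnerProductSpace ℝ S]

/-- First component of the Callias operator `𝒟_τ (f₁, f₂)`, `b = τ a`. -/
def cal₁ (g : MetricField n) (c : Fin n → S →L[ℝ] S) (A : Fin n → E n → S →L[ℝ] S) (b : ℝ)
    (F : E n → ℝ) (β₁ : E n → E n) (f₁ f₂ : E n → S) (x : E n) : S :=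
  dir g c A f₁ x + b • cv c (β₁ x) (f₁ x) + F x • f₂ x

/-- Second component of the Callias operator. -/
def cal₂ (g : MetricField n) (c : Fin n → S →L[ℝ] S) (A : Fin n → E n → S →L[ℝ] S) (b : ℝ)
    (F : E n → ℝ) (β₂ : E n → E n) (f₁ f₂ : E n → S) (x : E n) : S :=
  -(dir g c A f₂ x + b • cv c (β₂ x) (f₂ x)) + F x • f₁ x

end

/-- L7a: the energy inequality `K_τ(|f₁|, |f₂|) ≤ ‖𝒟_τ f‖² + |ψ₀|² (1 + a) μ`. -/
def EnergyStmt : Prop := ∀ (n : ℕ), 3 ≤ n → ∀ (g : MetricField n) (U : E n → ℝ) (μ : ℝ),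
  P2.EndD n g U μ →
  ∀ (S : Type) [NormedAddCommGroup S] [InnerProductSpace ℝ S] [FiniteDimensional ℝ S]
  [Nontrivial S] (c : Fin n → S →L[ℝ] S) (A : Fin n → E n → S →L[ℝ] S), SpinData g c A →
  ∀ (F : E n → ℝ) (dF β₁ β₂ : E n → E n), P2.DD g (fr g) F 0 dF → Integrable F (nu g) →
  MemLp β₁ 2 (nu g) → MemLp β₂ 2 (nu g) → (∀ x, F x • (β₁ x + β₂ x) = 0) →
  ∀ (τ : ℝ) (ψ₀ : S), ψ₀ = 0 ∨ ‖ψ₀‖ = 1 → ∀ ξ₁ ξ₂ : E n → S, Tst ξ₁ → Tst ξ₂ →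
  MemLp (cal₁ g c A (τ * P2.aa n) F β₁ (fun x => ψ₀ + ξ₁ x) ξ₂) 2 (nu g) ∧
  MemLp (cal₂ g c A (τ * P2.aa n) F β₂ (fun x => ψ₀ + ξ₁ x) ξ₂) 2 (nu g) ∧
  Integrable (fun x => scalarCurv g x / 4 * (‖ψ₀ + ξ₁ x‖ ^ 2 + ‖ξ₂ x‖ ^ 2)) (nu g) ∧
  P2.Kf (nu g) (P2.aa n) τ (fun x => scalarCurv g x / 4) F dF β₁ β₂
      (fun x => ‖ψ₀ + ξ₁ x‖) (fun x => ‖ξ₂ x‖) (gnorm g A fun x => ψ₀ + ξ₁ x) (gnorm g A ξ₂) ≤
    ∫ x, ‖cal₁ g c A (τ * P2.aa n) F β₁ (fun x => ψ₀ + ξ₁ x) ξ₂ x‖ ^ 2 ∂nu g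
      + ∫ x, ‖cal₂ g c A (τ * P2.aa n) F β₂ (fun x => ψ₀ + ξ₁ x) ξ₂ x‖ ^ 2 ∂nu g
      + ‖ψ₀‖ ^ 2 * ((1 + P2.aa n) * μ)

theorem nu_eq (g : MetricField n) : P2.nu g = nu g := rfl

end Crest.Agent.N346.Sp
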