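import Crest.Agent.N346.Sp.Smooth

/-!
# Row 346, spinor layer (helper85): existence of the spin data (`ExistStmt`).
-/

set_option autoImplicit false
open Matrix Filter
open scoped ContDiff InnerProductSpace Topology
open Crest.GeometryTopology.CoordMetric
open Crest.MathPhysics.ExteriorData
open Crest.Agent.N346.Bs

noncomputable section

namespace Crest.Agent.N346.Sp

variable {n : ℕ} {g : MetricField n} {ι : Type} [Fintype ι] [DecidableEq ι]

local notation "𝕊" => EuclideanSpace ℝ ι

/-- a matrix as an operator -/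
def op (M : Matrix ι ι ℝ) : 𝕊 →L[ℝ] 𝕊 := Matrix.toEuclideanCLM (𝕜 := ℝ) M

theorem op_apply (M : Matrix ι ι ℝ) (u : 𝕊) (k : ι) : op M u k = ∑ l, M k l * u l := rfl

theorem op_mul (M N : Matrix ι ι ℝ) (u : 𝕊) : op (M * N) u = op M (op N u) := by
  simp [op]

theorem op_add (M N : Matrix ι ι ℝ) : op (M + N) = op M + op N := by simp [op]

theorem op_sub (M N : Matrix ι ι ℝ) : op (M - N) = op M - op N := by simp [op]

theorem op_smul (r : ℝ) (M : Matrix ι ι ℝ) : op (r • M) = r • op M := by simp [op]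

theorem op_sum {α : Type*} (s : Finset α) (M : α → Matrix ι ι ℝ) :
    op (∑ a ∈ s, M a) = ∑ a ∈ s, op (M a) := by simp [op]

theorem op_one : op (1 : Matrix ι ι ℝ) = 1 := by simp [op]

theorem op_zero : op (0 : Matrix ι ι ℝ) = 0 := by simp [op]

theorem op_skew {M : Matrix ι ι ℝ} (h : Mᵀ = -M) (u v : 𝕊) : ⟪op M u, v⟫_ℝ = -⟪u, op M v⟫_ℝ := by
  have h' : ∀ k l, M k l = -M l k := fun k l => congrFun (congrFun h l) k
  simp only [PiLp.inner_apply, op_apply, RCLike.inner_apply, conj_trivial, Finset.mul_sum,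
    Finset.sum_mul, ← Finset.sum_neg_distrib]
  rw [Finset.sum_comm]
  exact Finset.sum_congr rfl fun k _ => Finset.sum_congr rfl fun l _ => by rw [h' l k]; ring

theorem cl_op {c : Fin n → Matrix ι ι ℝ} (hc : IsCliff c) : Cl fun a => op (c a) := by
  refine ⟨fun a => op_skew (hc.skew a), fun a b u => ?_⟩
  rw [← op_mul, ← op_mul, ← _root_.add_apply, ← op_add, hc.anti]
  split_ifs
  · rw [op_smul, op_one]; rfl
  · simp [op_zero]

theorem contDiff_op (M : Matrix ι ι (Sm n)) : ContDiff ℝ ∞ fun x => op (M.map (evA x)) := by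
  rw [contDiff_clm_apply_iff]
  intro u
  rw [contDiff_euclidean]
  intro k
  simp only [op_apply]
  exact ContDiff.sum fun l _ => (contDiff_evA _).mul contDiff_const

/-- a column of smooth functions as a spinor field -/
def vec (Ψ : Matrix ι Unit (Sm n)) (x : E n) : 𝕊 := WithLp.toLp 2 fun k => evA x (Ψ k ())

/-- a smooth spinor field as a column of smooth functions -/
def col (ψ : E n → 𝕊) (h : ContDiff ℝ ∞ ψ) : Matrix ι Unit (Sm n) :=
  fun k _ => ⟨fun x => ψ x k, contDiff_euclidean.1 h k⟩

omit [DecidableEq ι] in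
theorem vec_col (ψ : E n → 𝕊) (h : ContDiff ℝ ∞ ψ) : vec (col ψ h) = ψ := rfl

omit [DecidableEq ι] in
theorem contDiff_vec (Ψ : Matrix ι Unit (Sm n)) : ContDiff ℝ ∞ (vec Ψ) :=
  contDiff_euclidean.2 fun _ => contDiff_evA _

theorem vec_mul (M : Matrix ι ι (Sm n)) (Ψ : Matrix ι Unit (Sm n)) (x : E n) :
    vec (M * Ψ) x = op (M.map (evA x)) (vec Ψ x) := by
  ext k
  simp [vec, op_apply, mul_apply]

omit [DecidableEq ι] [Fintype ι] in
theorem vec_add (Φ Ψ : Matrix ι Unit (Sm n)) (x : E n) : vec (Φ + Ψ) x = vec Φ x + vec Ψ x := by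
  ext k
  simp [vec]

omit [DecidableEq ι] [Fintype ι] in
theorem vec_sum_smul (r : Fin n → Sm n) (Ψ : Fin n → Matrix ι Unit (Sm n)) (x : E n) :
    vec (∑ i, r i • Ψ i) x = ∑ i, evA x (r i) • vec (Ψ i) x := by
  ext k
  simp [vec, Matrix.sum_apply]

omit [DecidableEq ι] [Fintype ι] in
theorem vec_sum (Ψ : Fin n → Matrix ι Unit (Sm n)) (x : E n) :
    vec (∑ i, Ψ i) x = ∑ i, vec (Ψ i) x := by
  ext k
  simp [vec, Matrix.sum_apply]

omit [DecidableEq ι] in
theorem vec_dM (i : Fin n) (Ψ : Matrix ι Unit (Sm n)) (x : E n) :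
    vec (dM (pdD i) Ψ) x = fderiv ℝ (vec Ψ) x (EuclideanSpace.single i 1) := by
  ext k
  have h := ((EuclideanSpace.proj k : 𝕊 →L[ℝ] ℝ).hasFDerivAt.comp x
    (((contDiff_vec Ψ).differentiable (by simp)) x).hasFDerivAt).fderiv
  change pderiv i ((EuclideanSpace.proj k : 𝕊 →L[ℝ] ℝ) ∘ vec Ψ) x = _
  rw [pderiv, h]
  rfl

omit [DecidableEq ι] in
theorem ev_pair (Φ Ψ : Matrix ι Unit (Sm n)) (x : E n) :
    evA x ((Φᵀ * Ψ) () ()) = ⟪vec Φ x, vec Ψ x⟫_ℝ := by
  simp [vec, mul_apply, PiLp.inner_apply, mul_comm]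

theorem ev_eq_sum (g : MetricField n) (x : E n) (a : Fin n) :
    ev g x a = ∑ i, frame (g x) i a • EuclideanSpace.single i (1 : ℝ) := by
  ext j
  simp [ev, Pi.single_apply]

section
variable (hg : IsRiemannianOn g Set.univ) {c : Fin n → Matrix ι ι ℝ} (hc : IsCliff c)

/-- the connection operators in the frame -/
def conn (a : Fin n) (x : E n) : 𝕊 →L[ℝ] 𝕊 :=
  ∑ i, frame (g x) i a • op (((smSpin hg hc).A i).map (evA x))

theorem map_c (a : Fin n) (x : E n) : ((smSpin hg hc).c a).map (evA x) = c a := rfl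

theorem vec_nabf (a : Fin n) (Ψ : Matrix ι Unit (Sm n)) (x : E n) :
    vec ((smSpin hg hc).nabf a Ψ) x = nab g (conn hg hc) a (vec Ψ) x := by
  simp only [Spin.nabf, vec_sum_smul, Spin.nab, vec_add, vec_mul, vec_dM, ev_E, nab, conn,
    ev_eq_sum, map_sum, map_smul, _root_.sum_apply, _root_.smul_apply,
    smul_add, Finset.sum_add_distrib]

theorem vec_dir (Ψ : Matrix ι Unit (Sm n)) (x : E n) :
    vec ((smSpin hg hc).dir Ψ) x = dir g (fun a => op (c a)) (conn hg hc) (vec Ψ) x := by
  simp only [Spin.dir_eq, vec_sum, vec_mul, vec_nabf, map_c, dir]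

theorem dvf_eq (V : Fin n → Matrix Unit Unit (Sm n)) (x : E n) :
    dvf g (fun y a => evA y (V a () ())) x =
      volDensity g x * evA x ((smSpin hg hc).dv (fun i => ∑ a, (smSpin hg hc).E i a • V a) () ()) := by
  rw [← ev_dv]
  simp only [dvf, Matrix.sum_apply, Matrix.smul_apply, smul_eq_mul, map_sum, map_mul, ev_E]

theorem conn_flat (w : E n → ℝ) (x : E n) (hw : ContDiffAt ℝ ∞ w x)
    (h : ∀ᶠ y in 𝓝 x, g y = Real.exp (2 * w y) • (1 : Matrix (Fin n) (Fin n) ℝ)) (a : Fin n)
    (u : 𝕊) : conn hg hc a x u = (-(Real.exp (-w x)) / 4) •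
      (op (c a) (cv (fun a => op (c a)) (euclidGrad w x) u) -
        cv (fun a => op (c a)) (euclidGrad w x) (op (c a) u)) := by
  have hd : DifferentiableAt ℝ w x := hw.differentiableAt (by simp)
  have hs : ∀ t : ℝ, (√(Real.exp (2 * t)))⁻¹ = Real.exp (-t) := fun t => by
    rw [Real.exp_neg, two_mul, Real.exp_add, Real.sqrt_mul_self (Real.exp_pos _).le]
  have hF : ∀ᶠ y in 𝓝 x, frame (g y) = Real.exp (-w y) • (1 : Matrix (Fin n) (Fin n) ℝ) := by
    filter_upwards [h] with y hy
    rw [hy, frame_scalar, hs]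
  have hx := h.self_of_nhds
  have hFx := hF.self_of_nhds
  have hdg : ∀ i j k, pderiv i (fun y => g y j k) x =
      2 * Real.exp (2 * w x) * pderiv i w x * (if j = k then 1 else 0) := fun i j k => by
    rw [pd_congr (v := fun y => Real.exp (2 * w y) * (if j = k then 1 else 0))
      (h.mono fun y hy => by simp [hy, one_apply]), pd_mul_const,
      pd_comp (θ := fun t => Real.exp (2 * t)) (θ' := Real.exp (2 * w x) * 2)
        (by simpa using ((hasDerivAt_id (w x)).const_mul 2).exp) hd]
    ring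
  have hdF : ∀ i j k, pderiv i (fun y => frame (g y) j k) x =
      -Real.exp (-w x) * pderiv i w x * (if j = k then 1 else 0) := fun i j k => by
    rw [pd_congr (v := fun y => Real.exp (-w y) * (if j = k then 1 else 0))
      (hF.mono fun y hy => by simp [hy, one_apply]), pd_mul_const,
      pd_comp (θ := fun t => Real.exp (-t)) (θ' := -Real.exp (-w x))
        (by simpa using (hasDerivAt_neg (w x)).exp) hd]
  have hinv : inverseField g x = (Real.exp (2 * w x))⁻¹ • (1 : Matrix (Fin n) (Fin n) ℝ) := by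
    rw [inverseField, hx, inv_smul_one (Real.exp_pos _).ne']
  have hΓ : ∀ i k j, christoffel g x k i j = (if j = k then pderiv i w x else 0) +
      (if i = k then pderiv j w x else 0) - (if i = j then pderiv k w x else 0) := fun i k j => by
    have := (Real.exp_pos (2 * w x)).ne'
    simp only [christoffel, hinv, hdg, Matrix.smul_apply, one_apply, smul_eq_mul, mul_ite,
      ite_mul, mul_one, mul_zero, zero_mul, Finset.sum_ite_eq, Finset.mem_univ, if_true]
    split_ifs <;> field_simp <;> ring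
  have he : Real.exp (-w x) * Real.exp (2 * w x) * Real.exp (-w x) = 1 := by
    rw [← Real.exp_add, ← Real.exp_add, ← Real.exp_zero]; congr 1; ring
  have hω : ∀ i p q, evA x ((smSpin hg hc).ω i p q) =
      (if i = p then pderiv q w x else 0) - (if i = q then pderiv p w x else 0) := fun i p q => by
    simp only [Geo.ω, Geo.θ, mul_apply, Matrix.add_apply, transpose_apply, dM_apply, map_sum,
      map_mul, map_add, evA_pdD, ev_E, ev_G, ev_Γ, hdF, hΓ, hFx]
    simp only [hx, Matrix.smul_apply, one_apply, smul_eq_mul, mul_ite, ite_mul, mul_one,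
      mul_zero, zero_mul, Finset.sum_ite_eq', Finset.mem_univ, if_true]
    by_cases hpq : p = q
    · subst hpq
      split_ifs <;> ring
    · simp only [hpq, Ne.symm hpq, if_false]
      split_ifs
      · linear_combination (pderiv q w x - pderiv p w x) * he
      · linear_combination pderiv q w x * he
      · linear_combination (-pderiv p w x) * he
      · ring
  have hA : ∀ i, ((smSpin hg hc).A i).map (evA x) = (-1 / 4 : ℝ) •
      (c i * (∑ q, pderiv q w x • c q) - (∑ p, pderiv p w x • c p) * c i) := fun i => by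
    have e1 : ((smSpin hg hc).A i).map (evA x) = (-1 / 4 : ℝ) •
        ∑ p, ∑ q, evA x ((smSpin hg hc).ω i p q) • (c p * c q) := by
      ext k l
      simp only [Spin.A, quad, map_apply, Matrix.smul_apply, Matrix.sum_apply, map_smul, map_sum,
        smul_eq_mul, map_mul, mul_apply, ev_c]
    rw [e1]
    congr 1
    simp only [hω, sub_smul, ite_smul, zero_smul, Finset.sum_sub_distrib, Finset.sum_ite_eq,
      Finset.mem_univ, if_true, Matrix.mul_sum, Matrix.sum_mul, Matrix.mul_smul, Matrix.smul_mul]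
    congr 1
    rw [Finset.sum_comm]
    simp only [Finset.sum_ite_eq, Finset.mem_univ, if_true]
  rw [conn, _root_.sum_apply, Finset.sum_eq_single a
    (fun i _ hi => by rw [_root_.smul_apply, hFx]; simp [hi]) (by simp), hFx, Matrix.smul_apply,
    one_apply_eq, smul_eq_mul, mul_one]
  simp only [hA, op_smul, op_sub, _root_.smul_apply, _root_.sub_apply, op_mul, op_sum,
    _root_.sum_apply, smul_smul, cv, euclidGrad]
  congr 1
  ring

theorem spinData : SpinData g (fun a => op (c a)) (conn hg hc) where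
  cl := cl_op hc
  A_smooth a := ContDiff.sum fun i _ =>
    (contDiff_frame (contDiff_g hg) (riem_posDef hg) i a).smul (contDiff_op _)
  A_skew a x u v := by
    have h : ∀ i, (((smSpin hg hc).A i).map (evA x))ᵀ = -((smSpin hg hc).A i).map (evA x) :=
      fun i => by
        rw [← Matrix.transpose_map, Spin.A_skew]
        ext k l
        simp
    simp only [conn, _root_.sum_apply, _root_.smul_apply, sum_inner,
      inner_sum, real_inner_smul_left, real_inner_smul_right, op_skew (h _), mul_neg,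
      Finset.sum_neg_distrib]
  sa φ ψ hφ hψ x := by
    have h := dvf_eq hg hc (fun a => (col φ hφ)ᵀ * ((smSpin hg hc).c a * col ψ hψ)) x
    rw [Spin.sa'] at h
    simpa only [Matrix.sub_apply, map_sub, ev_pair, vec_mul, vec_dir, vec_col, map_c] using h
  wit ψ hψ x := by
    have h := dvf_eq hg hc (fun a => (col ψ hψ)ᵀ * (smSpin hg hc).nabf a (col ψ hψ) +
      (col ψ hψ)ᵀ * ((smSpin hg hc).c a * (smSpin hg hc).dir (col ψ hψ))) x
    rw [Spin.wit'] at h
    simp only [Matrix.sub_apply, Matrix.add_apply, Matrix.sum_apply, Matrix.smul_apply, map_sub,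
      map_add, map_sum, smul_eq_mul, map_mul, map_smul, ev_scal, ev_pair, vec_mul, vec_dir,
      vec_nabf, vec_col, map_c, real_inner_self_eq_norm_sq] at h
    rw [h]
    ring
  flat := conn_flat hg hc

end

/-- **L1.** -/
theorem exist : ExistStmt := fun n g hg => by
  obtain ⟨c, hc⟩ := exists_cliff n
  exact ⟨EuclideanSpace ℝ (Idx n), inferInstance, inferInstance, inferInstance, inferInstance,
    _, _, spinData hg hc⟩

end Crest.Agent.N346.Sp
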