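import Crest.Agent.N346.Sp.Uniq
import Crest.Agent.N346.Sp.Exist
import Crest.Agent.N346.Sp.Cont

/-!
# Row 346, spinor layer (helper85): assembly of `SPStmt`.
-/

set_option autoImplicit false
open MeasureTheory Filter Topology Metric
open scoped ContDiff InnerProductSpace ENNReal
open Crest.GeometryTopology.CoordMetric
open Crest.MathPhysics.ExteriorData
open Crest.Agent.N346.Bs

noncomputable section

namespace Crest.Agent.N346.Sp

section abstract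
variable {X : Type} [MeasurableSpace X] {V : Type} [NormedAddCommGroup V] [InnerProductSpace ℝ V]
  {ν : Measure X}

/-- `K_τ` is a quadratic polynomial in `τ`. -/
theorem Kf_poly {𝒟 : P2.DClass ν V} {ρ F Y₁ Y₂ : X → ℝ} {dF β₁ β₂ G₁ G₂ : X → V} {t : ℝ}
    (bF : P2.Bd F) (iF : Integrable F ν) (idF : Integrable dF ν) (m₁ : MemLp β₁ 2 ν)
    (m₂ : MemLp β₂ 2 ν) (h : P2.IsPair 𝒟 ρ t Y₁ Y₂ G₁ G₂) (a : ℝ) : ∃ p q : ℝ, ∀ τ : ℝ,
    P2.Kf ν a τ ρ F dF β₁ β₂ Y₁ Y₂ G₁ G₂ = p + a * (τ * q - τ ^ 2 *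
      ∫ x, (‖β₁ x‖ ^ 2 * Y₁ x ^ 2 + ‖β₂ x‖ ^ 2 * Y₂ x ^ 2) ∂ν) := by
  have b₁ := P2.DClass.bd h.d₁
  have b₂ := P2.DClass.bd h.d₂
  have g₁ := 𝒟.memG h.d₁
  have g₂ := 𝒟.memG h.d₂
  have hP := P2.HI.of (((((P2.int_normsq g₁).add (P2.int_normsq g₂)).add h.int).add
    ((bF.mul (b₁.sq.add b₂.sq)).int iF)).sub (((b₁.mul b₂).cmul 2).int idF.norm))
  have hQ := P2.HI.of (((b₁.cmul 2).int (P2.int_inner m₁ g₁)).add
    ((b₂.cmul 2).int (P2.int_inner m₂ g₂)))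
  have hB : P2.HI ν (fun x => ‖β₁ x‖ ^ 2 * Y₁ x ^ 2 + ‖β₂ x‖ ^ 2 * Y₂ x ^ 2) _ :=
    .of (((b₁.sq.int (P2.int_normsq m₁)).add (b₂.sq.int (P2.int_normsq m₂))).congr
      (.of_forall fun x => by simp only [Pi.add_apply]; ring))
  refine ⟨_, _, fun τ => ((hP.add (((hQ.cmul τ).sub (hB.cmul (τ ^ 2))).cmul a)).congr
    fun x => ?_).2⟩
  simp only [Pi.add_apply, Pi.sub_apply]
  ring

variable {W T : Type} [NormedAddCommGroup W] [InnerProductSpace ℝ W] [AddCommGroup T] [Module ℝ T]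

/-- a linear map with square integrable values as a map into `L²` -/
def toL2 (Φ : T →ₗ[ℝ] X → W) (h : ∀ ξ, MemLp (Φ ξ) 2 ν) : T →ₗ[ℝ] Lp W 2 ν where
  toFun ξ := (h ξ).toLp
  map_add' ξ ζ := by
    rw [← MemLp.toLp_add]
    exact MemLp.toLp_congr _ _ (.of_eq (map_add Φ ξ ζ))
  map_smul' r ξ := by
    rw [RingHom.id_apply, ← MemLp.toLp_const_smul]
    exact MemLp.toLp_congr _ _ (.of_eq (map_smul Φ r ξ))

theorem toL2_apply (Φ : T →ₗ[ℝ] X → W) (h : ∀ ξ, MemLp (Φ ξ) 2 ν) (ξ : T) :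
    toL2 Φ h ξ = (h ξ).toLp := rfl

/-- pairs of square integrable functions -/
theorem memLp_pair {u v : X → W} (hu : MemLp u 2 ν) (hv : MemLp v 2 ν) :
    MemLp (fun x => WithLp.toLp 2 (u x, v x)) 2 ν :=
  ((WithLp.prodContinuousLinearEquiv 2 ℝ W W).symm : W × W →L[ℝ] WithLp 2 (W × W)).comp_memLp'
    (memLp_prod_iff.2 ⟨hu, hv⟩)

theorem norm_pair {u v : X → W} (hu : MemLp u 2 ν) (hv : MemLp v 2 ν) :
    ‖(memLp_pair hu hv).toLp‖ ^ 2 = ∫ x, ‖u x‖ ^ 2 ∂ν + ∫ x, ‖v x‖ ^ 2 ∂ν := by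
  rw [P2.L2T.norm_toLp_sq, ← integral_add (P2.int_normsq hu) (P2.int_normsq hv)]
  simp only [WithLp.prod_norm_sq_eq_of_L2]
  rfl

end abstract

variable {n : ℕ} {g : MetricField n} {S : Type} [NormedAddCommGroup S] [InnerProductSpace ℝ S]
  {c : Fin n → S →L[ℝ] S} {A : Fin n → E n → S →L[ℝ] S}

/-- the space of test spinors -/
def TS (n : ℕ) (S : Type) [NormedAddCommGroup S] [InnerProductSpace ℝ S] :
    Submodule ℝ (E n → S) where
  carrier := {ξ | Tst ξ}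
  add_mem' {_ _} hξ hζ := ⟨hξ.1.add hζ.1, hξ.2.add hζ.2⟩
  zero_mem' := ⟨contDiff_const, .zero⟩
  smul_mem' r _ hξ := ⟨hξ.1.const_smul r, hξ.2.smul_left (f := fun _ => r)⟩

theorem TS.diff (ξ : TS n S) (x : E n) : DifferentiableAt ℝ ξ.1 x :=
  ξ.2.1.differentiable (by simp) x

/-- the Callias operator at `τ = 0` -/
def opL (g : MetricField n) (c : Fin n → S →L[ℝ] S) (A : Fin n → E n → S →L[ℝ] S) (F : E n → ℝ) :
    TS n S × TS n S →ₗ[ℝ] E n → WithLp 2 (S × S) where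
  toFun ξ x := WithLp.toLp 2
    (dir g c A ξ.1.1 x + F x • ξ.2.1 x, -dir g c A ξ.2.1 x + F x • ξ.1.1 x)
  map_add' ξ ζ := by
    funext x
    have h1 := dir_add (g := g) (c := c) (A := A) (TS.diff ξ.1 x) (TS.diff ζ.1 x)
    have h2 := dir_add (g := g) (c := c) (A := A) (TS.diff ξ.2 x) (TS.diff ζ.2 x)
    rw [Pi.add_apply, ← WithLp.toLp_add, Prod.mk_add_mk]
    congr 2
    · exact (congrArg (· + F x • (ξ.2.1 x + ζ.2.1 x)) h1).trans (by module)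
    · exact (congrArg (-· + F x • (ξ.1.1 x + ζ.1.1 x)) h2).trans (by module)
  map_smul' r ξ := by
    funext x
    have h1 := dir_smul (g := g) (c := c) (A := A) r (TS.diff ξ.1 x)
    have h2 := dir_smul (g := g) (c := c) (A := A) r (TS.diff ξ.2 x)
    rw [RingHom.id_apply, Pi.smul_apply, ← WithLp.toLp_smul, Prod.smul_mk]
    congr 2
    · exact (congrArg (· + F x • (r • ξ.2.1 x)) h1).trans (by module)
    · exact (congrArg (-· + F x • (r • ξ.1.1 x)) h2).trans (by module)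

/-- the zeroth order perturbation -/
def opB (c : Fin n → S →L[ℝ] S) (a : ℝ) (β₁ β₂ : E n → E n) :
    TS n S × TS n S →ₗ[ℝ] E n → WithLp 2 (S × S) where
  toFun ξ x := WithLp.toLp 2 (a • cv c (β₁ x) (ξ.1.1 x), -(a • cv c (β₂ x) (ξ.2.1 x)))
  map_add' ξ ζ := by
    funext x
    rw [Pi.add_apply, ← WithLp.toLp_add, Prod.mk_add_mk]
    congr 2
    · exact (congrArg (a • ·) (cv_add_right c _ _ _)).trans (by module)
    · exact (congrArg (fun u => -(a • u)) (cv_add_right c _ _ _)).trans (by module)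
  map_smul' r ξ := by
    funext x
    rw [RingHom.id_apply, Pi.smul_apply, ← WithLp.toLp_smul, Prod.smul_mk]
    congr 2
    · exact (congrArg (a • ·) (cv_smul_right c _ _ _)).trans (by module)
    · exact (congrArg (fun u => -(a • u)) (cv_smul_right c _ _ _)).trans (by module)

theorem Tst.memLp_cv (hc : Cl c) {ξ : E n → S} (h : Tst ξ) {β : E n → E n} {ν : Measure (E n)}
    (hβ : MemLp β 2 ν) : MemLp (fun x => cv c (β x) (ξ x)) 2 ν := by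
  obtain ⟨M, hM⟩ := h.1.continuous.bounded_above_of_compact_support h.2
  refine hβ.of_le_mul (c := M) (aesm_cv hβ.1 h.1.continuous.aestronglyMeasurable)
    (.of_forall fun x => ?_)
  rw [hc.norm_cv, mul_comm]
  exact mul_le_mul_of_nonneg_right (hM x) (norm_nonneg _)

/-- the constant of the coercivity hypothesis is positive -/
theorem pos_const (hn : 3 ≤ n) (hSob : P2.SobStmt) {U : E n → ℝ} {μ : ℝ} (hE : P2.EndD n g U μ)
    {𝒟 : P2.DClass (P2.nu g) (E n)} (h𝒟 : 𝒟.D = P2.DD g (fr g)) {F : E n → ℝ}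
    {dF β₁ β₂ : E n → E n} {a C : ℝ} (m₁ : MemLp β₁ 2 (nu g))
    (h0 : ∀ Y₁ Y₂ G₁ G₂, P2.IsPair 𝒟 (fun x => scalarCurv g x / 4) 0 Y₁ Y₂ G₁ G₂ →
      ∫ x, (‖G₁ x‖ ^ 2 + ‖G₂ x‖ ^ 2 + ‖β₁ x‖ ^ 2 * Y₁ x ^ 2 + ‖β₂ x‖ ^ 2 * Y₂ x ^ 2) ∂nu g
        ≤ C * P2.Kf (nu g) a 0 (fun x => scalarCurv g x / 4) F dF β₁ β₂ Y₁ Y₂ G₁ G₂)
    (hR : Integrable (fun x => scalarCurv g x / 4) (nu g)) : 0 < C := by
  by_contra hC
  have hfr := fr_Fr hE
  obtain ⟨R, hRf⟩ := hE.R_far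
  have : Nontrivial (E n) := by
    have : Nonempty (Fin n) := ⟨⟨0, by omega⟩⟩
    infer_instance
  obtain ⟨x₀, hx₀⟩ := exists_norm_eq (E n) (show 0 ≤ |R| + 2 by positivity)
  let χ : ContDiffBump x₀ := ⟨1, 2, one_pos, one_lt_two⟩
  have hχ : P2.DD g (fr g) χ 0 (P2.fgrad (fr g) χ) :=
    .of_contDiff hfr χ.contDiff (by simpa using χ.hasCompactSupport)
  have bχ : P2.Bd χ := ⟨hχ.meas, hχ.bdd⟩
  have hp : P2.IsPair 𝒟 (fun x => scalarCurv g x / 4) 0 χ (fun _ => 0) (P2.fgrad (fr g) χ)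
      fun _ => 0 :=
    ⟨h𝒟 ▸ hχ, 𝒟.const 0, fun _ => χ.nonneg, fun _ => le_rfl,
      ((bχ.sq.add (P2.Bd.const 0).sq).int hR).congr (.of_forall fun x => mul_comm _ _)⟩
  have h1 := h0 _ _ _ _ hp
  have h2 : 0 ≤ P2.Kf (nu g) a 0 (fun x => scalarCurv g x / 4) F dF β₁ β₂ χ (fun _ => 0)
      (P2.fgrad (fr g) χ) fun _ => 0 := integral_nonneg fun x => by
    have : 0 ≤ scalarCurv g x / 4 * χ x ^ 2 := by
      by_cases hx : 2 ≤ dist x x₀
      · rw [χ.zero_of_le_dist hx]; simp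
      · have h3 := abs_norm_sub_norm_le x₀ x
        rw [← dist_eq_norm, dist_comm, hx₀] at h3
        have h4 := hRf x (by linarith [le_abs_self R, le_abs_self (|R| + 2 - ‖x‖)])
        positivity
    simp only [Pi.zero_apply]
    nlinarith [sq_nonneg ‖P2.fgrad (fr g) χ x‖, sq_nonneg (F x * χ x)]
  have h3 : ∫ x, ‖P2.fgrad (fr g) χ x‖ ^ 2 ∂nu g ≤ 0 := by
    refine le_trans ?_ (h1.trans (mul_nonpos_of_nonpos_of_nonneg (not_lt.1 hC) h2))
    refine integral_mono (P2.int_normsq hχ.memG) (((P2.int_normsq hχ.memG).add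
      (bχ.sq.int (P2.int_normsq m₁))).congr (.of_forall fun x => ?_)) fun x => ?_
    · simp only [Pi.add_apply]; simp [mul_comm]
    · simp only [norm_zero]; nlinarith [sq_nonneg (‖β₁ x‖ * χ x)]
  have : IsLocallyFiniteMeasure (P2.nu g) := P2.isLocallyFinite_nu hE.riem
  have hfin : P2.nu g (closedBall x₀ 1) ≠ ⊤ := (isCompact_closedBall x₀ 1).measure_lt_top.ne
  obtain ⟨Z, hZ0, hZ⟩ := hSob n hn g _ hfr (P2.nu g (closedBall x₀ 1)).toReal
  have h4 := (hZ _ _ _ hχ measurableSet_closedBall (ENNReal.ofReal_toReal hfin).ge).trans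
    (mul_nonpos_of_nonneg_of_nonpos hZ0 h3)
  rw [setIntegral_congr_fun measurableSet_closedBall (g := fun _ => (1 : ℝ))
    fun x hx => by simp [χ.one_of_mem_closedBall hx]] at h4
  have h5 : P2.nu g (closedBall x₀ 1) ≠ 0 := fun h =>
    (measure_closedBall_pos volume x₀ one_pos).ne' (P2.ac_nu hE.riem h)
  have := ENNReal.toReal_pos h5 hfin
  simp only [integral_const, smul_eq_mul, mul_one, Measure.real, Measure.restrict_apply_univ] at h4
  linarith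

theorem sp_of (hFr : FriedStmt) (hEn : EnergyStmt) (hW : WitStmt) (hSob : P2.SobStmt) :
    P2.SPStmt := by
  intro n hn g U μ hE
  have hfr := fr_Fr hE
  have hg := hE.riem
  refine ⟨fr g, hfr, fun 𝒟 h𝒟 F dF β₁ β₂ hF _ iF idF m₁ m₂ hβ ⟨C, h0⟩ h1 η hη => ?_⟩
  obtain ⟨S, _, _, _, _, c, A, hs⟩ := exist n g hg
  obtain ⟨ψ₀, hψ₀⟩ := exists_norm_eq S zero_le_one
  have hR : Integrable (fun x => scalarCurv g x / 4) (nu g) :=
    (hW n hn g U μ hE S c A hs ψ₀ hψ₀).1.div_const 4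
  have hC : 0 < C := pos_const hn hSob hE h𝒟 m₁ h0 hR
  have bF := P2.DClass.bd hF
  have ha : 0 < P2.aa n := by
    have : (3 : ℝ) ≤ n := by exact_mod_cast hn
    exact one_div_pos.2 (by linarith)
  have hen := hEn n hn g U μ hE S c A hs F dF β₁ β₂ (h𝒟 ▸ hF) iF m₁ m₂ hβ
  have hN : ∀ ξ : E n → S, Tst ξ → 𝒟.D (fun x => ‖ξ x‖) 0 (gnorm g A ξ) := fun ξ hξ => by
    simpa only [zero_add, norm_zero, h𝒟] using normD n g hg S c A hs 0 ξ hξ
  -- pairs of test spinors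
  have hp : ∀ ξ₁ ξ₂ : E n → S, Tst ξ₁ → Tst ξ₂ → P2.IsPair 𝒟 (fun x => scalarCurv g x / 4) 0
      (fun x => ‖ξ₁ x‖) (fun x => ‖ξ₂ x‖) (gnorm g A ξ₁) (gnorm g A ξ₂) := fun ξ₁ ξ₂ t₁ t₂ =>
    ⟨hN _ t₁, hN _ t₂, fun _ => norm_nonneg _, fun _ => norm_nonneg _, by
      simpa only [zero_add, nu_eq] using (hen 0 0 (.inl rfl) ξ₁ ξ₂ t₁ t₂).2.2.1⟩
  have mL : ∀ ξ, MemLp (opL g c A F ξ) 2 (nu g) := fun ξ => memLp_pair
    ((Tst.memLp_dir hg hs ξ.1.2).add (bF.smul_memLp (Tst.memLpN hg ξ.2.2)))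
    ((Tst.memLp_dir hg hs ξ.2.2).neg.add (bF.smul_memLp (Tst.memLpN hg ξ.1.2)))
  have mB₁ : ∀ ξ : TS n S, MemLp (fun x => P2.aa n • cv c (β₁ x) (ξ.1 x)) 2 (nu g) := fun ξ =>
    (Tst.memLp_cv hs.cl ξ.2 m₁).const_smul _
  have mB₂ : ∀ ξ : TS n S, MemLp (fun x => -(P2.aa n • cv c (β₂ x) (ξ.1 x))) 2 (nu g) := fun ξ =>
    ((Tst.memLp_cv hs.cl ξ.2 m₂).const_smul _).neg
  have mB : ∀ ξ, MemLp (opB c (P2.aa n) β₁ β₂ ξ) 2 (nu g) := fun ξ => memLp_pair (mB₁ ξ.1) (mB₂ ξ.2)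
  have hK : ∀ (τ : ℝ) (ξ : TS n S × TS n S),
      P2.Kf (nu g) (P2.aa n) τ (fun x => scalarCurv g x / 4) F dF β₁ β₂ (fun x => ‖ξ.1.1 x‖)
        (fun x => ‖ξ.2.1 x‖) (gnorm g A ξ.1.1) (gnorm g A ξ.2.1) ≤
      ‖toL2 _ mL ξ + τ • toL2 _ mB ξ‖ ^ 2 := fun τ ξ => by
    obtain ⟨k₁, k₂, -, k₃⟩ := hen τ 0 (.inl rfl) _ _ ξ.1.2 ξ.2.2
    simp only [zero_add, norm_zero] at k₁ k₂ k₃
    rw [← norm_pair k₁ k₂, zero_pow two_ne_zero, zero_mul, add_zero] at k₃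
    refine k₃.trans (le_of_eq ?_)
    rw [toL2_apply, toL2_apply, ← MemLp.toLp_const_smul, ← MemLp.toLp_add]
    congr 2
    refine MemLp.toLp_congr _ _ (.of_forall fun x => ?_)
    simp only [Pi.add_apply, Pi.smul_apply, opL, opB, LinearMap.coe_mk, AddHom.coe_mk,
      ← WithLp.toLp_smul, ← WithLp.toLp_add, Prod.smul_mk, Prod.mk_add_mk, cal₁, cal₂]
    congr 2 <;> module
  have t0 : Tst (fun _ : E n => (0 : S)) := (TS n S).zero_mem
  obtain ⟨y₁, y₂, -, -⟩ := hen 1 ψ₀ (.inr hψ₀) _ _ t0 t0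
  refine (cont _ _ (toL2 _ mL) (toL2 _ mB) (P2.aa n ^ 2 * C) (fun τ hτ ξ => ?_)
    (fun Θ hΘ => ?_) (memLp_pair y₁ y₂).toLp _ (Real.sqrt_pos.2 hη)).elim fun ξ hξ => ?_
  rotate_right
  · obtain ⟨k₁, k₂, k₃, k₄⟩ := hen 1 ψ₀ (.inr hψ₀) _ _ ξ.1.2 ξ.2.2
    refine ⟨_, _, _, _, ⟨?_, hN _ ξ.2.2, fun _ => norm_nonneg _, fun _ => norm_nonneg _, k₃⟩,
      k₄.trans ?_⟩
    · simpa only [hψ₀, h𝒟] using normD n g hg S c A hs ψ₀ _ ξ.1.2
    · have e : (memLp_pair k₁ k₂).toLp = (memLp_pair y₁ y₂).toLp +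
          (toL2 _ mL ξ + toL2 _ mB ξ) := by
        rw [toL2_apply, toL2_apply, ← MemLp.toLp_add, ← MemLp.toLp_add]
        refine MemLp.toLp_congr _ _ (.of_forall fun x => ?_)
        have d1 := dir_add (g := g) (c := c) (A := A) (differentiableAt_const (x := x) ψ₀)
          (TS.diff ξ.1 x)
        have d0 : dir g c A (fun _ => (0 : S)) x = 0 := dir_of_notMem (by simp)
        simp only [Pi.add_apply, opL, opB, LinearMap.coe_mk, AddHom.coe_mk, ← WithLp.toLp_add,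
          Prod.mk_add_mk, cal₁, cal₂, add_zero, d1, d0, cv_add_right, one_mul]
        have z : cv c (β₂ x) (0 : S) = 0 := by simp [cv]
        rw [z]
        congr 2 <;> module
      rw [← norm_pair k₁ k₂, e, hψ₀]
      have := pow_le_pow_left₀ (norm_nonneg _) hξ 2
      rw [Real.sq_sqrt hη.le] at this
      linarith
  · have hq := hp _ _ ξ.1.2 ξ.2.2
    obtain ⟨p, q, hpq⟩ := Kf_poly bF iF idF m₁ m₂ hq (P2.aa n)
    have b₁ := P2.DClass.bd hq.d₁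
    have b₂ := P2.DClass.bd hq.d₂
    have iB : Integrable (fun x => ‖β₁ x‖ ^ 2 * ‖ξ.1.1 x‖ ^ 2 + ‖β₂ x‖ ^ 2 * ‖ξ.2.1 x‖ ^ 2)
        (nu g) := ((b₁.sq.int (P2.int_normsq m₁)).add (b₂.sq.int (P2.int_normsq m₂))).congr
      (.of_forall fun x => by simp only [Pi.add_apply]; ring)
    have e0 := h0 _ _ _ _ hq
    have e1 := h1 _ _ _ _ hq
    have eτ := (hpq τ).symm.trans_le (hK τ ξ)
    rw [hpq] at e0 e1
    set b := ∫ x, (‖β₁ x‖ ^ 2 * ‖ξ.1.1 x‖ ^ 2 + ‖β₂ x‖ ^ 2 * ‖ξ.2.1 x‖ ^ 2) ∂P2.nu g with hb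
    have hb0 : 0 ≤ b := integral_nonneg fun x => by positivity
    have e2 : b ≤ C * p := by
      refine le_trans (integral_mono iB ((((P2.int_normsq (𝒟.memG hq.d₁)).add
        (P2.int_normsq (𝒟.memG hq.d₂))).add iB).congr (.of_forall fun x => ?_)) fun x => ?_)
        (e0.trans (le_of_eq (by ring)))
      · simp only [Pi.add_apply]; ring
      · nlinarith [sq_nonneg ‖gnorm g A ξ.1.1 x‖, sq_nonneg ‖gnorm g A ξ.2.1 x‖]
    have e3 : ‖toL2 _ mB ξ‖ ^ 2 = P2.aa n ^ 2 * b := by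
      rw [toL2_apply, P2.L2T.norm_toLp_sq, hb, ← integral_const_mul]
      refine integral_congr_ae (.of_forall fun x => ?_)
      simp only [opB, LinearMap.coe_mk, AddHom.coe_mk, WithLp.prod_norm_sq_eq_of_L2,
        WithLp.toLp_fst, WithLp.toLp_snd, norm_neg, norm_smul, hs.cl.norm_cv, Real.norm_eq_abs,
        mul_pow, sq_abs]
      ring
    have e4 : (1 - τ) * p ≤ ‖toL2 _ mL ξ + τ • toL2 _ mB ξ‖ ^ 2 := by
      refine le_trans ?_ eτ
      nlinarith [mul_nonneg hτ.1 e1, mul_nonneg (mul_nonneg ha.le hb0)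
        (mul_nonneg hτ.1 (sub_nonneg.2 hτ.2))]
    rw [e3]
    nlinarith [mul_le_mul_of_nonneg_left e4 (mul_nonneg (sq_nonneg (P2.aa n)) hC.le),
      mul_le_mul_of_nonneg_left e2 (mul_nonneg (sq_nonneg (P2.aa n)) (sub_nonneg.2 hτ.2))]
  · have mΘ := Lp.memLp Θ
    have m1 : MemLp (fun x => (Θ x).fst) 2 (nu g) :=
      (WithLp.fstL 2 ℝ S S).comp_memLp' mΘ
    have m2 : MemLp (fun x => (Θ x).snd) 2 (nu g) :=
      (WithLp.sndL 2 ℝ S S).comp_memLp' mΘ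
    have hw : ∀ ξ : TS n S × TS n S, ∫ x, (⟪(Θ x).fst, dir g c A ξ.1.1 x + F x • ξ.2.1 x⟫_ℝ +
        ⟪(Θ x).snd, -dir g c A ξ.2.1 x + F x • ξ.1.1 x⟫_ℝ) ∂nu g = 0 := fun ξ => by
      rw [← hΘ ξ, toL2_apply, ← Lp.toLp_coeFn Θ mΘ, P2.L2T.inner_toLp, Lp.toLp_coeFn]
      rfl
    have d0 : ∀ x, dir g c A (0 : E n → S) x = 0 := fun x => dir_of_notMem (by simp)
    have key := weak_zero hFr hfr hs bF (fun r => ?_) m1 m2 (fun ξ hξ => ?_) fun ξ hξ => ?_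
    · rw [← norm_eq_zero, ← pow_eq_zero_iff two_ne_zero, ← Lp.toLp_coeFn Θ mΘ,
        P2.L2T.norm_toLp_sq]
      refine le_antisymm ?_ (integral_nonneg fun x => by positivity)
      simpa only [WithLp.prod_norm_sq_eq_of_L2] using key
    · have : IsLocallyFiniteMeasure (P2.nu g) := P2.isLocallyFinite_nu hg
      have hfin : P2.nu g (closedBall 0 r) ≠ ⊤ := (isCompact_closedBall _ r).measure_lt_top.ne
      obtain ⟨Z, hZ0, hZ⟩ := hSob n hn g _ hfr (P2.nu g (closedBall 0 r)).toReal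
      refine ⟨Z * C, by positivity, fun ξ₁ ξ₂ t₁ t₂ => ?_⟩
      have hq := hp _ _ t₁ t₂
      have z₁ := hZ _ _ _ (h𝒟 ▸ hq.d₁) measurableSet_closedBall (ENNReal.ofReal_toReal hfin).ge
      have z₂ := hZ _ _ _ (h𝒟 ▸ hq.d₂) measurableSet_closedBall (ENNReal.ofReal_toReal hfin).ge
      have g₁ := P2.int_normsq (𝒟.memG hq.d₁)
      have g₂ := P2.int_normsq (𝒟.memG hq.d₂)
      have e0 : ∫ x, ‖gnorm g A ξ₁ x‖ ^ 2 ∂P2.nu g + ∫ x, ‖gnorm g A ξ₂ x‖ ^ 2 ∂P2.nu g ≤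
          C * P2.Kf (P2.nu g) (P2.aa n) 0 (fun x => scalarCurv g x / 4) F dF β₁ β₂
            (fun x => ‖ξ₁ x‖) (fun x => ‖ξ₂ x‖) (gnorm g A ξ₁) (gnorm g A ξ₂) := by
        rw [← integral_add g₁ g₂]
        refine le_trans (integral_mono (g₁.add g₂) ((((g₁.add g₂).add
          ((P2.DClass.bd hq.d₁).sq.int (P2.int_normsq m₁))).add
          ((P2.DClass.bd hq.d₂).sq.int (P2.int_normsq m₂))).congr (.of_forall fun x => ?_))
          fun x => ?_) (h0 _ _ _ _ hq)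
        · simp only [Pi.add_apply]; ring
        · nlinarith [sq_nonneg (‖β₁ x‖ * ‖ξ₁ x‖), sq_nonneg (‖β₂ x‖ * ‖ξ₂ x‖)]
      have e1 := hK 0 (⟨ξ₁, t₁⟩, ⟨ξ₂, t₂⟩)
      rw [zero_smul, add_zero, toL2_apply] at e1
      have e2 := e1.trans (norm_pair
        ((t₁.memLp_dir hg hs).add (bF.smul_memLp (t₂.memLpN hg)))
        ((t₂.memLp_dir hg hs).neg.add (bF.smul_memLp (t₁.memLpN hg)))).le
      rw [integral_add (P2.int_normsq (t₁.memLpN hg)).integrableOn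
        (P2.int_normsq (t₂.memLpN hg)).integrableOn, mul_assoc]
      refine (add_le_add z₁ z₂).trans ?_
      rw [← mul_add]
      exact mul_le_mul_of_nonneg_left (e0.trans (mul_le_mul_of_nonneg_left e2 hC.le)) hZ0
    · have h := hw (⟨ξ, hξ⟩, 0)
      simp only [ZeroMemClass.coe_zero, Pi.zero_apply, smul_zero, add_zero, d0, neg_zero,
        zero_add] at h
      rw [integral_add (P2.int_inner m1 (hξ.memLp_dir hg hs))
        (P2.int_inner m2 (bF.smul_memLp (hξ.memLpN hg)))] at h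
      simp only [inner_neg_left, integral_neg, real_inner_smul_left]
      simp only [real_inner_smul_right] at h
      linarith
    · have h := hw (0, ⟨ξ, hξ⟩)
      simp only [ZeroMemClass.coe_zero, Pi.zero_apply, smul_zero, add_zero, d0, zero_add] at h
      rw [integral_add (P2.int_inner m1 (bF.smul_memLp (hξ.memLpN hg)))
        (P2.int_inner (H := fun x => -dir g c A ξ x) m2 (hξ.memLp_dir hg hs).neg)] at h
      simp only [real_inner_smul_left]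
      simp only [real_inner_smul_right, inner_neg_right, integral_neg] at h
      linarith

end Crest.Agent.N346.Sp
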