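import Crest.Agent.N346.Sp.Alg

/-!
# Row 346, spinor layer (helper85): spin connection, Dirac operator, Lichnerowicz formula over a
differential algebra.
-/

set_option autoImplicit false
open Matrix

noncomputable section

namespace Crest.Agent.N346.Sp

variable {R : Type*} [CommRing R] [Algebra ℝ R]
variable {n : Type*} [Fintype n] [DecidableEq n] {D : n → Derivation ℝ R R}
variable {ι : Type*} [Fintype ι] [DecidableEq ι]

/-- Geometry together with constant Clifford matrices. -/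
structure Spin (D : n → Derivation ℝ R R) (ι : Type*) [Fintype ι] [DecidableEq ι]
    extends Geo D where
  c : n → Matrix ι ι R
  cliff : IsCliff c
  const : ∀ i a, dM (D i) (c a) = 0

namespace Spin

variable (X : Spin D ι) {m m' : Type*}

/-- Clifford multiplication by `dxʲ`. -/
def cc (j : n) : Matrix ι ι R := cl X.c (X.E j)

/-- The spin connection. -/
def A (i : n) : Matrix ι ι R := (-1 / 4 : ℝ) • quad X.c (X.ω i)

theorem cc_skew (j : n) : (X.cc j)ᵀ = - X.cc j := X.cliff.cl_skew _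

theorem A_skew (i : n) : (X.A i)ᵀ = - X.A i := by
  rw [A, transpose_smul, X.cliff.quad_skew (X.ω_skew i), smul_neg]

theorem cc_anti (i j : n) :
    X.cc i * X.cc j + X.cc j * X.cc i = ((-2 : R) * X.Gi i j) • (1 : Matrix ι ι R) := by
  rw [cc, cc, X.cliff.cl_anti, ← X.EEt, mul_apply]; rfl

theorem d_cl (i : n) (v : n → R) : dM (D i) (cl X.c v) = cl X.c fun a => D i (v a) := by
  simp only [cl, dM_sum, dM_smul, X.const, smul_zero, add_zero]

theorem d_quad (i : n) (w : Matrix n n R) : dM (D i) (quad X.c w) = quad X.c (dM (D i) w) := by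
  simp only [quad, dM_sum, dM_smul, dM_mul, X.const, smul_zero, add_zero, Matrix.zero_mul,
    Matrix.mul_zero, dM_apply]

omit [Fintype ι] [DecidableEq ι] in
theorem four_smul (M : Matrix ι ι R) : (-1 / 4 : ℝ) • (-4 : R) • M = M := by
  have : (-4 : R) • M = (-4 : ℝ) • M := by
    rw [← algebraMap_smul R (-4 : ℝ) M, map_neg, map_ofNat]
  rw [this, smul_smul]; norm_num

theorem A_comm_c (i b : n) : X.A i * X.c b - X.c b * X.A i = ∑ a, X.ω i a b • X.c a := by
  rw [A, smul_mul_assoc, mul_smul_comm, ← smul_sub, X.cliff.quad_comm (X.ω_skew i), four_smul]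

/-- compatibility of the spin connection with Clifford multiplication -/
theorem compat (i j : n) :
    dM (D i) (X.cc j) + (X.A i * X.cc j - X.cc j * X.A i) = - ∑ k, X.Γ i j k • X.cc k := by
  have hs : ∀ a b, X.ω i a b = - X.ω i b a := fun a b => by
    have := congrFun (congrFun (X.ω_skew i) b) a
    simpa using this
  have h1 : X.A i * X.cc j - X.cc j * X.A i = - cl X.c ((X.E * X.ω i) j) := by
    have : X.A i * X.cc j - X.cc j * X.A i =
        ∑ b, X.E j b • (X.A i * X.c b - X.c b * X.A i) := by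
      simp only [cc, cl, Finset.mul_sum, Finset.sum_mul, mul_smul_comm, smul_mul_assoc, smul_sub,
        Finset.sum_sub_distrib]
    rw [this]
    simp only [A_comm_c, cl, mul_apply, Finset.smul_sum, Finset.sum_smul, smul_smul]
    rw [Finset.sum_comm, ← Finset.sum_neg_distrib]
    refine Finset.sum_congr rfl fun a _ => ?_
    rw [← Finset.sum_neg_distrib]
    exact Finset.sum_congr rfl fun b _ => by rw [hs a b, mul_neg, neg_smul]
  have h2 : ∑ k, X.Γ i j k • X.cc k = cl X.c ((X.Γ i * X.E) j) := by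
    simp only [cc, cl, mul_apply, Finset.smul_sum, Finset.sum_smul, smul_smul]
    rw [Finset.sum_comm]
  rw [h1, h2, X.Eω, cc, d_cl]
  simp only [cl, Matrix.add_apply, dM_apply, add_smul, Finset.sum_add_distrib]
  abel

/-- curvature of the spin connection -/
def F (i j : n) : Matrix ι ι R :=
  dM (D i) (X.A j) - dM (D j) (X.A i) + (X.A i * X.A j - X.A j * X.A i)

theorem F_eq (i j : n) : X.F i j = (-1 / 4 : ℝ) • quad X.c (X.Ω i j) := by
  have h : X.A i * X.A j - X.A j * X.A i =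
      (-1 / 4 : ℝ) • quad X.c (X.ω i * X.ω j - X.ω j * X.ω i) := by
    have : X.A i * X.A j - X.A j * X.A i = (-1 / 4 : ℝ) • (-1 / 4 : ℝ) •
        (quad X.c (X.ω i) * quad X.c (X.ω j) - quad X.c (X.ω j) * quad X.c (X.ω i)) := by
      simp only [A, smul_mul_assoc, mul_smul_comm, smul_sub]
    rw [this, X.cliff.quad_comm_quad (X.ω_skew i), four_smul]
  rw [F, h, Geo.Ω, quad_add]
  simp only [A, dM_rsmul, d_quad, smul_add, smul_sub, quad_sub]

theorem cc_F : ∑ i, ∑ j, X.cc i * X.cc j * X.F i j =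
    ((1 / 2 : ℝ) • X.scal) • (1 : Matrix ι ι R) := by
  have h : ∑ i, ∑ j, X.cc i * X.cc j * quad X.c (X.Ω i j) =
      ∑ a, ∑ b, X.c a * X.c b * quad X.c (X.Ωf a b) := by
    simp only [cc, cl, Geo.Ωf, quad_sum, quad_smul, Finset.mul_sum, Finset.sum_mul, mul_smul_comm,
      smul_mul_assoc, Finset.smul_sum, smul_smul, ← Finset.sum_product']
    refine Finset.sum_bij' (fun x _ => (x.2.2.2, x.2.2.1, x.1, x.2.1))
      (fun y _ => (y.2.2.1, y.2.2.2, y.2.1, y.1)) (by simp) (by simp) (by simp) (by simp)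
      fun x _ => by simp only [mul_comm]
  simp only [F_eq, mul_smul_comm, ← Finset.smul_sum]
  rw [h, X.cliff.lich _ X.Ωf_skew X.Ωf_anti X.Ωf_bianchi, X.Ωf_scal, ← smul_assoc]
  congr 1
  have : (-2 : R) * X.scal = (-2 : ℝ) • X.scal := by
    rw [Algebra.smul_def, map_neg, map_ofNat]
  rw [this, smul_smul]; norm_num

/-- covariant derivative of spinors (columns of a matrix) -/
def nab (i : n) (ψ : Matrix ι m R) : Matrix ι m R := dM (D i) ψ + X.A i * ψ

/-- the Dirac operator -/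
def dir (ψ : Matrix ι m R) : Matrix ι m R := ∑ i, X.cc i * X.nab i ψ

theorem nab_sum {α : Type*} (i : n) (s : Finset α) (ψ : α → Matrix ι m R) :
    X.nab i (∑ a ∈ s, ψ a) = ∑ a ∈ s, X.nab i (ψ a) := by
  simp only [nab, dM_sum, Matrix.mul_sum, Finset.sum_add_distrib]

theorem nab_cc (i j : n) (ψ : Matrix ι m R) :
    X.nab i (X.cc j * ψ) = X.cc j * X.nab i ψ - ∑ k, X.Γ i j k • (X.cc k * ψ) := by
  have h := congrArg (· * ψ) (X.compat i j)
  simp only [Matrix.add_mul, Matrix.sub_mul, Matrix.neg_mul, Matrix.sum_mul, Matrix.smul_mul,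
    Matrix.mul_assoc] at h
  simp only [nab, dM_mul, Matrix.mul_add]
  rw [sub_eq_add_neg, ← h]
  abel

theorem nab_comm (i j : n) (ψ : Matrix ι m R) :
    X.nab i (X.nab j ψ) - X.nab j (X.nab i ψ) = X.F i j * ψ := by
  simp only [nab, F, dM_add, dM_mul, Matrix.mul_add, Matrix.add_mul, Matrix.sub_mul,
    Matrix.mul_assoc, X.dM_comm i j ψ]
  abel

/-- second covariant derivative -/
def hess (i j : n) (ψ : Matrix ι m R) : Matrix ι m R :=
  X.nab i (X.nab j ψ) - ∑ k, X.Γ i k j • X.nab k ψ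

/-- **Lichnerowicz formula.** -/
theorem dir_dir (ψ : Matrix ι m R) :
    X.dir (X.dir ψ) = - (∑ i, ∑ j, X.Gi i j • X.hess i j ψ) + ((1 / 4 : ℝ) • X.scal) • ψ := by
  have h1 : X.dir (X.dir ψ) = ∑ i, ∑ j, X.cc i * X.cc j * X.hess i j ψ := by
    simp only [dir, nab_sum, nab_cc, hess, Matrix.mul_sum, Matrix.mul_sub, Finset.sum_sub_distrib,
      Matrix.mul_assoc, Matrix.mul_smul]
    congr 1
    refine Finset.sum_congr rfl fun i _ => ?_
    rw [Finset.sum_comm]
  have h2 : ∀ i j, X.hess j i ψ = X.hess i j ψ - X.F i j * ψ := fun i j => by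
    rw [← nab_comm]
    simp only [hess, X.Γ_symm j _ i]
    abel
  have h3 : X.dir (X.dir ψ) = ∑ i, ∑ j, X.cc j * X.cc i * X.hess i j ψ +
      ∑ i, ∑ j, X.cc i * X.cc j * X.F i j * ψ := by
    rw [h1]
    conv_rhs => rw [Finset.sum_comm]
    simp only [← Finset.sum_add_distrib]
    refine Finset.sum_congr rfl fun i _ => Finset.sum_congr rfl fun j _ => ?_
    rw [h2 i j, Matrix.mul_sub, Matrix.mul_assoc _ (X.F i j)]
    abel
  refine cancel_nat 2 two_ne_zero ?_
  rw [two_nsmul]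
  nth_rewrite 1 [h1]
  rw [h3, ← add_assoc]
  simp only [← Finset.sum_add_distrib, ← Matrix.add_mul, cc_anti, ← Matrix.sum_mul, cc_F,
    Matrix.smul_mul, Matrix.one_mul, mul_smul, ← Finset.smul_sum]
  have : (-2 : R) • ∑ i, ∑ j, X.Gi i j • X.hess i j ψ =
      (-2 : ℝ) • ∑ i, ∑ j, X.Gi i j • X.hess i j ψ := by
    rw [← algebraMap_smul R (-2 : ℝ), map_neg, map_ofNat]
  rw [this, smul_assoc, smul_assoc]
  generalize ∑ i, ∑ j, X.Gi i j • X.hess i j ψ = S
  generalize X.scal • ψ = T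
  module

theorem d_pair (i : n) (φ : Matrix ι m' R) (ψ : Matrix ι m R) :
    dM (D i) (φᵀ * ψ) = (X.nab i φ)ᵀ * ψ + φᵀ * X.nab i ψ := by
  simp only [nab, dM_mul, dM_transpose, transpose_add, transpose_mul, A_skew, Matrix.mul_add,
    Matrix.add_mul, Matrix.mul_neg, Matrix.neg_mul, Matrix.mul_assoc]
  abel

/-- covariant divergence of a (matrix valued) vector field -/
def dv (V : n → Matrix m' m R) : Matrix m' m R :=
  ∑ i, (dM (D i) (V i) + (∑ k, X.Γ k k i) • V i)

/-- formal self-adjointness of the Dirac operator -/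
theorem dv_cc (φ : Matrix ι m' R) (ψ : Matrix ι m R) :
    X.dv (fun i => φᵀ * (X.cc i * ψ)) = φᵀ * X.dir ψ - (X.dir φ)ᵀ * ψ := by
  simp only [dv, X.d_pair, nab_cc, dir, transpose_sum, transpose_mul, cc_skew, Matrix.mul_sub,
    Matrix.mul_sum, Matrix.sum_mul, Matrix.mul_smul, Finset.sum_add_distrib,
    Finset.sum_sub_distrib, Finset.sum_smul, Matrix.mul_neg, Matrix.neg_mul, Matrix.mul_assoc,
    Finset.sum_neg_distrib]
  rw [Finset.sum_comm (f := fun i k => X.Γ k k i • (φᵀ * (X.cc i * ψ)))]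
  abel

theorem div_Gi (j : n) : ∑ i, (D i (X.Gi i j) + (∑ k, X.Γ k k i) * X.Gi i j) =
    - ∑ i, ∑ k, X.Gi i k * X.Γ i j k := by
  have h : ∀ i, D i (X.Gi i j) = - (∑ k, X.Γ i i k * X.Gi k j) - ∑ k, X.Gi i k * X.Γ i j k :=
    fun i => by
      have := congrFun (congrFun (X.dGi i) i) j
      simpa [mul_apply] using this
  simp only [h, Finset.sum_add_distrib, Finset.sum_sub_distrib, Finset.sum_neg_distrib,
    Finset.sum_mul]
  rw [Finset.sum_comm (f := fun i k => X.Γ k k i * X.Gi i j)]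
  abel

/-- **Bochner identity in divergence form.** -/
theorem dv_nab (φ : Matrix ι m' R) (ψ : Matrix ι m R) :
    X.dv (fun i => ∑ j, X.Gi i j • (φᵀ * X.nab j ψ)) =
      ∑ i, ∑ j, X.Gi i j • ((X.nab i φ)ᵀ * X.nab j ψ) +
        ((1 / 4 : ℝ) • X.scal) • (φᵀ * ψ) - φᵀ * X.dir (X.dir ψ) := by
  have h1 : X.dv (fun i => ∑ j, X.Gi i j • (φᵀ * X.nab j ψ)) =
      ∑ j, (∑ i, (D i (X.Gi i j) + (∑ k, X.Γ k k i) * X.Gi i j)) • (φᵀ * X.nab j ψ) +
      ∑ i, ∑ j, X.Gi i j • ((X.nab i φ)ᵀ * X.nab j ψ + φᵀ * X.nab i (X.nab j ψ)) := by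
    simp only [dv, dM_sum, dM_smul, X.d_pair, Finset.sum_add_distrib, Finset.smul_sum, smul_smul,
      add_smul, Finset.sum_smul (s := Finset.univ) (f := fun i => D i (X.Gi i _)),
      Finset.sum_smul (s := Finset.univ) (f := fun i => (∑ k, X.Γ k k i) * X.Gi i _)]
    rw [Finset.sum_comm (f := fun i j => D i (X.Gi i j) • (φᵀ * X.nab j ψ)),
      Finset.sum_comm (f := fun i j => ((∑ k, X.Γ k k i) * X.Gi i j) • (φᵀ * X.nab j ψ))]
    abel
  have h2 : ∑ j, (∑ i, ∑ k, X.Gi i k * X.Γ i j k) • (φᵀ * X.nab j ψ) =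
      ∑ i, ∑ j, ∑ k, X.Gi i j • X.Γ i k j • (φᵀ * X.nab k ψ) := by
    simp only [Finset.sum_smul, smul_smul]
    rw [Finset.sum_comm]
    exact Finset.sum_congr rfl fun i _ => Finset.sum_comm
  rw [h1, dir_dir]
  simp only [div_Gi, neg_smul, Finset.sum_neg_distrib, h2]
  simp only [hess, Matrix.mul_add, Matrix.mul_neg,
    Matrix.mul_sum, Matrix.mul_smul, Matrix.mul_sub, smul_add, smul_sub, Finset.sum_add_distrib,
    Finset.sum_sub_distrib, Finset.smul_sum]
  abel

end Spin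

end Crest.Agent.N346.Sp
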