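import Crest.Agent.N346.Sp.Defs2
import Crest.Agent.N346.Sp.Kato
import Crest.Agent.N346.P2.ConcD

/-!
# Row 346, spinor layer (helper85): basic calculus of spinors, `NormStmt` and `IbpStmt`.
-/

set_option autoImplicit false
open MeasureTheory Filter Topology
open scoped ContDiff InnerProductSpace ENNReal
open Crest.GeometryTopology.CoordMetric
open Crest.MathPhysics.ExteriorData
open Crest.Agent.N346.Bs

noncomputable section

namespace Crest.Agent.N346.Sp

variable {n : ℕ} {g : MetricField n}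

theorem fgrad_fr (g : MetricField n) (u : E n → ℝ) (x : E n) (a : Fin n) :
    P2.fgrad (fr g) u x a = fderiv ℝ u x (ev g x a) := by
  rw [P2.fgrad_apply, fderiv_eq_sum]
  exact Finset.sum_congr rfl fun i _ => mul_comm _ _

theorem fr_Fr {U : E n → ℝ} {μ : ℝ} (h : P2.EndD n g U μ) : P2.Fr g (fr g) :=
  ⟨h.riem, h.bd, contDiff_frame (contDiff_g h.riem) (riem_posDef h.riem),
    fun x => frame_orth (riem_posDef h.riem x)⟩

section
variable (hg : IsRiemannianOn g Set.univ)
include hg

theorem contDiff_fr (i a : Fin n) : ContDiff ℝ ∞ fun x => frame (g x) i a :=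
  contDiff_frame (contDiff_g hg) (riem_posDef hg) i a

theorem contDiff_ev (a : Fin n) : ContDiff ℝ ∞ fun x => ev g x a :=
  contDiff_euclidean.2 fun i => contDiff_fr hg i a

theorem memLp_cs {W : Type*} [NormedAddCommGroup W] {f : E n → W} (hf : Continuous f)
    (hc : HasCompactSupport f) (p : ℝ≥0∞) : MemLp f p (nu g) := by
  have : IsLocallyFiniteMeasure (nu g) := P2.isLocallyFinite_nu hg
  exact hf.memLp_of_hasCompactSupport hc

theorem integrable_cs {W : Type*} [NormedAddCommGroup W] {f : E n → W} (hf : Continuous f)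
    (hc : HasCompactSupport f) : Integrable f (nu g) :=
  memLp_one_iff_integrable.1 (memLp_cs hg hf hc 1)

theorem continuous_fgrad_fr {u : E n → ℝ} (hu : ContDiff ℝ 1 u) :
    Continuous (P2.fgrad (fr g) u) :=
  (PiLp.continuous_toLp 2 _).comp (continuous_pi fun a => continuous_finsetSum _ fun i _ =>
    (contDiff_fr hg i a).continuous.mul (continuous_pd hu i))

/-- the integral of a divergence with compact support vanishes -/
theorem integral_dvf {V : E n → Fin n → ℝ} (hV : ∀ a, ContDiff ℝ ∞ fun x => V x a)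
    (hc : HasCompactSupport V) : ∫ x, dvf g V x = 0 :=
  integral_divE (fun i => smooth_one ((contDiff_volDensity hg).mul
    (ContDiff.sum fun a _ => (contDiff_fr hg i a).mul (hV a))))
    fun i => .intro hc fun x hx => by simp [image_eq_zero_of_notMem_tsupport hx]

end

section
variable {S : Type} [NormedAddCommGroup S] [InnerProductSpace ℝ S]
  {c : Fin n → S →L[ℝ] S} {A : Fin n → E n → S →L[ℝ] S} {ψ φ : E n → S}

theorem SpinData.contDiff_nab (hs : SpinData g c A) (hg : IsRiemannianOn g Set.univ)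
    (hψ : ContDiff ℝ ∞ ψ) (a : Fin n) : ContDiff ℝ ∞ (nab g A a ψ) :=
  ((hψ.fderiv_right (m := ∞) (by simp)).clm_apply (contDiff_ev hg a)).add
    ((hs.A_smooth a).clm_apply hψ)

theorem SpinData.contDiff_dir (hs : SpinData g c A) (hg : IsRiemannianOn g Set.univ)
    (hψ : ContDiff ℝ ∞ ψ) : ContDiff ℝ ∞ (dir g c A ψ) :=
  ContDiff.sum fun a _ => (c a).contDiff.comp (hs.contDiff_nab hg hψ a)

theorem nab_of_notMem {x : E n} (hx : x ∉ tsupport ψ) (a : Fin n) : nab g A a ψ x = 0 := by
  simp [nab, image_eq_zero_of_notMem_tsupport hx, fderiv_of_notMem_tsupport ℝ hx]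

theorem dir_of_notMem {x : E n} (hx : x ∉ tsupport ψ) : dir g c A ψ x = 0 := by
  simp [dir, nab_of_notMem hx]

theorem hasCompactSupport_nab (h : HasCompactSupport ψ) (a : Fin n) :
    HasCompactSupport (nab g A a ψ) := .intro h fun _ hx => nab_of_notMem hx a

theorem hasCompactSupport_dir (h : HasCompactSupport ψ) : HasCompactSupport (dir g c A ψ) :=
  .intro h fun _ hx => dir_of_notMem hx

theorem nab_add {x : E n} (hψ : DifferentiableAt ℝ ψ x) (hφ : DifferentiableAt ℝ φ x) (a : Fin n) :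
    nab g A a (fun y => ψ y + φ y) x = nab g A a ψ x + nab g A a φ x := by
  simp only [nab, fderiv_fun_add hψ hφ, add_apply, map_add]
  abel

theorem dir_add {x : E n} (hψ : DifferentiableAt ℝ ψ x) (hφ : DifferentiableAt ℝ φ x) :
    dir g c A (fun y => ψ y + φ y) x = dir g c A ψ x + dir g c A φ x := by
  simp only [dir, nab_add hψ hφ, map_add, Finset.sum_add_distrib]

theorem nab_smul {x : E n} (r : ℝ) (hψ : DifferentiableAt ℝ ψ x) (a : Fin n) :
    nab g A a (fun y => r • ψ y) x = r • nab g A a ψ x := by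
  simp only [nab, fderiv_fun_const_smul hψ, smul_apply, map_smul, smul_add]

theorem dir_smul {x : E n} (r : ℝ) (hψ : DifferentiableAt ℝ ψ x) :
    dir g c A (fun y => r • ψ y) x = r • dir g c A ψ x := by
  simp only [dir, nab_smul r hψ, map_smul, Finset.smul_sum]

theorem SpinData.inner_A (hs : SpinData g c A) (a : Fin n) (x : E n) (u : S) :
    ⟪u, A a x u⟫_ℝ = 0 := by
  have h := hs.A_skew a x u u
  rw [real_inner_comm] at h
  linarith

theorem SpinData.inner_nab (hs : SpinData g c A) (ψ : E n → S) (a : Fin n) (x : E n) :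
    ⟪ψ x, nab g A a ψ x⟫_ℝ = ⟪ψ x, fderiv ℝ ψ x (ev g x a)⟫_ℝ := by
  rw [nab, inner_add_right, hs.inner_A, add_zero]

theorem Tst.bdd {ξ : E n → S} (h : Tst ξ) (ψ₀ : S) : ∃ M : ℝ, ∀ x, ‖ψ₀ + ξ x‖ ≤ M := by
  obtain ⟨M, hM⟩ := h.1.continuous.bounded_above_of_compact_support h.2
  exact ⟨‖ψ₀‖ + M, fun x => (norm_add_le _ _).trans (add_le_add_right (hM x) _)⟩

end

/-- **L5a.** -/
theorem normD : NormStmt := by
  intro n g hg S _ _ _ c A hs ψ₀ ξ hξ
  set f : E n → S := fun x => ψ₀ + ξ x with hf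
  have sf : ContDiff ℝ ∞ f := contDiff_const.add hξ.1
  obtain ⟨M, hM⟩ := hξ.bdd ψ₀
  -- the numerator
  let N : E n → E n := fun x => WithLp.toLp 2 fun a => ⟪f x, nab g A a f x⟫_ℝ
  let b : E n → ℝ := fun x => ∑ a, ‖fderiv ℝ ξ x (ev g x a)‖
  have mb : MemLp b 2 (nu g) := memLp_cs hg
    (continuous_finsetSum _ fun a _ => ((hξ.1.continuous_fderiv (by simp)).clm_apply
      (contDiff_ev hg a).continuous).norm)
    (.intro hξ.2 fun x hx => by simp [fderiv_of_notMem_tsupport ℝ hx]) 2
  have hNb : ∀ x, ‖N x‖ ≤ ‖f x‖ * b x := fun x => by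
    have h1 : N x = ∑ a, N x a • EuclideanSpace.single a (1 : ℝ) := by
      ext j; simp [Pi.single_apply]
    rw [h1, Finset.mul_sum]
    refine (norm_sum_le _ _).trans (Finset.sum_le_sum fun a _ => ?_)
    rw [norm_smul, PiLp.norm_single, norm_one, mul_one]
    have : N x a = ⟪f x, fderiv ℝ ξ x (ev g x a)⟫_ℝ := by
      change ⟪f x, nab g A a f x⟫_ℝ = _
      rw [hs.inner_nab f, hf, fderiv_const_add]
    rw [this]
    exact norm_inner_le_norm _ _
  have cN : Continuous N := (PiLp.continuous_toLp 2 _).comp (continuous_pi fun a =>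
    sf.continuous.inner (hs.contDiff_nab hg sf a).continuous)
  have hG : gnorm g A f = fun x => (‖f x‖)⁻¹ • N x := by
    funext x; ext a; simp [gnorm, N, div_eq_inv_mul]
  have hb0 : ∀ x, 0 ≤ b x := fun x => Finset.sum_nonneg fun a _ => norm_nonneg _
  have hle : ∀ (x : E n) (r : ℝ), ‖f x‖ ≤ r → ‖r⁻¹ • N x‖ ≤ b x := fun x r hr => by
    have hr0 : 0 ≤ r := (norm_nonneg _).trans hr
    rw [norm_smul, norm_inv, Real.norm_of_nonneg hr0]
    rcases hr0.eq_or_lt with h0 | h0
    · simp [← h0, hb0]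
    · rw [inv_mul_le_iff₀ h0]
      exact (hNb x).trans (mul_le_mul_of_nonneg_right hr (hb0 x))
  have mG : AEStronglyMeasurable (gnorm g A f) (nu g) := by
    rw [hG]
    exact (sf.continuous.norm.measurable.inv.aestronglyMeasurable).smul cN.aestronglyMeasurable
  let δ : ℕ → ℝ := fun k => 1 / ((k : ℝ) + 1)
  have hδ : ∀ k, 0 < δ k := fun k => by positivity
  have hδ1 : ∀ k, δ k ≤ 1 := fun k => by
    rw [div_le_one (by positivity)]; linarith [Nat.cast_nonneg (α := ℝ) k]
  have hδ0 : Tendsto δ atTop (𝓝 0) := tendsto_one_div_add_atTop_nhds_zero_nat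
  have hpos : ∀ k (s : ℝ), 0 < s ^ 2 + δ k := fun k s => by have := hδ k; positivity
  have hsq : ∀ s : ℝ, 0 ≤ s → Tendsto (fun k => √(s ^ 2 + δ k)) atTop (𝓝 s) := fun s h0 => by
    have := (hδ0.const_add (s ^ 2)).sqrt
    rwa [add_zero, Real.sqrt_sq h0] at this
  have hub : ∀ k (s : ℝ), 0 ≤ s → √(s ^ 2 + δ k) ≤ s + 1 := fun k s h0 =>
    Real.sqrt_le_iff.2 ⟨by linarith, by nlinarith [hδ1 k]⟩
  have sv : ∀ k, ContDiff ℝ ∞ fun x => √(‖f x‖ ^ 2 + δ k) := fun k =>
    ((sf.norm_sq ℝ).add contDiff_const).sqrt fun x => (hpos k _).ne'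
  have hgr : ∀ k x, P2.fgrad (fr g) (fun x => √(‖f x‖ ^ 2 + δ k) - √(‖ψ₀‖ ^ 2 + δ k)) x =
      (√(‖f x‖ ^ 2 + δ k))⁻¹ • N x := fun k x => by
    rw [P2.fgrad_sub_const]
    ext a
    have h1 := ((((sf.differentiable (by simp)) x).hasFDerivAt.norm_sq).add_const (δ k)).sqrt
      (hpos k _).ne'
    rw [fgrad_fr, h1.fderiv]
    have := (Real.sqrt_pos.2 (hpos k ‖f x‖)).ne'
    simp [N, hs.inner_nab]
    field_simp
  refine ⟨sf.continuous.norm.measurable, ⟨M, fun x => by rw [abs_norm]; exact hM x⟩,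
    mb.of_le mG (.of_forall fun x => ?_),
    fun k x => √(‖f x‖ ^ 2 + δ k) - √(‖ψ₀‖ ^ 2 + δ k), M + ‖ψ₀‖ + 2,
    fun k => smooth_one ((sv k).sub contDiff_const),
    fun k => .intro hξ.2 fun x hx => by simp [hf, image_eq_zero_of_notMem_tsupport hx],
    fun k x => ?_, .of_forall fun x => (hsq _ (norm_nonneg _)).sub (hsq _ (norm_nonneg _)), ?_⟩
  · rw [hG, Real.norm_of_nonneg (hb0 x)]
    exact hle x _ le_rfl
  · have h1 := hub k _ (norm_nonneg (f x))
    have h2 := hub k _ (norm_nonneg ψ₀)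
    have h3 := Real.sqrt_nonneg (‖f x‖ ^ 2 + δ k)
    have h4 := Real.sqrt_nonneg (‖ψ₀‖ ^ 2 + δ k)
    have h5 : ‖f x‖ ≤ M := hM x
    rw [abs_le]
    constructor <;> linarith [norm_nonneg (f x), norm_nonneg ψ₀]
  · simp only [hgr]
    refine P2.tendsto_eLpNorm_dom (b := fun x => b x + b x) (fun k => ?_) (mb.add mb)
      (fun k => .of_forall fun x => ?_) (.of_forall fun x => ?_)
    · exact (((sv k).continuous.measurable.inv.aestronglyMeasurable).smul
        cN.aestronglyMeasurable).sub mG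
    · rw [hG]
      refine (norm_sub_le _ _).trans (add_le_add (hle x _ ?_) (hle x _ le_rfl))
      exact Real.le_sqrt_of_sq_le (by linarith [hδ k])
    · rw [hG]
      rcases (norm_nonneg (f x)).eq_or_lt with h0 | h0
      · have : N x = 0 := norm_le_zero_iff.1 ((hNb x).trans (by rw [← h0, zero_mul]))
        simp [this]
      · simpa using (((hsq _ h0.le).inv₀ h0.ne').smul_const (N x)).sub_const ((‖f x‖)⁻¹ • N x)

/-- **L5b.** -/
theorem ibpD : IbpStmt := by
  intro n g hg F dF hF V hV hc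
  obtain ⟨v, M, a1, a2, a3, a4, a5⟩ := hF.approx
  let W : VectorField n := fun y i => volDensity g y * ∑ a, frame (g y) i a * V y a
  have hW : ∀ i, ContDiff ℝ ∞ fun y => W y i := fun i => (contDiff_volDensity hg).mul
    (ContDiff.sum fun a _ => (contDiff_fr hg i a).mul (hV a))
  have hcd : Continuous (dvf g V) := (contDiff_divE hW).continuous
  have hsd : HasCompactSupport (dvf g V) := .intro hc fun x hx =>
    Finset.sum_eq_zero (s := Finset.univ) fun i _ =>
      pd_of_eventually_const (u := fun y => W y i) (c := 0)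
      (((isClosed_tsupport V).isOpen_compl.eventually_mem hx).mono fun y hy => by
        simp [W, image_eq_zero_of_notMem_tsupport hy]) i
  have hi := hcd.integrable_of_hasCompactSupport (μ := volume) hsd
  let e : E n → E n := fun x => WithLp.toLp 2 (V x)
  have me : MemLp e 2 (nu g) := memLp_cs hg
    ((PiLp.continuous_toLp 2 _).comp (continuous_pi fun a => (hV a).continuous))
    (.intro hc fun x hx => by simp [image_eq_zero_of_notMem_tsupport hx]) 2
  have t1 := P2.L2T.tendsto_inner_left a5 (fun j => memLp_cs hg (continuous_fgrad_fr hg (a1 j))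
    (P2.hasCompactSupport_fgrad (a2 j)) 2) hF.memG me
  have t2 : Tendsto (fun j => ∫ x, v j x * dvf g V x) atTop (𝓝 (∫ x, (F x - 0) * dvf g V x)) := by
    refine tendsto_integral_of_dominated_convergence (fun x => M * ‖dvf g V x‖)
      (fun j => ((a1 j).continuous.mul hcd).aestronglyMeasurable) (hi.norm.const_mul M)
      (fun j => .of_forall fun x => ?_)
      (((P2.ae_nu_iff hg).1 a4).mono fun x hx => hx.mul_const _)
    rw [norm_mul]; exact mul_le_mul_of_nonneg_right (a3 j x) (norm_nonneg _)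
  have h : ∀ j, ∫ x, ⟪e x, P2.fgrad (fr g) (v j) x⟫_ℝ ∂(P2.nu g) = -∫ x, v j x * dvf g V x := by
    intro j
    rw [P2.integral_nu hg]
    change _ = -∫ x, v j x * divE W x
    rw [ibp_divE (a1 j) (a2 j) fun i => smooth_one (hW i), neg_neg]
    refine integral_congr_ae (.of_forall fun x => ?_)
    simp only [PiLp.inner_apply, P2.fgrad_apply, RCLike.inner_apply, conj_trivial, e, W, fr,
      Finset.sum_mul, Finset.mul_sum]
    rw [Finset.sum_comm]
    exact Finset.sum_congr rfl fun i _ => Finset.sum_congr rfl fun a _ => by ring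
  simp only [h, sub_zero] at t1 t2
  have := tendsto_nhds_unique t1 t2.neg
  rw [← neg_neg (∫ x, F x * dvf g V x), ← this]
  simp only [PiLp.inner_apply, RCLike.inner_apply, conj_trivial, e]
  rfl

end Crest.Agent.N346.Sp
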