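import Crest.Agent.N346.Sp.Defs
import Crest.Agent.N346.Sp.Lich
import Crest.Agent.R247.Bo1_84

/-!
# Row 346, spinor layer (helper85): the differential algebra of smooth functions and the spin
geometry of a Riemannian metric on `ℝⁿ` over it.
-/

set_option autoImplicit false
open Matrix
open scoped ContDiff InnerProductSpace Topology
open Crest.GeometryTopology.CoordMetric
open Crest.MathPhysics.ExteriorData
open Crest.Agent.N346.Bs

noncomputable section

namespace Crest.Agent.N346.Sp

/-! ### frame versions of the algebraic identities -/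

namespace Spin

variable {R : Type*} [CommRing R] [Algebra ℝ R]
variable {n : Type*} [Fintype n] [DecidableEq n] {D : n → Derivation ℝ R R}
variable {ι : Type*} [Fintype ι] [DecidableEq ι] (X : Spin D ι) {m m' : Type*}

/-- covariant derivative along the `a`-th frame vector -/
def nabf (a : n) (ψ : Matrix ι m R) : Matrix ι m R := ∑ i, X.E i a • X.nab i ψ

theorem dir_eq (ψ : Matrix ι m R) : X.dir ψ = ∑ a, X.c a * X.nabf a ψ := by
  simp only [dir, nabf, cc, cl, Matrix.sum_mul, Matrix.mul_sum, Matrix.smul_mul, Matrix.mul_smul]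
  rw [Finset.sum_comm]

theorem Gi_eq (i j : n) : X.Gi i j = ∑ a, X.E i a * X.E j a := by
  rw [← X.EEt, mul_apply]; rfl

theorem sa' (φ : Matrix ι m' R) (ψ : Matrix ι m R) :
    X.dv (fun i => ∑ a, X.E i a • (φᵀ * (X.c a * ψ))) = φᵀ * X.dir ψ - (X.dir φ)ᵀ * ψ := by
  rw [← dv_cc]
  congr 1
  funext i
  simp only [cc, cl, Matrix.sum_mul, Matrix.mul_sum, Matrix.smul_mul, Matrix.mul_smul]

theorem wit' (ψ : Matrix ι m R) :
    X.dv (fun i => ∑ a, X.E i a • (ψᵀ * X.nabf a ψ + ψᵀ * (X.c a * X.dir ψ))) =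
      ∑ a, (X.nabf a ψ)ᵀ * X.nabf a ψ + ((1 / 4 : ℝ) • X.scal) • (ψᵀ * ψ)
        - (X.dir ψ)ᵀ * X.dir ψ := by
  have h1 : ∀ i, ∑ a, X.E i a • (ψᵀ * X.nabf a ψ) = ∑ j, X.Gi i j • (ψᵀ * X.nab j ψ) := fun i => by
    simp only [nabf, Gi_eq, Matrix.mul_sum, Matrix.mul_smul, Finset.smul_sum, Finset.sum_smul,
      smul_smul]
    rw [Finset.sum_comm]
  have h2 : ∑ a, (X.nabf a ψ)ᵀ * X.nabf a ψ =
      ∑ i, ∑ j, X.Gi i j • ((X.nab i ψ)ᵀ * X.nab j ψ) := by
    simp only [nabf, Gi_eq, transpose_sum, transpose_smul, Matrix.mul_sum, Matrix.sum_mul,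
      Matrix.mul_smul, Matrix.smul_mul, Finset.smul_sum, Finset.sum_smul, smul_smul]
    rw [Finset.sum_comm]
    conv_rhs => rw [Finset.sum_comm]
    refine Finset.sum_congr rfl fun i _ => ?_
    rw [Finset.sum_comm]
    exact Finset.sum_congr rfl fun j _ => Finset.sum_congr rfl fun a _ => by rw [mul_comm]
  have h3 : X.dv (fun i => ∑ a, X.E i a • (ψᵀ * X.nabf a ψ + ψᵀ * (X.c a * X.dir ψ))) =
      X.dv (fun i => ∑ j, X.Gi i j • (ψᵀ * X.nab j ψ)) +
        X.dv (fun i => ∑ a, X.E i a • (ψᵀ * (X.c a * X.dir ψ))) := by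
    simp only [smul_add, Finset.sum_add_distrib, h1, dv, dM_add]
    abel
  rw [h3, dv_nab, sa', h2]
  abel

end Spin

/-! ### smooth functions -/

variable {n : ℕ}

/-- The algebra of smooth functions. -/
def Sm (n : ℕ) : Subalgebra ℝ (E n → ℝ) where
  carrier := {f | ContDiff ℝ ∞ f}
  mul_mem' {f h} (hf : ContDiff ℝ ∞ f) (hh : ContDiff ℝ ∞ h) := hf.mul hh
  add_mem' {f h} (hf : ContDiff ℝ ∞ f) (hh : ContDiff ℝ ∞ h) := hf.add hh
  algebraMap_mem' r := show ContDiff ℝ ∞ fun _ : E n => r from contDiff_const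

theorem Sm.smooth (f : Sm n) : ContDiff ℝ ∞ f.1 := f.2

/-- evaluation at a point -/
def evA (x : E n) : Sm n →ₐ[ℝ] ℝ := (Pi.evalAlgHom ℝ (fun _ : E n => ℝ) x).comp (Sm n).val

theorem evA_apply (x : E n) (f : Sm n) : evA x f = f.1 x := rfl

theorem contDiff_evA (f : Sm n) : ContDiff ℝ ∞ fun x => evA x f := f.2

/-- partial derivatives as derivations -/
def pdD (i : Fin n) : Derivation ℝ (Sm n) (Sm n) :=
  Derivation.mk'
    { toFun := fun f => ⟨pderiv i f.1, contDiff_pd f.2 i⟩
      map_add' := fun f h => Subtype.ext <| funext fun x =>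
        pd_add (smooth_diff f.2 x) (smooth_diff h.2 x) i
      map_smul' := fun r f => Subtype.ext <| funext fun x => pd_const_mul r f.1 i x }
    fun f h => Subtype.ext <| funext fun x => by
      have := pd_mul (smooth_diff f.2 x) (smooth_diff h.2 x) i
      change pderiv i (fun y => f.1 y * h.1 y) x = f.1 x * pderiv i h.1 x + h.1 x * pderiv i f.1 x
      rw [this]; ring

theorem evA_pdD (x : E n) (i : Fin n) (f : Sm n) :
    evA x (pdD i f) = pderiv i (fun y => evA y f) x := rfl

/-- a matrix field with smooth entries as a matrix over `Sm n` -/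
def mkM {l m : Type*} (M : E n → Matrix l m ℝ) (h : ∀ i j, ContDiff ℝ ∞ fun x => M x i j) :
    Matrix l m (Sm n) := fun i j => ⟨fun x => M x i j, h i j⟩

theorem matrix_ext {l m : Type*} {M N : Matrix l m (Sm n)}
    (h : ∀ x, M.map (evA x) = N.map (evA x)) : M = N := by
  ext i j x
  exact congrFun (congrFun (h x) i) j

variable {g : MetricField n} {ι : Type} [Fintype ι] [DecidableEq ι]

/-- The spin geometry of `g` over the smooth functions. -/
def smSpin (hg : IsRiemannianOn g Set.univ) {c : Fin n → Matrix ι ι ℝ} (hc : IsCliff c) :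
    Spin (pdD (n := n)) ι where
  G := mkM g (contDiff_g hg)
  Gi := mkM (inverseField g) (contDiff_inv hg)
  E := mkM (fun x => frame (g x)) (contDiff_frame (contDiff_g hg) (riem_posDef hg))
  comm i j f := Subtype.ext <| funext fun x =>
    pd_comm ((Sm.smooth f).contDiffAt.of_le (WithTop.coe_le_coe.2 (le_top : (2 : ℕ∞) ≤ ⊤))) i j
  symm := by
    ext i j x
    exact riem_symm hg x j i
  inv := matrix_ext fun x => by
    rw [Matrix.map_mul, Matrix.map_one _ (map_zero _) (map_one _)]
    exact Matrix.nonsing_inv_mul (g x) (det_pos hg x).ne'.isUnit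
  orth := matrix_ext fun x => by
    rw [Matrix.map_mul, Matrix.map_mul, Matrix.map_one _ (map_zero _) (map_one _)]
    exact frame_orth (riem_posDef hg x)
  c a := (c a).map (algebraMap ℝ (Sm n))
  cliff := hc.map _
  const i a := by
    ext k l x
    simp

section values

variable (hg : IsRiemannianOn g Set.univ) {c : Fin n → Matrix ι ι ℝ} (hc : IsCliff c) (x : E n)

theorem ev_G (i j : Fin n) : evA x ((smSpin hg hc).G i j) = g x i j := rfl

theorem ev_Gi (i j : Fin n) : evA x ((smSpin hg hc).Gi i j) = inverseField g x i j := rfl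

theorem ev_E (i a : Fin n) : evA x ((smSpin hg hc).E i a) = frame (g x) i a := rfl

theorem ev_c (a : Fin n) (k l : ι) : evA x ((smSpin hg hc).c a k l) = c a k l := rfl

theorem ev_Γ (i k j : Fin n) : evA x ((smSpin hg hc).Γ i k j) = christoffel g x k i j := by
  simp only [Geo.Γ, map_smul, map_sum, map_mul, map_add, map_sub, evA_pdD, ev_G, ev_Gi,
    smul_eq_mul, christoffel]

theorem ev_scal : evA x (smSpin hg hc).scal = scalarCurv g x := by
  have h : ∀ i j, evA x (pdD j (∑ k, (smSpin hg hc).Γ k k i)) =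
      pderiv j (fun y => ∑ k, christoffel g y k k i) x := fun i j => by
    rw [evA_pdD]
    simp only [map_sum, ev_Γ]
  simp only [Geo.scal, Geo.ric, map_sum (evA x), map_mul, map_add, map_sub, h]
  simp only [evA_pdD, ev_Γ, ev_Gi, scalarCurv, ricci]

theorem ev_dv (W : Fin n → Matrix Unit Unit (Sm n)) :
    divE (fun y i => volDensity g y * evA y (W i () ())) x =
      volDensity g x * evA x ((smSpin hg hc).dv W () ()) := by
  simp only [divE, Spin.dv, Matrix.sum_apply, Matrix.add_apply, Matrix.smul_apply, dM_apply,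
    smul_eq_mul, map_sum, map_add, map_mul, evA_pdD, ev_Γ, Finset.mul_sum]
  refine Finset.sum_congr rfl fun i _ => ?_
  rw [pd_mul (smooth_diff (contDiff_volDensity hg) x) (smooth_diff (contDiff_evA _) x)]
  have h : pderiv i (volDensity g) x = volDensity g x * ∑ k, christoffel g x k k i :=
    Crest.Agent.R247.Bo84.pderiv_sqrt_det hg (Set.mem_univ x) i
  rw [h]
  ring

end values

end Crest.Agent.N346.Sp
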