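import Crest.Agent.N346.Sp.NormD
import Crest.Agent.N346.P2.Basic

/-!
# Row 346, spinor layer (helper85): square integrable weak solutions of the adjoint Callias
equation vanish.
-/

set_option autoImplicit false
open MeasureTheory Filter Topology Metric
open scoped ContDiff InnerProductSpace ENNReal
open Crest.GeometryTopology.CoordMetric
open Crest.MathPhysics.ExteriorData
open Crest.Agent.N346.Bs

noncomputable section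

namespace Crest.Agent.N346.Sp

variable {n : ℕ} {g : MetricField n} {S : Type} [NormedAddCommGroup S] [InnerProductSpace ℝ S]
  {c : Fin n → S →L[ℝ] S} {A : Fin n → E n → S →L[ℝ] S}

theorem int_sq_le3 {X : Type} [MeasurableSpace X] {ν : Measure X} {u v w f : X → S}
    (hu : MemLp u 2 ν) (hv : MemLp v 2 ν) (hw : MemLp w 2 ν) (hf : ∀ x, f x = u x + v x + w x) :
    ∫ x, ‖f x‖ ^ 2 ∂ν ≤ 3 * (∫ x, ‖u x‖ ^ 2 ∂ν + ∫ x, ‖v x‖ ^ 2 ∂ν + ∫ x, ‖w x‖ ^ 2 ∂ν) := by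
  have mf : MemLp f 2 ν := by rw [funext hf]; exact (hu.add hv).add hw
  refine (P2.HI.of (P2.int_normsq mf)).mono ((((P2.HI.of (P2.int_normsq hu)).add
    (.of (P2.int_normsq hv))).add (.of (P2.int_normsq hw))).cmul 3) fun x => ?_
  have h : ‖f x‖ ≤ ‖u x‖ + ‖v x‖ + ‖w x‖ := by rw [hf]; exact norm_add₃_le
  nlinarith [sq_nonneg (‖u x‖ - ‖v x‖), sq_nonneg (‖u x‖ - ‖w x‖), sq_nonneg (‖v x‖ - ‖w x‖),
    pow_le_pow_left₀ (norm_nonneg _) h 2]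

theorem int_sq_le_mul {X : Type} [MeasurableSpace X] {ν : Measure X} {u f : X → S} {M : ℝ}
    (hu : MemLp u 2 ν) (hf : ∀ x, ‖f x‖ ≤ M * ‖u x‖) :
    ∫ x, ‖f x‖ ^ 2 ∂ν ≤ M ^ 2 * ∫ x, ‖u x‖ ^ 2 ∂ν := by
  rw [← integral_const_mul]
  refine integral_mono_of_nonneg (.of_forall fun x => by positivity)
    ((P2.int_normsq hu).const_mul _) (.of_forall fun x => ?_)
  simpa only [mul_pow] using pow_le_pow_left₀ (norm_nonneg _) (hf x) 2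

theorem aesm_cv {β : E n → E n} {ψ : E n → S} {ν : Measure (E n)} (hβ : AEStronglyMeasurable β ν)
    (hψ : AEStronglyMeasurable ψ ν) : AEStronglyMeasurable (fun x => cv c (β x) (ψ x)) ν :=
  Finset.aestronglyMeasurable_fun_sum _ fun a _ =>
    ((EuclideanSpace.proj a : E n →L[ℝ] ℝ).continuous.comp_aestronglyMeasurable hβ).smul
      ((c a).continuous.comp_aestronglyMeasurable hψ)

theorem Tst.memLpN (hg : IsRiemannianOn g Set.univ) {ξ : E n → S} (h : Tst ξ) : MemLp ξ 2 (nu g) :=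
  memLp_cs hg h.1.continuous h.2 2

theorem Tst.memLp_dir (hg : IsRiemannianOn g Set.univ) (hs : SpinData g c A) {ξ : E n → S}
    (h : Tst ξ) : MemLp (dir g c A ξ) 2 (nu g) :=
  memLp_cs hg (hs.contDiff_dir hg h.1).continuous (hasCompactSupport_dir h.2) 2

/-- approximation of a cut off weak solution of `D Θ = s F Θ'` -/
theorem approx_weak [FiniteDimensional ℝ S] (hFr : FriedStmt) (hfr : P2.Fr g (fr g))
    (hs : SpinData g c A) : ∃ K : ℝ, ∀ (Θ h : E n → S), MemLp Θ 2 (nu g) → MemLp h 2 (nu g) →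
    (∀ ξ, Tst ξ → ∫ x, ⟪Θ x, dir g c A ξ x⟫_ℝ ∂nu g = ∫ x, ⟪h x, ξ x⟫_ℝ ∂nu g) →
    ∀ r δ : ℝ, 0 ≤ r → 0 < δ → ∃ (ξ w : E n → S), Tst ξ ∧ MemLp w 2 (nu g) ∧
      ∫ x, ‖ξ x - eta (r + δ⁻¹) x • Θ x‖ ^ 2 ∂nu g ≤ δ ∧
      ∫ x, ‖dir g c A ξ x - (eta (r + δ⁻¹) x • h x + w x)‖ ^ 2 ∂nu g ≤ δ ∧
      ∫ x, ‖w x‖ ^ 2 ∂nu g ≤ (K * δ) ^ 2 * ∫ x, ‖Θ x‖ ^ 2 ∂nu g := by
  obtain ⟨K, hK1, hK⟩ := hfr.exists_grad_bd
  obtain ⟨C, hC0, hC⟩ := exists_eta_grad n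
  refine ⟨K * C, fun Θ h mΘ mh hw r δ hr hδ => ?_⟩
  have hR : 0 < r + δ⁻¹ := by positivity
  obtain ⟨ξ, h1, h2, h3⟩ := hFr n g hfr.riem S c A hs Θ h mΘ mh hw _ (contDiff_eta (r + δ⁻¹))
    (hasCompactSupport_eta hR) δ hδ
  have hb : ∀ x, ‖cv c (P2.fgrad (fr g) (eta (r + δ⁻¹)) x) (Θ x)‖ ≤ K * C * δ * ‖Θ x‖ := fun x => by
    rw [hs.cl.norm_cv]
    refine mul_le_mul_of_nonneg_right ((hK _ x).1.trans ?_) (norm_nonneg _)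
    rw [mul_assoc]
    refine mul_le_mul_of_nonneg_left ((hC _ hR x).trans ?_) (by linarith)
    rw [div_le_iff₀ hR, mul_assoc, mul_add, mul_inv_cancel₀ hδ.ne']
    nlinarith [mul_nonneg hC0 (mul_nonneg hδ.le hr)]
  refine ⟨ξ, fun x => cv c (P2.fgrad (fr g) (eta (r + δ⁻¹)) x) (Θ x), h1,
    mΘ.of_le_mul (aesm_cv (hfr.continuous_fgrad (smooth_one (contDiff_eta _))).aestronglyMeasurable
      mΘ.1) (.of_forall hb), h2, ?_, int_sq_le_mul mΘ hb⟩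
  simpa only [cv, fgrad_fr] using h3

theorem weak_zero [FiniteDimensional ℝ S] (hFr : FriedStmt) (hfr : P2.Fr g (fr g))
    (hs : SpinData g c A) {F : E n → ℝ} (bF : P2.Bd F)
    (hco : ∀ r : ℝ, ∃ K : ℝ, 0 ≤ K ∧ ∀ ξ₁ ξ₂ : E n → S, Tst ξ₁ → Tst ξ₂ →
      ∫ x in closedBall 0 r, (‖ξ₁ x‖ ^ 2 + ‖ξ₂ x‖ ^ 2) ∂nu g ≤
        K * (∫ x, ‖dir g c A ξ₁ x + F x • ξ₂ x‖ ^ 2 ∂nu g +
          ∫ x, ‖-dir g c A ξ₂ x + F x • ξ₁ x‖ ^ 2 ∂nu g))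
    {Θ₁ Θ₂ : E n → S} (m₁ : MemLp Θ₁ 2 (nu g)) (m₂ : MemLp Θ₂ 2 (nu g))
    (w₁ : ∀ ξ, Tst ξ → ∫ x, ⟪Θ₁ x, dir g c A ξ x⟫_ℝ ∂nu g = ∫ x, ⟪-(F x • Θ₂ x), ξ x⟫_ℝ ∂nu g)
    (w₂ : ∀ ξ, Tst ξ → ∫ x, ⟪Θ₂ x, dir g c A ξ x⟫_ℝ ∂nu g = ∫ x, ⟪F x • Θ₁ x, ξ x⟫_ℝ ∂nu g) :
    ∫ x, (‖Θ₁ x‖ ^ 2 + ‖Θ₂ x‖ ^ 2) ∂nu g ≤ 0 := by
  have hg := hfr.riem
  have hi : Integrable (fun x => ‖Θ₁ x‖ ^ 2 + ‖Θ₂ x‖ ^ 2) (nu g) :=
    (P2.int_normsq m₁).add (P2.int_normsq m₂)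
  obtain ⟨K, hK⟩ := approx_weak hFr hfr hs
  obtain ⟨M, hM⟩ := bF.2
  have n₁ : MemLp (fun x => -(F x • Θ₂ x)) 2 (nu g) := (bF.smul_memLp m₂).neg
  have n₂ : MemLp (fun x => F x • Θ₁ x) 2 (nu g) := bF.smul_memLp m₁
  have key : ∀ r : ℝ, 0 ≤ r →
      ∫ x in closedBall 0 r, (‖Θ₁ x‖ ^ 2 + ‖Θ₂ x‖ ^ 2) ∂nu g ≤ 0 := fun r hr => by
    obtain ⟨Z, hZ0, hZ⟩ := hco r
    set N₁ := ∫ x, ‖Θ₁ x‖ ^ 2 ∂nu g
    set N₂ := ∫ x, ‖Θ₂ x‖ ^ 2 ∂nu g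
    have hlim : Tendsto (fun δ : ℝ => 2 * (Z * (3 * (δ + M ^ 2 * δ + (K * δ) ^ 2 * N₁) +
        3 * (δ + M ^ 2 * δ + (K * δ) ^ 2 * N₂))) + 2 * (δ + δ)) (𝓝[>] 0) (𝓝 0) :=
      (Continuous.tendsto' (by fun_prop) 0 0 (by simp)).mono_left nhdsWithin_le_nhds
    refine ge_of_tendsto hlim (eventually_mem_nhdsWithin.mono fun δ (hδ : 0 < δ) => ?_)
    obtain ⟨ξ₁, v₁, t₁, mv₁, a₁, b₁, c₁⟩ := hK Θ₁ _ m₁ n₁ w₁ r δ hr hδ
    obtain ⟨ξ₂, v₂, t₂, mv₂, a₂, b₂, c₂⟩ := hK Θ₂ _ m₂ n₂ w₂ r δ hr hδ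
    set η : E n → ℝ := eta (r + δ⁻¹)
    have bη : P2.Bd η := ⟨(contDiff_eta _).continuous.measurable, 1, fun x => by
      rw [abs_of_nonneg (eta_nonneg _ x)]; exact eta_le_one _ x⟩
    have d₁ : MemLp (fun x => ξ₁ x - η x • Θ₁ x) 2 (nu g) := (t₁.memLpN hg).sub (bη.smul_memLp m₁)
    have d₂ : MemLp (fun x => ξ₂ x - η x • Θ₂ x) 2 (nu g) := (t₂.memLpN hg).sub (bη.smul_memLp m₂)
    have hF : ∀ {d : E n → S}, MemLp d 2 (nu g) → ∫ x, ‖d x‖ ^ 2 ∂nu g ≤ δ →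
        ∫ x, ‖F x • d x‖ ^ 2 ∂nu g ≤ M ^ 2 * δ := fun md hd =>
      (int_sq_le_mul md fun x => by
        rw [norm_smul]; exact mul_le_mul_of_nonneg_right (hM x) (norm_nonneg _)).trans
        (mul_le_mul_of_nonneg_left hd (sq_nonneg M))
    have e₁ := int_sq_le3 (f := fun x => dir g c A ξ₁ x + F x • ξ₂ x)
      ((t₁.memLp_dir hg hs).sub ((bη.smul_memLp n₁).add mv₁)) (bF.smul_memLp d₂) mv₁
      fun x => by simp only [Pi.sub_apply, Pi.add_apply]; module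
    have e₂ := int_sq_le3 (f := fun x => -dir g c A ξ₂ x + F x • ξ₁ x)
      ((t₂.memLp_dir hg hs).sub ((bη.smul_memLp n₂).add mv₂)).neg (bF.smul_memLp d₁) mv₂.neg
      fun x => by simp only [Pi.sub_apply, Pi.add_apply, Pi.neg_apply]; module
    simp only [Pi.sub_apply, Pi.add_apply, Pi.neg_apply, norm_neg] at e₁ e₂
    have e₃ := (hZ ξ₁ ξ₂ t₁ t₂).trans (mul_le_mul_of_nonneg_left (add_le_add
      (e₁.trans (mul_le_mul_of_nonneg_left (add_le_add (add_le_add b₁ (hF d₂ a₂)) c₁) (by norm_num)))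
      (e₂.trans (mul_le_mul_of_nonneg_left (add_le_add (add_le_add b₂ (hF d₁ a₁)) c₂)
        (by norm_num)))) hZ0)
    have i₁ : Integrable (fun x => ‖ξ₁ x‖ ^ 2 + ‖ξ₂ x‖ ^ 2) (nu g) :=
      (P2.int_normsq (t₁.memLpN hg)).add (P2.int_normsq (t₂.memLpN hg))
    have i₂ : Integrable (fun x => ‖ξ₁ x - η x • Θ₁ x‖ ^ 2 + ‖ξ₂ x - η x • Θ₂ x‖ ^ 2) (nu g) :=
      (P2.int_normsq d₁).add (P2.int_normsq d₂)
    have e₄ : ∫ x in closedBall 0 r, (‖ξ₁ x - η x • Θ₁ x‖ ^ 2 + ‖ξ₂ x - η x • Θ₂ x‖ ^ 2) ∂nu g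
        ≤ δ + δ := by
      refine (setIntegral_le_integral i₂ (.of_forall fun x => by positivity)).trans ?_
      rw [integral_add (P2.int_normsq d₁) (P2.int_normsq d₂)]
      exact add_le_add a₁ a₂
    refine le_trans ?_ (add_le_add (mul_le_mul_of_nonneg_left e₃ zero_le_two)
      (mul_le_mul_of_nonneg_left e₄ zero_le_two))
    rw [← integral_const_mul, ← integral_const_mul,
      ← integral_add (i₁.integrableOn.const_mul 2) (i₂.integrableOn.const_mul 2)]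
    refine setIntegral_mono_on hi.integrableOn
      ((i₁.const_mul 2).add (i₂.const_mul 2)).integrableOn measurableSet_closedBall fun x hx => ?_
    have h1 : η x = 1 := eta_eq_one (by positivity)
      ((mem_closedBall_zero_iff.1 hx).trans (le_add_of_nonneg_right (by positivity)))
    have h2 : ∀ u v : S, ‖v‖ ^ 2 ≤ 2 * ‖u‖ ^ 2 + 2 * ‖u - v‖ ^ 2 := fun u v => by
      have : ‖v‖ ≤ ‖u‖ + ‖u - v‖ := by simpa using norm_sub_le u (u - v)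
      nlinarith [pow_le_pow_left₀ (norm_nonneg _) this 2, sq_nonneg (‖u‖ - ‖u - v‖)]
    simp only [h1, one_smul]
    linarith [h2 (ξ₁ x) (Θ₁ x), h2 (ξ₂ x) (Θ₂ x)]
  have hlim := tendsto_setIntegral_of_monotone (μ := nu g)
    (f := fun x => ‖Θ₁ x‖ ^ 2 + ‖Θ₂ x‖ ^ 2) (s := fun k : ℕ => closedBall (0 : E n) k)
    (fun _ => measurableSet_closedBall)
    (fun i j hij => closedBall_subset_closedBall (Nat.cast_le.2 hij)) hi.integrableOn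
  rw [iUnion_closedBall_nat, Measure.restrict_univ] at hlim
  exact le_of_tendsto' hlim fun k => key k k.cast_nonneg

end Crest.Agent.N346.Sp
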